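import Mathlib

/-!
# Lib/AASmooth : smooth Arzela-Ascoli (helper167)

`aas_main` : `Q` a subset of a finite dimensional real normed space with unique derivatives such that every point of `Q` has a compact
convex neighbourhood within `Q` (contained in `Q`).  A sequence `f k : E → F` which is eventually smooth near every compact subset of `Q` and
whose `iteratedFDerivWithin` of every order are eventually bounded on every compact subset of `Q` has a subsequence which converges, with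
all derivatives, uniformly on the compact subsets of `Q`, to a function which is smooth on `Q`.
`aas_prod` : the case `Q = I ×ˢ U`, `I ⊆ ℝ` convex with nonempty interior, `IsOpen U`.
Tools: `aas_diag` (Arzela-Ascoli + diagonal sequence for a countable family of sequences, by Tychonoff),
`aas_hasFDerivWithinAt_of_tendsto` (limit of derivatives = derivative of the limit within a convex set),
`aas_finiteDimensional`, `aas_properSpace` (continuous multilinear maps between finite dimensional spaces).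
-/

set_option autoImplicit false
set_option linter.unusedSectionVars false

open Set Filter Topology
open scoped ContDiff NNReal

namespace Claimed.Agent.Lib

section diag

variable {E : Type*} [NormedAddCommGroup E]

/-- uniform bound and uniform Lipschitz constant on `N`. -/
def aasGood {M : Type*} [NormedAddCommGroup M] (N : Set E) (C : ℝ) (L : ℝ≥0) (h : E → M) : Prop :=
  (∀ x ∈ N, ‖h x‖ ≤ C) ∧ LipschitzOnWith L h N

/-- the compact set of Arzela-Ascoli. -/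
theorem aas_isCompact {M : Type*} [NormedAddCommGroup M] [ProperSpace M] (N : Set E)
    [CompactSpace N] (C : ℝ) (L : ℝ≥0) :
    IsCompact {b : BoundedContinuousFunction N M | (∀ x, ‖b x‖ ≤ C) ∧ LipschitzWith L b} := by
  refine BoundedContinuousFunction.arzela_ascoli₂ (Metric.closedBall (0 : M) C)
    (isCompact_closedBall 0 C) _ ?_ ?_ ?_
  · have h1 : IsClosed {f : N → M | ∀ x, ‖f x‖ ≤ C} := by
      have : {f : N → M | ∀ x, ‖f x‖ ≤ C} = ⋂ x, {f : N → M | ‖f x‖ ≤ C} := by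
        ext f; simp
      rw [this]
      exact isClosed_iInter (fun x => isClosed_le (continuous_apply x).norm continuous_const)
    have h2 : IsClosed {f : N → M | LipschitzWith L f} := isClosed_setOfPred_lipschitzWith L
    exact (h1.inter h2).preimage BoundedContinuousFunction.continuous_coe
  · intro f x hf
    simpa using hf.1 x
  · exact (LipschitzWith.uniformEquicontinuous _ L (fun c => c.2.2)).equicontinuous

open Classical in
/-- the restriction to `N` as a bounded continuous function (`0` if the function is not good). -/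
noncomputable def aasBcf {M : Type*} [NormedAddCommGroup M] (N : Set E) [CompactSpace N] (C : ℝ)
    (L : ℝ≥0) (h : E → M) : BoundedContinuousFunction N M :=
  if hg : aasGood N C L h then
    BoundedContinuousFunction.mkOfCompact ⟨N.domRestrict h, hg.2.to_restrict.continuous⟩
  else 0

theorem aasBcf_apply {M : Type*} [NormedAddCommGroup M] {N : Set E} [CompactSpace N] {C : ℝ}
    {L : ℝ≥0} {h : E → M} (hg : aasGood N C L h) (x : N) : aasBcf N C L h x = h x := by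
  rw [aasBcf, dif_pos hg]
  rfl

theorem aasBcf_mem {M : Type*} [NormedAddCommGroup M] (N : Set E) [CompactSpace N] (C : ℝ)
    (L : ℝ≥0) (h : E → M) :
    aasBcf N C L h ∈
      {b : BoundedContinuousFunction N M | (∀ x, ‖b x‖ ≤ |C|) ∧ LipschitzWith L b} := by
  by_cases hg : aasGood N C L h
  · refine ⟨fun x => ?_, ?_⟩
    · rw [aasBcf_apply hg]
      exact (hg.1 x x.2).trans (le_abs_self C)
    · have : (aasBcf N C L h : N → M) = N.domRestrict h := by
        funext x; exact aasBcf_apply hg x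
      rw [this]
      exact hg.2.to_restrict
  · rw [aasBcf, dif_neg hg]
    refine ⟨fun x => by simp, ?_⟩
    have : ((0 : BoundedContinuousFunction N M) : N → M) = fun _ => 0 := rfl
    rw [this]
    exact (LipschitzWith.const (α := N) (0 : M)).weaken (zero_le)

/-- **Arzela-Ascoli with a diagonal sequence**, for a countable family of sequences of functions. -/
theorem aas_diag {ι : Type*} [Countable ι] {M : ι → Type*} [∀ i, NormedAddCommGroup (M i)]
    [∀ i, ProperSpace (M i)] (N : ι → Set E) (hN : ∀ i, IsCompact (N i)) (C : ι → ℝ) (L : ι → ℝ≥0)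
    (h : ∀ i, ℕ → E → M i) (hgood : ∀ i, ∀ᶠ k in atTop, aasGood (N i) (C i) (L i) (h i k)) :
    ∃ φ : ℕ → ℕ, StrictMono φ ∧
      ∀ i, ∃ g : E → M i, TendstoUniformlyOn (fun k => h i (φ k)) g atTop (N i) := by
  classical
  have : ∀ i, CompactSpace (N i) := fun i => isCompact_iff_compactSpace.1 (hN i)
  set A : ∀ i, Set (BoundedContinuousFunction (N i) (M i)) := fun i =>
    {b | (∀ x, ‖b x‖ ≤ |C i|) ∧ LipschitzWith (L i) b} with hA
  have hAc : IsCompact (univ.pi A) := isCompact_univ_pi (fun i => aas_isCompact (N i) |C i| (L i))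
  set x : ℕ → ∀ i, BoundedContinuousFunction (N i) (M i) := fun k i =>
    aasBcf (N i) (C i) (L i) (h i k) with hx
  obtain ⟨a, -, φ, hφ, hlim⟩ := hAc.tendsto_subseq (x := x)
    (fun k i _ => aasBcf_mem (N i) (C i) (L i) (h i k))
  refine ⟨φ, hφ, fun i => ?_⟩
  have h1 : Tendsto (fun k => x (φ k) i) atTop (𝓝 (a i)) := (tendsto_pi_nhds.1 hlim) i
  rw [BoundedContinuousFunction.tendsto_iff_tendstoUniformly] at h1
  refine ⟨fun y => if hy : y ∈ N i then a i ⟨y, hy⟩ else 0, ?_⟩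
  rw [Metric.tendstoUniformlyOn_iff]
  intro ε hε
  have h2 := (Metric.tendstoUniformly_iff.1 h1) ε hε
  have h3 : ∀ᶠ k in atTop, aasGood (N i) (C i) (L i) (h i (φ k)) :=
    hφ.tendsto_atTop.eventually (hgood i)
  filter_upwards [h2, h3] with k hk hg y hy
  rw [dif_pos hy]
  have := hk ⟨y, hy⟩
  rwa [hx, aasBcf_apply hg] at this

end diag

section lim

variable {E : Type*} [NormedAddCommGroup E] [NormedSpace ℝ E]

/-- the limit of the derivatives is the derivative of the limit, within a convex set. -/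
theorem aas_hasFDerivWithinAt_of_tendsto {G : Type*} [NormedAddCommGroup G] [NormedSpace ℝ G]
    {N : Set E} (hN : Convex ℝ N) {g : ℕ → E → G} {g' : ℕ → E → E →L[ℝ] G} {g₀ : E → G}
    {g₁ : E → E →L[ℝ] G}
    (hd : ∀ᶠ k in atTop, ∀ x ∈ N, HasFDerivWithinAt (g k) (g' k x) N x)
    (hg : ∀ x ∈ N, Tendsto (fun k => g k x) atTop (𝓝 (g₀ x)))
    (hg' : TendstoUniformlyOn g' g₁ atTop N) (hc : ContinuousOn g₁ N) {x : E} (hx : x ∈ N) :
    HasFDerivWithinAt g₀ (g₁ x) N x := by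
  rw [hasFDerivWithinAt_iff_isLittleO, Asymptotics.isLittleO_iff]
  intro c hc0
  obtain ⟨δ, hδ, hδ'⟩ := (Metric.continuousWithinAt_iff.1 (hc x hx)) (c / 2) (by positivity)
  have hmem : N ∩ Metric.ball x δ ∈ 𝓝[N] x :=
    inter_mem self_mem_nhdsWithin (mem_nhdsWithin_of_mem_nhds (Metric.ball_mem_nhds x hδ))
  filter_upwards [hmem] with y hy
  have hs : Convex ℝ (N ∩ Metric.ball x δ) := hN.inter (convex_ball x δ)
  have hxs : x ∈ N ∩ Metric.ball x δ := ⟨hx, Metric.mem_ball_self hδ⟩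
  have hu := (Metric.tendstoUniformlyOn_iff.1 hg') (c / 2) (by positivity)
  have hk : ∀ᶠ k in atTop, ‖g k y - g k x - g₁ x (y - x)‖ ≤ c * ‖y - x‖ := by
    filter_upwards [hd, hu] with k hdk huk
    refine Convex.norm_image_sub_le_of_norm_hasFDerivWithin_le' (f' := g' k)
      (fun z hz => (hdk z hz.1).mono inter_subset_left) (fun z hz => ?_) hs hxs hy
    have h1 : ‖g' k z - g₁ z‖ ≤ c / 2 := by
      have := huk z hz.1
      rw [dist_comm, dist_eq_norm] at this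
      exact this.le
    have h2 : ‖g₁ z - g₁ x‖ ≤ c / 2 := by
      have := hδ' hz.1 hz.2
      rw [dist_eq_norm] at this
      exact this.le
    calc ‖g' k z - g₁ x‖ = ‖(g' k z - g₁ z) + (g₁ z - g₁ x)‖ := by congr 1; abel
      _ ≤ ‖g' k z - g₁ z‖ + ‖g₁ z - g₁ x‖ := norm_add_le _ _
      _ ≤ c := by linarith
  have hlim : Tendsto (fun k => ‖g k y - g k x - g₁ x (y - x)‖) atTop
      (𝓝 ‖g₀ y - g₀ x - g₁ x (y - x)‖) :=
    (((hg y hy.1).sub (hg x hx)).sub tendsto_const_nhds).norm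
  exact le_of_tendsto hlim hk

end lim

section fd

variable (E F : Type*) [NormedAddCommGroup E] [NormedSpace ℝ E] [FiniteDimensional ℝ E]
  [NormedAddCommGroup F] [NormedSpace ℝ F] [FiniteDimensional ℝ F]

theorem aas_finiteDimensional (m : ℕ) : FiniteDimensional ℝ (E [×m]→L[ℝ] F) := by
  induction m with
  | zero => exact (continuousMultilinearCurryFin0 ℝ E F).symm.toLinearEquiv.finiteDimensional
  | succ m ih =>
    exact (continuousMultilinearCurryLeftEquiv ℝ (fun _ : Fin (m + 1) => E)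
      F).symm.toLinearEquiv.finiteDimensional

theorem aas_properSpace (m : ℕ) : ProperSpace (E [×m]→L[ℝ] F) := by
  have := aas_finiteDimensional E F m
  exact FiniteDimensional.proper_real _

end fd

section main

variable {E F : Type*} [NormedAddCommGroup E] [NormedSpace ℝ E] [FiniteDimensional ℝ E]
  [NormedAddCommGroup F] [NormedSpace ℝ F] [FiniteDimensional ℝ F]

theorem aas_contDiffWithinAt {Q O : Set E} (hO : IsOpen O) {f : E → F}
    (hf : ContDiffOn ℝ ∞ f (O ∩ Q)) {x : E} (hx : x ∈ O ∩ Q) : ContDiffWithinAt ℝ ∞ f Q x := by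
  have h := hf x hx
  rw [inter_comm] at h
  exact (contDiffWithinAt_inter (hO.mem_nhds hx.1)).1 h

/-- the iterated derivatives within `Q` of a function which is smooth near `x` within `Q`. -/
theorem aas_hasFDerivWithinAt_iterated {Q O : Set E} (hQ : UniqueDiffOn ℝ Q) (hO : IsOpen O)
    {f : E → F} (hf : ContDiffOn ℝ ∞ f (O ∩ Q)) (m : ℕ) {x : E} (hx : x ∈ O ∩ Q) :
    HasFDerivWithinAt (iteratedFDerivWithin ℝ m f Q)
      (iteratedFDerivWithin ℝ (m + 1) f Q x).curryLeft Q x := by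
  have h1 : ContDiffWithinAt ℝ ∞ f Q x := aas_contDiffWithinAt hO hf hx
  have h2 : DifferentiableWithinAt ℝ (iteratedFDerivWithin ℝ m f Q) Q x :=
    h1.differentiableWithinAt_iteratedFDerivWithin (by exact_mod_cast ENat.natCast_lt_top m)
      (by rwa [insert_eq_of_mem hx.2])
  have h3 := h2.hasFDerivWithinAt
  have e : fderivWithin ℝ (iteratedFDerivWithin ℝ m f Q) Q x
      = (iteratedFDerivWithin ℝ (m + 1) f Q x).curryLeft := by
    rw [iteratedFDerivWithin_succ_eq_comp_left]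
    exact ((continuousMultilinearCurryLeftEquiv ℝ (fun _ : Fin (m + 1) => E) F).apply_symm_apply
      _).symm
  rwa [e] at h3

/-- **smooth Arzela-Ascoli.** -/
theorem aas_main (Q : Set E) (hQ : UniqueDiffOn ℝ Q)
    (hloc : ∀ x ∈ Q, ∃ N : Set E, IsCompact N ∧ Convex ℝ N ∧ N ⊆ Q ∧ N ∈ 𝓝[Q] x)
    (f : ℕ → E → F)
    (hf : ∀ K : Set E, IsCompact K → K ⊆ Q → ∃ k₀ : ℕ, ∀ k, k₀ ≤ k →
      ∃ O : Set E, IsOpen O ∧ K ⊆ O ∧ ContDiffOn ℝ ∞ (f k) (O ∩ Q))
    (hb : ∀ K : Set E, IsCompact K → K ⊆ Q → ∀ m : ℕ, ∃ (C : ℝ) (k₀ : ℕ), ∀ k, k₀ ≤ k →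
      ∀ q ∈ K, ‖iteratedFDerivWithin ℝ m (f k) Q q‖ ≤ C) :
    ∃ (φ : ℕ → ℕ) (F₀ : E → F), StrictMono φ ∧ ContDiffOn ℝ ∞ F₀ Q ∧
      ∀ K : Set E, IsCompact K → K ⊆ Q → ∀ (m : ℕ) (ε : ℝ), 0 < ε → ∃ k₀, ∀ k, k₀ ≤ k →
        ∀ q ∈ K, ‖iteratedFDerivWithin ℝ m (fun p => f (φ k) p - F₀ p) Q q‖ ≤ ε := by
  classical
  -- boxes
  choose! N hNc hNv hNQ hNn using hloc
  have hO : ∀ x ∈ Q, ∃ O : Set E, IsOpen O ∧ x ∈ O ∧ O ∩ Q ⊆ N x :=
    fun x hx => mem_nhdsWithin.1 (hNn x hx)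
  choose! O hOo hxO hON using hO
  obtain ⟨t, htQ, htc, hcov⟩ := TopologicalSpace.countable_cover_nhdsWithin (f := O) (s := Q)
    (fun x hx => mem_nhdsWithin_of_mem_nhds ((hOo x hx).mem_nhds (hxO x hx)))
  have : Countable t := htc.to_subtype
  set D : ∀ m : ℕ, ℕ → E → E [×m]→L[ℝ] F := fun m k => iteratedFDerivWithin ℝ m (f k) Q with hD
  have hsm : ∀ i : t, ∀ᶠ k in atTop, ∃ O' : Set E, IsOpen O' ∧ N i ⊆ O' ∧
      ContDiffOn ℝ ∞ (f k) (O' ∩ Q) := by
    intro i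
    obtain ⟨k₀, hk₀⟩ := hf (N i) (hNc i (htQ i.2)) (hNQ i (htQ i.2))
    exact eventually_atTop.2 ⟨k₀, hk₀⟩
  have hder : ∀ (i : t) (m : ℕ), ∀ᶠ k in atTop, ∀ x ∈ N i,
      HasFDerivWithinAt (D m k) (D (m + 1) k x).curryLeft Q x := by
    intro i m
    filter_upwards [hsm i] with k hk x hx
    obtain ⟨O', hO', hNO', hfk⟩ := hk
    exact aas_hasFDerivWithinAt_iterated hQ hO' hfk m ⟨hNO' hx, hNQ i (htQ i.2) hx⟩
  have hbd : ∀ (i : t) (m : ℕ), ∃ C : ℝ, ∀ᶠ k in atTop, ∀ x ∈ N i, ‖D m k x‖ ≤ C := by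
    intro i m
    obtain ⟨C, k₀, hk₀⟩ := hb (N i) (hNc i (htQ i.2)) (hNQ i (htQ i.2)) m
    exact ⟨C, eventually_atTop.2 ⟨k₀, hk₀⟩⟩
  choose C hC using hbd
  have hgood : ∀ p : t × ℕ, ∀ᶠ k in atTop,
      aasGood (N p.1) (C p.1 p.2) (Real.toNNReal (C p.1 (p.2 + 1))) (D p.2 k) := by
    rintro ⟨i, m⟩
    filter_upwards [hC i m, hC i (m + 1), hder i m] with k h1 h2 h3
    refine ⟨h1, Convex.lipschitzOnWith_of_nnnorm_hasFDerivWithin_le
      (fun x hx => (h3 x hx).mono (hNQ i (htQ i.2))) (fun x hx => ?_) (hNv i (htQ i.2))⟩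
    rw [← NNReal.coe_le_coe, coe_nnnorm, ContinuousMultilinearMap.curryLeft_norm]
    exact (h2 x hx).trans (Real.le_coe_toNNReal _)
  have : ∀ p : t × ℕ, ProperSpace (E [×p.2]→L[ℝ] F) := fun p => aas_properSpace E F p.2
  obtain ⟨φ, hφ, hconv⟩ := aas_diag (ι := t × ℕ) (M := fun p => E [×p.2]→L[ℝ] F)
    (fun p => N p.1) (fun p => hNc p.1 (htQ p.1.2)) (fun p => C p.1 p.2)
    (fun p => Real.toNNReal (C p.1 (p.2 + 1))) (fun p k => D p.2 k) hgood
  -- the limits
  set P : ∀ m : ℕ, E → E [×m]→L[ℝ] F := fun m x => limUnder atTop (fun k => D m (φ k) x) with hP'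
  have hP : ∀ (i : t) (m : ℕ), TendstoUniformlyOn (fun k => D m (φ k)) (P m) atTop (N i) := by
    intro i m
    obtain ⟨g, hg⟩ := hconv (i, m)
    refine hg.congr_right (fun x hx => ?_)
    exact ((hg.tendsto_at hx).limUnder_eq).symm
  have hderφ : ∀ (i : t) (m : ℕ), ∀ᶠ k in atTop, ∀ x ∈ N i,
      HasFDerivWithinAt (D m (φ k)) (D (m + 1) (φ k) x).curryLeft Q x :=
    fun i m => hφ.tendsto_atTop.eventually (hder i m)
  have hPc : ∀ (i : t) (m : ℕ), ContinuousOn (P m) (N i) := by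
    intro i m
    refine (hP i m).continuousOn (Eventually.frequently ?_)
    filter_upwards [hderφ i m] with k hk x hx
    exact (hk x hx).continuousWithinAt.mono (hNQ i (htQ i.2))
  have hPd : ∀ (m : ℕ), ∀ x ∈ Q, HasFDerivWithinAt (P m) (P (m + 1) x).curryLeft Q x := by
    intro m x hx
    obtain ⟨y, hyt, hxy⟩ := mem_iUnion₂.1 (hcov hx)
    set i : t := ⟨y, hyt⟩ with hi
    have hxN : x ∈ N i := hON y (htQ hyt) ⟨hxy, hx⟩
    have hnh : N i ∈ 𝓝[Q] x := mem_nhdsWithin.2 ⟨O y, hOo y (htQ hyt), hxy, hON y (htQ hyt)⟩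
    set Φ := continuousMultilinearCurryLeftEquiv ℝ (fun _ : Fin (m + 1) => E) F with hΦ
    have h1 : TendstoUniformlyOn (fun k x => (D (m + 1) (φ k) x).curryLeft)
        (fun x => (P (m + 1) x).curryLeft) atTop (N i) :=
      Φ.isometry.uniformContinuous.comp_tendstoUniformlyOn (hP i (m + 1))
    have h2 : ContinuousOn (fun x => (P (m + 1) x).curryLeft) (N i) :=
      Φ.continuous.comp_continuousOn (hPc i (m + 1))
    have h3 := aas_hasFDerivWithinAt_of_tendsto (hNv i (htQ i.2)) (g := fun k => D m (φ k))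
      (g' := fun k x => (D (m + 1) (φ k) x).curryLeft) (g₀ := P m)
      (g₁ := fun x => (P (m + 1) x).curryLeft)
      (by
        filter_upwards [hderφ i m] with k hk z hz
        exact (hk z hz).mono (hNQ i (htQ i.2)))
      (fun z hz => (hP i m).tendsto_at hz) h1 h2 hxN
    exact h3.mono_of_mem_nhdsWithin hnh
  have hT : HasFTaylorSeriesUpToOn ∞ (fun x => (P 0 x).curry0) (fun x m => P m x) Q :=
    ⟨fun x _ => rfl, fun m _ x hx => hPd m x hx,
      fun m _ x hx => (hPd m x hx).continuousWithinAt⟩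
  refine ⟨φ, fun x => (P 0 x).curry0, hφ, hT.contDiffOn, ?_⟩
  intro K hK hKQ m ε hε
  obtain ⟨s, hs⟩ := hK.elim_finite_subcover (fun i : t => O i) (fun i => hOo i (htQ i.2))
    (fun x hx => by
      obtain ⟨y, hyt, hxy⟩ := mem_iUnion₂.1 (hcov (hKQ hx))
      exact mem_iUnion.2 ⟨⟨y, hyt⟩, hxy⟩)
  have hev : ∀ᶠ k in atTop, ∀ i ∈ s, (∀ x ∈ N i, dist (P m x) (D m (φ k) x) < ε) ∧
      ∃ O' : Set E, IsOpen O' ∧ N i ⊆ O' ∧ ContDiffOn ℝ ∞ (f (φ k)) (O' ∩ Q) := by
    rw [Filter.eventually_all_finset]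
    intro i _
    exact ((Metric.tendstoUniformlyOn_iff.1 (hP i m)) ε hε).and
      (hφ.tendsto_atTop.eventually (hsm i))
  obtain ⟨k₀, hk₀⟩ := eventually_atTop.1 hev
  refine ⟨k₀, fun k hk q hq => ?_⟩
  obtain ⟨i, his, hqi⟩ := mem_iUnion₂.1 (hs hq)
  have hqQ := hKQ hq
  have hqN : q ∈ N i := hON i (htQ i.2) ⟨hqi, hqQ⟩
  obtain ⟨h1, O', hO', hNO', hfk⟩ := hk₀ k hk i his
  have c1 : ContDiffWithinAt ℝ m (f (φ k)) Q q :=
    (aas_contDiffWithinAt hO' hfk ⟨hNO' hqN, hqQ⟩).of_le (by exact_mod_cast le_top)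
  have c2 : ContDiffWithinAt ℝ m (fun x => (P 0 x).curry0) Q q :=
    (hT.contDiffOn q hqQ).of_le (by exact_mod_cast le_top)
  have e1 := iteratedFDerivWithin_sub_apply c1 c2 hQ hqQ
  have e2 : iteratedFDerivWithin ℝ m (fun x => (P 0 x).curry0) Q q = P m q :=
    (hT.eq_iteratedFDerivWithin_of_uniqueDiffOn (by exact_mod_cast le_top) hQ hqQ).symm
  have e3 : (fun p => f (φ k) p - (P 0 p).curry0) = f (φ k) - fun x => (P 0 x).curry0 := rfl
  rw [e3, e1, e2, ← dist_eq_norm, dist_comm]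
  exact (h1 q hqN).le

end main

section prod

variable {E F : Type*} [NormedAddCommGroup E] [NormedSpace ℝ E] [FiniteDimensional ℝ E]
  [NormedAddCommGroup F] [NormedSpace ℝ F] [FiniteDimensional ℝ F]

/-- a compact interval contained in the convex set `I` which is a neighbourhood of `t` within `I`. -/
theorem aas_interval {I : Set ℝ} (hI : Convex ℝ I) {t : ℝ} (ht : t ∈ I) :
    ∃ a b : ℝ, Icc a b ⊆ I ∧ Icc a b ∈ 𝓝[I] t := by
  have ha : ∃ a ∈ I, Ici a ∈ 𝓝[I] t := by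
    by_cases h : ∃ a ∈ I, a < t
    · obtain ⟨a, haI, hat⟩ := h
      exact ⟨a, haI, mem_nhdsWithin_of_mem_nhds (Ici_mem_nhds hat)⟩
    · push Not at h
      exact ⟨t, ht, by filter_upwards [self_mem_nhdsWithin] with y hy using h y hy⟩
  have hb : ∃ b ∈ I, Iic b ∈ 𝓝[I] t := by
    by_cases h : ∃ b ∈ I, t < b
    · obtain ⟨b, hbI, htb⟩ := h
      exact ⟨b, hbI, mem_nhdsWithin_of_mem_nhds (Iic_mem_nhds htb)⟩
    · push Not at h
      exact ⟨t, ht, by filter_upwards [self_mem_nhdsWithin] with y hy using h y hy⟩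
  obtain ⟨a, haI, ha'⟩ := ha
  obtain ⟨b, hbI, hb'⟩ := hb
  exact ⟨a, b, hI.ordConnected.out haI hbI, inter_mem ha' hb'⟩

theorem aas_prod_uniqueDiffOn {I : Set ℝ} (hI : Convex ℝ I) (hI' : (interior I).Nonempty)
    {U : Set E} (hU : IsOpen U) : UniqueDiffOn ℝ (I ×ˢ U) :=
  (uniqueDiffOn_convex hI hI').prod hU.uniqueDiffOn

theorem aas_prod_loc {I : Set ℝ} (hI : Convex ℝ I) {U : Set E} (hU : IsOpen U) :
    ∀ x ∈ I ×ˢ U, ∃ N : Set (ℝ × E), IsCompact N ∧ Convex ℝ N ∧ N ⊆ I ×ˢ U ∧ N ∈ 𝓝[I ×ˢ U] x := by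
  rintro ⟨t, z⟩ ⟨ht, hz⟩
  obtain ⟨a, b, hab, hnh⟩ := aas_interval hI ht
  obtain ⟨r, hr, hrU⟩ := Metric.nhds_basis_closedBall.mem_iff.1 (hU.mem_nhds hz)
  refine ⟨Icc a b ×ˢ Metric.closedBall z r, isCompact_Icc.prod (isCompact_closedBall z r),
    (convex_Icc a b).prod (convex_closedBall z r), prod_mono hab hrU, ?_⟩
  rw [nhdsWithin_prod_eq]
  exact prod_mem_prod hnh (mem_nhdsWithin_of_mem_nhds (Metric.closedBall_mem_nhds z hr))

/-- **smooth Arzela-Ascoli** on `I ×ˢ U`. -/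
theorem aas_prod (I : Set ℝ) (U : Set E) (hI : Convex ℝ I) (hI' : (interior I).Nonempty)
    (hU : IsOpen U) (f : ℕ → ℝ × E → F)
    (hf : ∀ K : Set (ℝ × E), IsCompact K → K ⊆ I ×ˢ U → ∃ k₀ : ℕ, ∀ k, k₀ ≤ k →
      ∃ O : Set (ℝ × E), IsOpen O ∧ K ⊆ O ∧ ContDiffOn ℝ ∞ (f k) (O ∩ I ×ˢ U))
    (hb : ∀ K : Set (ℝ × E), IsCompact K → K ⊆ I ×ˢ U → ∀ m : ℕ, ∃ (C : ℝ) (k₀ : ℕ),
      ∀ k, k₀ ≤ k → ∀ q ∈ K, ‖iteratedFDerivWithin ℝ m (f k) (I ×ˢ U) q‖ ≤ C) :
    ∃ (φ : ℕ → ℕ) (F₀ : ℝ × E → F), StrictMono φ ∧ ContDiffOn ℝ ∞ F₀ (I ×ˢ U) ∧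
      ∀ K : Set (ℝ × E), IsCompact K → K ⊆ I ×ˢ U → ∀ (m : ℕ) (ε : ℝ), 0 < ε → ∃ k₀,
        ∀ k, k₀ ≤ k → ∀ q ∈ K,
          ‖iteratedFDerivWithin ℝ m (fun p => f (φ k) p - F₀ p) (I ×ˢ U) q‖ ≤ ε :=
  aas_main (I ×ˢ U) (aas_prod_uniqueDiffOn hI hI' hU) (aas_prod_loc hI hU) f hf hb

end prod

end Claimed.Agent.Lib
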