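import Claimed.Agent.Lib.BLVarJ

/-!
# Brascamp–Lieb: consumer forms

* `bl_integrable_exp_neg` : `D²V ≥ κ` implies that `e^{-V}` is integrable (Haar measure).
* `bl_var_le`  (BL0) : `Var[f; ν.tilted (-V)] ≤ ∫ J ∂ν.tilted (-V)`.
* `bl_pi_gaussian_eq_tilted` : the standard Gaussian on `ι → ℝ` is `volume.tilted (-∑ xᵢ²/2)`.
* `bl_gauss_var_le` (BL1) : convex tilt of the standard Gaussian on `ι → ℝ`.
-/

open MeasureTheory Set Filter Topology ProbabilityTheory
open scoped ENNReal NNReal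

namespace Claimed.Agent.BL

/-- one dimensional second order lower bound. -/
theorem bl_taylor_lower {φ φ' φ'' : ℝ → ℝ} {c : ℝ} (h1 : ∀ r, HasDerivAt φ (φ' r) r)
    (h2 : ∀ r, HasDerivAt φ' (φ'' r) r) (hc : ∀ r, c ≤ φ'' r) :
    φ 0 + φ' 0 + c / 2 ≤ φ 1 := by
  -- `φ' r - φ' 0 - c r` is monotone
  have hm1 : Monotone (fun r => φ' r - φ' 0 - c * r) := by
    refine monotone_of_hasDerivAt_nonneg (f' := fun r => φ'' r - c) (fun r => ?_) (fun r => ?_)
    · have := ((h2 r).sub_const (φ' 0)).sub ((hasDerivAt_id r).const_mul c)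
      refine HasDerivAt.congr_deriv (f := fun r => φ' r - φ' 0 - c * r) this ?_
      simp
    · simpa using hc r
  have hm2 : MonotoneOn (fun r => φ r - φ' 0 * r - c * r ^ 2 / 2) (Icc 0 1) := by
    refine monotoneOn_of_hasDerivWithinAt_nonneg (f' := fun r => φ' r - φ' 0 - c * r)
      (convex_Icc 0 1) ?_ ?_ ?_
    · intro r _
      have : HasDerivAt (fun r => φ r - φ' 0 * r - c * r ^ 2 / 2) (φ' r - φ' 0 - c * r) r := by
        have := ((h1 r).sub ((hasDerivAt_id r).const_mul (φ' 0))).sub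
          ((((hasDerivAt_id r).pow 2).const_mul c).div_const 2)
        refine HasDerivAt.congr_deriv (f := fun r => φ r - φ' 0 * r - c * r ^ 2 / 2) this ?_
        simp
        ring
      exact this.continuousAt.continuousWithinAt
    · intro r _
      have : HasDerivAt (fun r => φ r - φ' 0 * r - c * r ^ 2 / 2) (φ' r - φ' 0 - c * r) r := by
        have := ((h1 r).sub ((hasDerivAt_id r).const_mul (φ' 0))).sub
          ((((hasDerivAt_id r).pow 2).const_mul c).div_const 2)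
        refine HasDerivAt.congr_deriv (f := fun r => φ r - φ' 0 * r - c * r ^ 2 / 2) this ?_
        simp
        ring
      exact this.hasDerivWithinAt
    · intro r hr
      rw [interior_Icc] at hr
      have := hm1 hr.1.le
      simpa using this
  have := hm2 (by simp : (0:ℝ) ∈ Icc (0:ℝ) 1) (by simp : (1:ℝ) ∈ Icc (0:ℝ) 1) zero_le_one
  simp at this
  linarith

section haar

variable {E : Type*} [NormedAddCommGroup E] [NormedSpace ℝ E]

/-- strong convexity gives a quadratic lower bound. -/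
theorem bl_quad_lower {V : E → ℝ} {κ : ℝ} (hV : ContDiff ℝ 2 V)
    (hcv : ∀ x v, κ * ‖v‖ ^ 2 ≤ fderiv ℝ (fderiv ℝ V) x v v) (x : E) :
    V 0 + fderiv ℝ V 0 x + κ * ‖x‖ ^ 2 / 2 ≤ V x := by
  have := bl_taylor_lower (c := κ * ‖x‖ ^ 2) (fun r => bl_line1 hV 0 x r)
    (fun r => bl_line2 hV 0 x r) (fun r => hcv _ x)
  simpa using this

theorem bl_exp_poly_bound {L κ r s : ℝ} (hκ : 0 < κ) (hr : 0 ≤ r) (hs : 0 ≤ s) :
    Real.exp (L * s - κ * s ^ 2 / 2) ≤ Real.exp ((L + r) ^ 2 / (2 * κ)) * (1 + s) ^ (-r) := by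
  have h1 : (1 + s) ^ r ≤ Real.exp (r * s) := by
    have : 1 + s ≤ Real.exp s := by linarith [Real.add_one_le_exp s]
    calc (1 + s) ^ r ≤ (Real.exp s) ^ r := Real.rpow_le_rpow (by linarith) this hr
      _ = Real.exp (r * s) := by rw [← Real.exp_mul, mul_comm]
  have hpos : 0 < (1 + s) ^ r := Real.rpow_pos_of_pos (by linarith) _
  rw [Real.rpow_neg (by linarith), ← div_eq_mul_inv, le_div_iff₀ hpos]
  calc Real.exp (L * s - κ * s ^ 2 / 2) * (1 + s) ^ r
      ≤ Real.exp (L * s - κ * s ^ 2 / 2) * Real.exp (r * s) :=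
        mul_le_mul_of_nonneg_left h1 (Real.exp_pos _).le
    _ = Real.exp ((L + r) * s - κ * s ^ 2 / 2) := by rw [← Real.exp_add]; congr 1; ring
    _ ≤ Real.exp ((L + r) ^ 2 / (2 * κ)) := by
        apply Real.exp_le_exp.2
        have h : 0 ≤ (κ * s - (L + r)) ^ 2 / (2 * κ) := by positivity
        have e : (κ * s - (L + r)) ^ 2 / (2 * κ)
            = κ * s ^ 2 / 2 - (L + r) * s + (L + r) ^ 2 / (2 * κ) := by
          field_simp
          ring
        linarith

variable [FiniteDimensional ℝ E] [MeasurableSpace E] [BorelSpace E]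

/-- `e^{-V}` is integrable if `D²V ≥ κ > 0`. -/
theorem bl_integrable_exp_neg (ν : Measure E) [ν.IsAddHaarMeasure] {V : E → ℝ} {κ : ℝ}
    (hκ : 0 < κ) (hV : ContDiff ℝ 2 V)
    (hcv : ∀ x v, κ * ‖v‖ ^ 2 ≤ fderiv ℝ (fderiv ℝ V) x v v) :
    Integrable (fun x => Real.exp (- V x)) ν := by
  set r : ℝ := (Module.finrank ℝ E : ℝ) + 1 with hr
  have hr0 : 0 ≤ r := by positivity
  have hi : Integrable (fun x : E => (1 + ‖x‖) ^ (-r)) ν :=
    integrable_one_add_norm (by rw [hr]; linarith)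
  set L : ℝ := ‖fderiv ℝ V 0‖ with hL
  refine Integrable.mono' (hi.const_mul (Real.exp (- V 0) * Real.exp ((L + r) ^ 2 / (2 * κ))))
    (by have := hV.continuous; fun_prop) (Eventually.of_forall fun x => ?_)
  rw [Real.norm_eq_abs, abs_of_pos (Real.exp_pos _)]
  have h1 := bl_quad_lower hV hcv x
  have h2 : -(fderiv ℝ V 0 x) ≤ L * ‖x‖ :=
    (neg_le_abs _).trans ((fderiv ℝ V 0).le_opNorm x)
  calc Real.exp (- V x) ≤ Real.exp (- V 0 + (L * ‖x‖ - κ * ‖x‖ ^ 2 / 2)) := by
        apply Real.exp_le_exp.2; linarith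
    _ = Real.exp (- V 0) * Real.exp (L * ‖x‖ - κ * ‖x‖ ^ 2 / 2) := Real.exp_add _ _
    _ ≤ Real.exp (- V 0) * (Real.exp ((L + r) ^ 2 / (2 * κ)) * (1 + ‖x‖) ^ (-r)) :=
        mul_le_mul_of_nonneg_left (bl_exp_poly_bound hκ hr0 (norm_nonneg _)) (Real.exp_pos _).le
    _ = Real.exp (- V 0) * Real.exp ((L + r) ^ 2 / (2 * κ)) * (1 + ‖x‖) ^ (-r) := by ring

/-- **BL0**: Brascamp–Lieb, Haar measure, variance form. -/
theorem bl_var_le (ν : Measure E) [ν.IsAddHaarMeasure] {V f J : E → ℝ} {κ : ℝ} (hκ : 0 < κ)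
    (hV : ContDiff ℝ 2 V) (hf : ContDiff ℝ 2 f) (hJ : ContDiff ℝ 2 J) (hJ0 : ∀ x, 0 ≤ J x)
    (hcv : ∀ x v, κ * ‖v‖ ^ 2 ≤ fderiv ℝ (fderiv ℝ V) x v v)
    (hdom : ∀ x v, (fderiv ℝ f x v) ^ 2 ≤ J x * fderiv ℝ (fderiv ℝ V) x v v)
    (hf2 : Integrable (fun x => f x ^ 2 * Real.exp (- V x)) ν)
    (hJi : Integrable (fun x => J x * Real.exp (- V x)) ν) :
    Var[f; ν.tilted (fun x => - V x)] ≤ ∫ x, J x ∂(ν.tilted (fun x => - V x)) := by
  have hint := bl_integrable_exp_neg ν hκ hV hcv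
  have hprob : IsProbabilityMeasure (ν.tilted fun x => - V x) := isProbabilityMeasure_tilted hint
  have hf2' : Integrable (fun x => f x ^ 2) (ν.tilted fun x => - V x) := by
    rw [integrable_tilted_iff hint]
    refine hf2.congr (Eventually.of_forall fun x => ?_)
    simp [mul_comm]
  have hJi' : Integrable J (ν.tilted fun x => - V x) := by
    rw [integrable_tilted_iff hint]
    refine hJi.congr (Eventually.of_forall fun x => ?_)
    simp [mul_comm]
  have hmem : MemLp f 2 (ν.tilted fun x => - V x) :=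
    (memLp_two_iff_integrable_sq hf.continuous.aestronglyMeasurable).2 hf2'
  rw [variance_eq_sub hmem]
  exact bl_var_haar ν hκ hV hf hJ hcv hJ0 hdom hint hf2' hJi'

end haar

section gauss

variable {ι : Type*} [Fintype ι]

/-- the standard Gaussian on `ι → ℝ` has the product density. -/
theorem bl_pi_gaussian_eq_withDensity :
    (Measure.pi fun _ : ι => gaussianReal 0 1) = (volume : Measure (ι → ℝ)).withDensity
      (fun x => ENNReal.ofReal (∏ i, gaussianPDFReal 0 1 (x i))) := by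
  refine Measure.pi_eq fun s hs => ?_
  rw [withDensity_apply _ (MeasurableSet.univ_pi hs), ← lintegral_indicator (MeasurableSet.univ_pi hs)]
  have h1 : ∀ x : ι → ℝ, (Set.univ.pi s).indicator
      (fun x => ENNReal.ofReal (∏ i, gaussianPDFReal 0 1 (x i))) x =
      ENNReal.ofReal (∏ i, (s i).indicator (gaussianPDFReal 0 1) (x i)) := by
    intro x
    by_cases hx : x ∈ Set.univ.pi s
    · rw [Set.indicator_of_mem hx]
      congr 1
      refine Finset.prod_congr rfl fun i _ => ?_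
      rw [Set.indicator_of_mem (hx i (Set.mem_univ i))]
    · rw [Set.indicator_of_notMem hx]
      simp only [Set.mem_pi, Set.mem_univ, true_imp_iff, not_forall] at hx
      obtain ⟨i, hi⟩ := hx
      rw [Finset.prod_eq_zero (Finset.mem_univ i) (Set.indicator_of_notMem hi _)]
      simp
  simp_rw [h1]
  have hint : ∀ i, Integrable ((s i).indicator (gaussianPDFReal 0 1)) volume := fun i =>
    (integrable_gaussianPDFReal 0 1).indicator (hs i)
  have hnn : ∀ (i : ι) (y : ℝ), 0 ≤ (s i).indicator (gaussianPDFReal 0 1) y := fun i y =>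
    Set.indicator_nonneg (fun z _ => gaussianPDFReal_nonneg 0 1 z) y
  rw [← ofReal_integral_eq_lintegral_ofReal, volume_pi, integral_fintype_prod_eq_prod,
    ENNReal.ofReal_prod_of_nonneg]
  · refine Finset.prod_congr rfl fun i _ => ?_
    rw [gaussianReal_apply_eq_integral 0 one_ne_zero, integral_indicator (hs i)]
  · exact fun i _ => integral_nonneg (hnn i)
  · rw [volume_pi]
    exact Integrable.fintype_prod hint
  · exact Eventually.of_forall fun x => Finset.prod_nonneg fun i _ => hnn i _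

/-- the standard Gaussian on `ι → ℝ` is Lebesgue measure tilted by `-∑ xᵢ²/2`. -/
theorem bl_pi_gaussian_eq_tilted :
    (Measure.pi fun _ : ι => gaussianReal 0 1)
      = (volume : Measure (ι → ℝ)).tilted (fun x => -((∑ i, x i ^ 2) / 2)) := by
  have hprod : ∀ x : ι → ℝ, ∏ i, gaussianPDFReal 0 1 (x i)
      = (√(2 * Real.pi))⁻¹ ^ Fintype.card ι * Real.exp (-((∑ i, x i ^ 2) / 2)) := by
    intro x
    simp only [gaussianPDFReal, sub_zero, NNReal.coe_one, mul_one]
    rw [Finset.prod_mul_distrib, Finset.prod_const, Finset.card_univ, ← Real.exp_sum]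
    congr 2
    rw [Finset.sum_div, ← Finset.sum_neg_distrib]
    refine Finset.sum_congr rfl fun i _ => ?_
    ring
  have hZ : ∫ x : ι → ℝ, Real.exp (-((∑ i, x i ^ 2) / 2)) = (√(2 * Real.pi)) ^ Fintype.card ι := by
    have e : ∀ x : ι → ℝ, Real.exp (-((∑ i, x i ^ 2) / 2))
        = ∏ i, Real.exp (-(1 / 2) * (x i) ^ 2) := by
      intro x
      rw [← Real.exp_sum]
      congr 1
      rw [Finset.sum_div, ← Finset.sum_neg_distrib]
      refine Finset.sum_congr rfl fun i _ => ?_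
      ring
    simp_rw [e]
    rw [integral_fintype_prod_volume_eq_prod (fun _ : ι => fun y : ℝ => Real.exp (-(1 / 2) * y ^ 2)),
      Finset.prod_const, Finset.card_univ, integral_gaussian]
    congr 2
    field_simp
  rw [bl_pi_gaussian_eq_withDensity, Measure.tilted]
  congr 1
  funext x
  rw [hprod, hZ, inv_pow]
  congr 1
  ring

/-- the bilinear form `(v,w) ↦ ∑ vᵢ wᵢ` as a continuous bilinear map. -/
noncomputable def blDot (ι : Type*) [Fintype ι] : (ι → ℝ) →L[ℝ] ((ι → ℝ) →L[ℝ] ℝ) :=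
  ∑ i, (ContinuousLinearMap.proj (R := ℝ) (φ := fun _ : ι => ℝ) i).smulRight
    (ContinuousLinearMap.proj (R := ℝ) (φ := fun _ : ι => ℝ) i)

theorem bl_dot_apply (v w : ι → ℝ) : blDot ι v w = ∑ i, v i * w i := by
  simp [blDot]

theorem bl_sq_hasFDerivAt (x : ι → ℝ) :
    HasFDerivAt (fun x : ι → ℝ => (∑ i, x i ^ 2) / 2) (blDot ι x) x := by
  have h1 : ∀ i : ι, HasFDerivAt (fun x : ι → ℝ => x i ^ 2)
      ((2 * x i) • ContinuousLinearMap.proj (R := ℝ) (φ := fun _ : ι => ℝ) i) x := by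
    intro i
    have := (hasFDerivAt_apply (𝕜 := ℝ) i x).pow 2
    refine this.congr_fderiv ?_
    simp
  have h2 := (HasFDerivAt.fun_sum (u := Finset.univ) fun i _ => h1 i).mul_const (1 / 2 : ℝ)
  have e : (fun x : ι → ℝ => (∑ i, x i ^ 2) / 2) = fun x : ι → ℝ => (∑ i, x i ^ 2) * (1 / 2) := by
    funext y; ring
  rw [e]
  refine h2.congr_fderiv ?_
  ext v
  simp only [blDot, sum_apply, ContinuousLinearMap.smulRight_apply,
    ContinuousLinearMap.proj_apply, smul_apply, smul_eq_mul, Finset.mul_sum]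
  refine Finset.sum_congr rfl fun i _ => ?_
  ring

theorem bl_norm_sq_le_sum (v : ι → ℝ) : ‖v‖ ^ 2 ≤ ∑ i, v i ^ 2 := by
  have h0 : 0 ≤ ∑ i, v i ^ 2 := Finset.sum_nonneg fun i _ => sq_nonneg _
  have h : ‖v‖ ≤ √(∑ i, v i ^ 2) := by
    rw [pi_norm_le_iff_of_nonneg (Real.sqrt_nonneg _)]
    intro i
    rw [Real.norm_eq_abs]
    apply Real.abs_le_sqrt
    exact Finset.single_le_sum (f := fun i => v i ^ 2) (fun j _ => sq_nonneg _) (Finset.mem_univ i)
  calc ‖v‖ ^ 2 ≤ (√(∑ i, v i ^ 2)) ^ 2 := pow_le_pow_left₀ (norm_nonneg _) h 2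
    _ = ∑ i, v i ^ 2 := Real.sq_sqrt h0

theorem bl_integrable_exp_neg_sq :
    Integrable (fun x : ι → ℝ => Real.exp (-((∑ i, x i ^ 2) / 2))) volume := by
  by_contra h
  have h1 := tilted_of_not_integrable h
  rw [← bl_pi_gaussian_eq_tilted] at h1
  exact IsProbabilityMeasure.ne_zero _ h1

/-- second derivative of `Φ + |x|²/2`. -/
theorem bl_fderiv2_add_sq {Φ : (ι → ℝ) → ℝ} (hΦ : ContDiff ℝ 2 Φ) (x v : ι → ℝ) :
    fderiv ℝ (fderiv ℝ fun x : ι → ℝ => Φ x + (∑ i, x i ^ 2) / 2) x v v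
      = ∑ i, v i ^ 2 + fderiv ℝ (fderiv ℝ Φ) x v v := by
  have h1 : (fderiv ℝ fun x : ι → ℝ => Φ x + (∑ i, x i ^ 2) / 2)
      = fun x => fderiv ℝ Φ x + blDot ι x := by
    funext y
    exact (((hΦ.differentiable (by norm_num)) y).hasFDerivAt.add (bl_sq_hasFDerivAt y)).fderiv
  have hd : ContDiff ℝ 1 (fderiv ℝ Φ) := hΦ.fderiv_right (by norm_num)
  rw [h1, fderiv_fun_add ((hd.differentiable (by norm_num)) x) (blDot ι).differentiableAt,
    ContinuousLinearMap.fderiv]
  simp only [add_apply, bl_dot_apply]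
  rw [add_comm]
  congr 1
  refine Finset.sum_congr rfl fun i _ => ?_
  ring

/-- **BL1**: Brascamp–Lieb for a convex tilt of the standard Gaussian on `ι → ℝ`. -/
theorem bl_gauss_var_le {Φ f J : (ι → ℝ) → ℝ}
    (hΦ : ContDiff ℝ 2 Φ) (hf : ContDiff ℝ 2 f) (hJ : ContDiff ℝ 2 J) (hJ0 : ∀ x, 0 ≤ J x)
    (hcv : ∀ x v, 0 ≤ fderiv ℝ (fderiv ℝ Φ) x v v)
    (hdom : ∀ x v, (fderiv ℝ f x v) ^ 2 ≤
      J x * (∑ i, v i ^ 2 + fderiv ℝ (fderiv ℝ Φ) x v v))
    (hf2 : Integrable (fun x => f x ^ 2 * Real.exp (- Φ x)) (Measure.pi fun _ : ι => gaussianReal 0 1))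
    (hJi : Integrable (fun x => J x * Real.exp (- Φ x)) (Measure.pi fun _ : ι => gaussianReal 0 1)) :
    Var[f; (Measure.pi fun _ : ι => gaussianReal 0 1).tilted (fun x => - Φ x)] ≤
      ∫ x, J x ∂((Measure.pi fun _ : ι => gaussianReal 0 1).tilted (fun x => - Φ x)) := by
  set V : (ι → ℝ) → ℝ := fun x => Φ x + (∑ i, x i ^ 2) / 2 with hVdef
  have hV : ContDiff ℝ 2 V := by
    refine hΦ.add ?_
    fun_prop
  have hg0 := bl_integrable_exp_neg_sq (ι := ι)
  have hmeas : (Measure.pi fun _ : ι => gaussianReal 0 1).tilted (fun x => - Φ x)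
      = (volume : Measure (ι → ℝ)).tilted (fun x => - V x) := by
    rw [bl_pi_gaussian_eq_tilted, tilted_tilted hg0]
    congr 1
    funext x
    simp only [Pi.add_apply, hVdef]
    ring
  have conv : ∀ g : (ι → ℝ) → ℝ,
      Integrable (fun x => g x * Real.exp (- Φ x)) (Measure.pi fun _ : ι => gaussianReal 0 1) →
      Integrable (fun x => g x * Real.exp (- V x)) volume := by
    intro g hg
    rw [bl_pi_gaussian_eq_tilted, integrable_tilted_iff hg0] at hg
    refine hg.congr (Eventually.of_forall fun x => ?_)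
    simp only [smul_eq_mul, hVdef]
    rw [mul_comm, mul_assoc, ← Real.exp_add]
    congr 2
    ring
  rw [hmeas]
  refine bl_var_le volume one_pos hV hf hJ hJ0 ?_ ?_ (conv _ hf2) (conv _ hJi)
  · intro x v
    rw [hVdef, bl_fderiv2_add_sq hΦ, one_mul]
    have := bl_norm_sq_le_sum v
    have := hcv x v
    linarith
  · intro x v
    rw [hVdef, bl_fderiv2_add_sq hΦ]
    exact hdom x v

end gauss

end Claimed.Agent.BL
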