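import Claimed.Agent.Lib.BLVar

/-!
# Brascamp–Lieb for a convex tilt of the standard Gaussian on `ι → ℝ`, LOW REGULARITY form      (helper62; row 286, BOX-A)

On top of helper169's `blv_main` (dual form).  Compared with `bl_gauss_var_le` (Lib/BLGauss, helper171: `Φ, f, J ∈ C²`) the consumer needs ONLY
`Φ ∈ C²` convex, `f ∈ C¹`, `c` CONTINUOUS `≥ 0`, `(Df(x) h)² ≤ (∑ hᵢ² + D²Φ(x)[h,h]) c(x)`:  for PE Lemma 2.3 / LL (A2) this means `C²` (not `C⁴`) regularity of the continuations in the drivers.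

* `blg_pi_eq`, `blg_integral`, `blg_integrable_iff`   the standard Gaussian `Measure.pi fun _ => gaussianReal 0 1` has the density `blgRho`
* `blg_main`             not normalised:  `γ(e^-Φ) γ(f² e^-Φ) - γ(f e^-Φ)² ≤ γ(e^-Φ) γ(c e^-Φ)`   (derivatives given as data)
* `blg_var_le`           `Var[f; γ.tilted (-Φ)] ≤ ∫ c ∂γ.tilted (-Φ)`                          (derivatives given as data; no integrability of `e^-Φ` asked)
* `blg_var_le_contDiff`  the same with `ContDiff` / `fderiv`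
-/

open MeasureTheory Set Filter Topology ProbabilityTheory
open scoped ENNReal NNReal

namespace Claimed.Agent.BL

open Claimed.Agent.PL



section dens
variable {ι : Type*} [Fintype ι]

/-- the density of the standard Gaussian on `ι → ℝ` -/
noncomputable def blgRho (x : ι → ℝ) : ℝ := ∏ i, gaussianPDFReal 0 1 (x i)

theorem blgRho_eqns_cite (x : ι → ℝ) : blgRho x = ∏ i, gaussianPDFReal 0 1 (x i) := rfl

theorem blgRho_pos (x : ι → ℝ) : 0 < blgRho x :=
  Finset.prod_pos fun i _ => gaussianPDFReal_pos 0 1 (x i) one_ne_zero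

theorem blgRho_cont : Continuous (blgRho : (ι → ℝ) → ℝ) := by
  unfold blgRho
  refine continuous_finsetProd _ fun i _ => ?_
  rw [gaussianPDFReal_def]
  fun_prop

theorem blgRho_eq (x : ι → ℝ) :
    blgRho x = ((√(2 * Real.pi))⁻¹) ^ Fintype.card ι * Real.exp (-(∑ i, x i ^ 2 / 2)) := by
  rw [blgRho_eqns_cite, ← Finset.sum_neg_distrib, Real.exp_sum, ← Finset.card_univ, ← Finset.prod_const,
    ← Finset.prod_mul_distrib]
  refine Finset.prod_congr rfl fun i _ => ?_
  rw [gaussianPDFReal_def]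
  simp only [NNReal.coe_one, mul_one, sub_zero]
  congr 2
  ring

theorem blg_lintegral_prod (g : ι → ℝ → ℝ) (hg0 : ∀ i x, 0 ≤ g i x) (hg : ∀ i, Integrable (g i)) :
    ∫⁻ x : ι → ℝ, ENNReal.ofReal (∏ i, g i (x i)) = ∏ i, ∫⁻ x, ENNReal.ofReal (g i x) := by
  have hint : Integrable (fun x : ι → ℝ => ∏ i, g i (x i)) := Integrable.fintype_prod hg
  rw [← ofReal_integral_eq_lintegral_ofReal hint
    (Eventually.of_forall fun x => Finset.prod_nonneg fun i _ => hg0 i (x i)),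
    integral_fintype_prod_volume_eq_prod, ENNReal.ofReal_prod_of_nonneg fun i _ => integral_nonneg (hg0 i)]
  refine Finset.prod_congr rfl fun i _ => ?_
  rw [ofReal_integral_eq_lintegral_ofReal (hg i) (Eventually.of_forall (hg0 i))]

theorem blg_pi_eq : Measure.pi (fun _ : ι => gaussianReal 0 1)
    = (volume : Measure (ι → ℝ)).withDensity (fun x => ENNReal.ofReal (blgRho x)) := by
  refine Measure.pi_eq fun s hs => ?_
  rw [withDensity_apply _ (MeasurableSet.univ_pi hs), ← lintegral_indicator (MeasurableSet.univ_pi hs)]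
  have h1 : ∀ x : ι → ℝ, (Set.univ.pi s).indicator (fun x => ENNReal.ofReal (blgRho x)) x =
      ENNReal.ofReal (∏ i, (s i).indicator (gaussianPDFReal 0 1) (x i)) := by
    intro x
    by_cases hx : x ∈ Set.univ.pi s
    · rw [Set.indicator_of_mem hx, blgRho_eqns_cite]
      congr 1
      refine Finset.prod_congr rfl fun i _ => ?_
      rw [Set.indicator_of_mem (hx i (Set.mem_univ i))]
    · rw [Set.indicator_of_notMem hx]
      simp only [Set.mem_pi, Set.mem_univ, true_imp_iff, not_forall] at hx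
      obtain ⟨i, hi⟩ := hx
      rw [Finset.prod_eq_zero (Finset.mem_univ i) (Set.indicator_of_notMem hi _), ENNReal.ofReal_zero]
  simp_rw [h1]
  rw [blg_lintegral_prod (fun i => (s i).indicator (gaussianPDFReal 0 1))
    (fun i x => Set.indicator_nonneg (fun y _ => gaussianPDFReal_nonneg 0 1 y) x)
    (fun i => (integrable_gaussianPDFReal 0 1).indicator (hs i))]
  refine Finset.prod_congr rfl fun i _ => ?_
  rw [gaussianReal_apply 0 one_ne_zero, ← lintegral_indicator (hs i)]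
  refine lintegral_congr fun x => ?_
  by_cases hx : x ∈ s i
  · rw [Set.indicator_of_mem hx, Set.indicator_of_mem hx]; rfl
  · rw [Set.indicator_of_notMem hx, Set.indicator_of_notMem hx, ENNReal.ofReal_zero]

theorem blgRho_meas : Measurable (fun x : ι → ℝ => ENNReal.ofReal (blgRho x)) :=
  blgRho_cont.measurable.ennreal_ofReal

theorem blg_integral (F : (ι → ℝ) → ℝ) :
    ∫ x, F x ∂(Measure.pi (fun _ : ι => gaussianReal 0 1)) = ∫ x, F x * blgRho x := by
  rw [blg_pi_eq, integral_withDensity_eq_integral_toReal_smul blgRho_meas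
    (Eventually.of_forall fun x => ENNReal.ofReal_lt_top)]
  refine integral_congr_ae (Eventually.of_forall fun x => ?_)
  simp only [ENNReal.toReal_ofReal (blgRho_pos x).le, smul_eq_mul]
  ring

theorem blg_integrable_iff {F : (ι → ℝ) → ℝ} :
    Integrable F (Measure.pi (fun _ : ι => gaussianReal 0 1)) ↔ Integrable (fun x => F x * blgRho x) := by
  rw [blg_pi_eq, integrable_withDensity_iff_integrable_smul' blgRho_meas
    (Eventually.of_forall fun x => ENNReal.ofReal_lt_top)]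
  refine integrable_congr (Eventually.of_forall fun x => ?_)
  simp only [ENNReal.toReal_ofReal (blgRho_pos x).le, smul_eq_mul]
  ring

end dens



section main
variable {ι : Type*} [Fintype ι]

/-- the bilinear form `∑ i, x i * h i` -/
noncomputable def blgL : (ι → ℝ) →L[ℝ] (ι → ℝ) →L[ℝ] ℝ :=
  ∑ i, (ContinuousLinearMap.proj (R := ℝ) (φ := fun _ : ι => ℝ) i).smulRight
    (ContinuousLinearMap.proj (R := ℝ) (φ := fun _ : ι => ℝ) i)

theorem blgL_eqns_cite (x h : ι → ℝ) : blgL x h = ∑ i, x i * h i := by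
  simp [blgL]

theorem blg_quad_hasFDerivAt (x : ι → ℝ) :
    HasFDerivAt (fun x : ι → ℝ => ∑ i, x i ^ 2 / 2) (blgL x) x := by
  have h : ∀ i ∈ (Finset.univ : Finset ι), HasFDerivAt (fun x : ι → ℝ => x i ^ 2 / 2)
      (x i • ContinuousLinearMap.proj (R := ℝ) (φ := fun _ : ι => ℝ) i) x := by
    intro i _
    have h1 := (((ContinuousLinearMap.proj (R := ℝ) (φ := fun _ : ι => ℝ) i).hasFDerivAt (x := x)).pow 2).const_mul
      (1 / 2 : ℝ)
    have h2 : (fun x : ι → ℝ => x i ^ 2 / 2)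
        = fun y => 1 / 2 * (ContinuousLinearMap.proj (R := ℝ) (φ := fun _ : ι => ℝ) i) y ^ 2 := by
      funext y
      simp only [ContinuousLinearMap.proj_apply]
      ring
    rw [h2]
    refine h1.congr_fderiv ?_
    ext h
    simp
    ring
  refine (HasFDerivAt.fun_sum h).congr_fderiv ?_
  ext h
  simp [blgL_eqns_cite]

theorem blg_norm_sq_le (h : ι → ℝ) : ‖h‖ ^ 2 ≤ ∑ i, h i ^ 2 := by
  have h0 : 0 ≤ ∑ i, h i ^ 2 := Finset.sum_nonneg fun i _ => sq_nonneg _
  have h1 : ‖h‖ ≤ √(∑ i, h i ^ 2) := by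
    rw [pi_norm_le_iff_of_nonneg (Real.sqrt_nonneg _)]
    intro i
    rw [Real.norm_eq_abs]
    apply Real.abs_le_sqrt
    exact Finset.single_le_sum (f := fun i => h i ^ 2) (fun i _ => sq_nonneg _) (Finset.mem_univ i)
  calc ‖h‖ ^ 2 ≤ (√(∑ i, h i ^ 2)) ^ 2 := pow_le_pow_left₀ (norm_nonneg _) h1 2
    _ = ∑ i, h i ^ 2 := Real.sq_sqrt h0

theorem blg_cont_add (c : (ι → ℝ) →L[ℝ] (ι → ℝ) →L[ℝ] ℝ) {F : (ι → ℝ) → (ι → ℝ) →L[ℝ] (ι → ℝ) →L[ℝ] ℝ}
    (h : Continuous F) : Continuous (fun x => c + F x) := by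
  rw [continuous_clm_apply] at h ⊢
  intro y
  have hy := h y
  rw [continuous_clm_apply] at hy ⊢
  intro z
  have := hy z
  simp only [add_apply]
  fun_prop

/-- **Brascamp–Lieb for a convex tilt of the standard Gaussian on `ι → ℝ`**, dual form, not normalised. -/
theorem blg_main {Φ : (ι → ℝ) → ℝ} {Φ' : (ι → ℝ) → (ι → ℝ) →L[ℝ] ℝ}
    {Φ'' : (ι → ℝ) → (ι → ℝ) →L[ℝ] (ι → ℝ) →L[ℝ] ℝ}
    (d1 : ∀ x, HasFDerivAt Φ (Φ' x) x) (d2 : ∀ x, HasFDerivAt Φ' (Φ'' x) x) (hc2 : Continuous Φ'')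
    (hcv : ∀ x h, 0 ≤ Φ'' x h h)
    (hint : Integrable (fun x => Real.exp (-Φ x)) (Measure.pi (fun _ : ι => gaussianReal 0 1)))
    {f c : (ι → ℝ) → ℝ} {f' : (ι → ℝ) → (ι → ℝ) →L[ℝ] ℝ} (hf1 : ∀ x, HasFDerivAt f (f' x) x)
    (hf2 : Continuous f') (hc : Continuous c) (hc0 : ∀ x, 0 ≤ c x)
    (hQ : ∀ x h, (f' x h) ^ 2 ≤ (∑ i, h i ^ 2 + Φ'' x h h) * c x)
    (hif : Integrable (fun x => f x ^ 2 * Real.exp (-Φ x)) (Measure.pi (fun _ : ι => gaussianReal 0 1)))
    (hic : Integrable (fun x => c x * Real.exp (-Φ x)) (Measure.pi (fun _ : ι => gaussianReal 0 1))) :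
    (∫ x, Real.exp (-Φ x) ∂(Measure.pi (fun _ : ι => gaussianReal 0 1)))
        * (∫ x, f x ^ 2 * Real.exp (-Φ x) ∂(Measure.pi (fun _ : ι => gaussianReal 0 1)))
      - (∫ x, f x * Real.exp (-Φ x) ∂(Measure.pi (fun _ : ι => gaussianReal 0 1))) ^ 2
      ≤ (∫ x, Real.exp (-Φ x) ∂(Measure.pi (fun _ : ι => gaussianReal 0 1)))
        * ∫ x, c x * Real.exp (-Φ x) ∂(Measure.pi (fun _ : ι => gaussianReal 0 1)) := by
  set U : (ι → ℝ) → ℝ := fun x => ∑ i, x i ^ 2 / 2 + Φ x with hU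
  set K : ℝ := ((√(2 * Real.pi))⁻¹) ^ Fintype.card ι with hK
  have hKpos : 0 < K := by positivity
  have key : ∀ (F : (ι → ℝ) → ℝ) (x : ι → ℝ),
      F x * Real.exp (-Φ x) * blgRho x = K * (F x * Real.exp (-U x)) := by
    intro F x
    rw [blgRho_eq, hU]
    simp only
    rw [neg_add, Real.exp_add]
    ring
  have hI : ∀ F : (ι → ℝ) → ℝ, ∫ x, F x * Real.exp (-Φ x) ∂(Measure.pi (fun _ : ι => gaussianReal 0 1))
      = K * ∫ x, F x * Real.exp (-U x) := by
    intro F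
    rw [blg_integral, ← integral_const_mul]
    exact integral_congr_ae (Eventually.of_forall fun x => key F x)
  have hInt : ∀ F : (ι → ℝ) → ℝ,
      Integrable (fun x => F x * Real.exp (-Φ x)) (Measure.pi (fun _ : ι => gaussianReal 0 1)) →
      Integrable (fun x => F x * Real.exp (-U x)) := by
    intro F hF
    have h1 := blg_integrable_iff.1 hF
    have h2 : Integrable (fun x => K * (F x * Real.exp (-U x))) :=
      h1.congr (Eventually.of_forall fun x => key F x)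
    have h3 := h2.const_mul K⁻¹
    refine h3.congr (Eventually.of_forall fun x => ?_)
    simp only
    rw [← mul_assoc, inv_mul_cancel₀ hKpos.ne', one_mul]
  have hone : ∀ G : (ι → ℝ) → ℝ, (fun x => G x) = fun x => (fun _ => (1 : ℝ)) x * G x := by
    intro G; funext x; simp
  have hyp : BlvHyp (volume : Measure (ι → ℝ)) U (fun x => blgL x + Φ' x) (fun x => blgL + Φ'' x) 1 :=
    { pl := plProp_addHaar _
      kpos := one_pos
      d1 := fun x => (blg_quad_hasFDerivAt x).add (d1 x)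
      d2 := fun x => (blgL.hasFDerivAt).add (d2 x)
      cont := blg_cont_add _ hc2
      conv := by
        intro x h
        simp only [add_apply, blgL_eqns_cite, one_mul]
        have := blg_norm_sq_le h
        have h2 : ∑ i, h i * h i = ∑ i, h i ^ 2 := Finset.sum_congr rfl fun i _ => (sq (h i)).symm
        rw [h2]
        linarith [hcv x h]
      int := by
        have := hInt (fun _ => 1) (by simpa using hint)
        simpa using this }
  have main := blv_main hyp hf1 hf2 hc hc0 (by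
    intro x h
    simp only [add_apply, blgL_eqns_cite]
    have h2 : ∑ i, h i * h i = ∑ i, h i ^ 2 := Finset.sum_congr rfl fun i _ => (sq (h i)).symm
    rw [h2]
    exact hQ x h) (hInt _ hif) (hInt _ hic)
  have e0 : ∫ x, Real.exp (-Φ x) ∂(Measure.pi (fun _ : ι => gaussianReal 0 1)) = K * ∫ x, Real.exp (-U x) := by
    have := hI (fun _ => 1)
    simpa using this
  rw [e0, hI (fun x => f x ^ 2), hI f, hI c]
  have hK2 : 0 ≤ K ^ 2 := by positivity
  nlinarith [mul_le_mul_of_nonneg_left main hK2]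

end main


section var
variable {ι : Type*} [Fintype ι]

/-- **Brascamp–Lieb, variance form**: `f ∈ C¹`, `c` continuous, `Φ ∈ C²` convex (derivatives given as data). -/
theorem blg_var_le {Φ : (ι → ℝ) → ℝ} {Φ' : (ι → ℝ) → (ι → ℝ) →L[ℝ] ℝ}
    {Φ'' : (ι → ℝ) → (ι → ℝ) →L[ℝ] (ι → ℝ) →L[ℝ] ℝ}
    (d1 : ∀ x, HasFDerivAt Φ (Φ' x) x) (d2 : ∀ x, HasFDerivAt Φ' (Φ'' x) x) (hc2 : Continuous Φ'')
    (hcv : ∀ x h, 0 ≤ Φ'' x h h)
    {f c : (ι → ℝ) → ℝ} {f' : (ι → ℝ) → (ι → ℝ) →L[ℝ] ℝ} (hf1 : ∀ x, HasFDerivAt f (f' x) x)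
    (hf2 : Continuous f') (hc : Continuous c) (hc0 : ∀ x, 0 ≤ c x)
    (hQ : ∀ x h, (f' x h) ^ 2 ≤ (∑ i, h i ^ 2 + Φ'' x h h) * c x)
    (hif : Integrable (fun x => f x ^ 2 * Real.exp (-Φ x)) (Measure.pi (fun _ : ι => gaussianReal 0 1)))
    (hic : Integrable (fun x => c x * Real.exp (-Φ x)) (Measure.pi (fun _ : ι => gaussianReal 0 1))) :
    Var[f; (Measure.pi (fun _ : ι => gaussianReal 0 1)).tilted (fun x => -Φ x)]
      ≤ ∫ x, c x ∂((Measure.pi (fun _ : ι => gaussianReal 0 1)).tilted (fun x => -Φ x)) := by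
  set γ : Measure (ι → ℝ) := Measure.pi (fun _ : ι => gaussianReal 0 1) with hγ
  by_cases hint : Integrable (fun x => Real.exp (-Φ x)) γ
  · have main := blg_main d1 d2 hc2 hcv hint hf1 hf2 hc hc0 hQ hif hic
    rw [← hγ] at main
    have : IsProbabilityMeasure (γ.tilted (fun x => -Φ x)) := isProbabilityMeasure_tilted hint
    have hZ : 0 < ∫ x, Real.exp (-Φ x) ∂γ := integral_exp_pos hint
    set Z := ∫ x, Real.exp (-Φ x) ∂γ with hZdef
    have hfc : Continuous f := continuous_iff_continuousAt.2 fun x => (hf1 x).continuousAt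
    have hmem : MemLp f 2 (γ.tilted (fun x => -Φ x)) := by
      rw [memLp_two_iff_integrable_sq hfc.aestronglyMeasurable, integrable_tilted_iff hint]
      refine hif.congr (Eventually.of_forall fun x => ?_)
      simp only [smul_eq_mul]; ring
    have eT : ∀ F : (ι → ℝ) → ℝ, ∫ x, F x ∂(γ.tilted (fun x => -Φ x))
        = Z⁻¹ * ∫ x, F x * Real.exp (-Φ x) ∂γ := by
      intro F
      rw [integral_tilted, ← integral_const_mul]
      refine integral_congr_ae (Eventually.of_forall fun x => ?_)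
      simp only [smul_eq_mul]
      rw [← hZdef]
      field_simp
    rw [variance_eq_sub hmem]
    have e2 : ∫ x, (f ^ 2) x ∂(γ.tilted (fun x => -Φ x)) = Z⁻¹ * ∫ x, f x ^ 2 * Real.exp (-Φ x) ∂γ :=
      eT (fun x => f x ^ 2)
    rw [e2, eT f, eT c]
    have hZi : 0 < Z⁻¹ := inv_pos.2 hZ
    have h1 := mul_le_mul_of_nonneg_left main (by positivity : 0 ≤ Z⁻¹ ^ 2)
    have h2 : Z⁻¹ * Z = 1 := inv_mul_cancel₀ hZ.ne'
    set A2 := ∫ x, f x ^ 2 * Real.exp (-Φ x) ∂γ
    set A1 := ∫ x, f x * Real.exp (-Φ x) ∂γ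
    set AC := ∫ x, c x * Real.exp (-Φ x) ∂γ
    have e3 : Z⁻¹ ^ 2 * (Z * A2 - A1 ^ 2) = Z⁻¹ * A2 - (Z⁻¹ * A1) ^ 2 := by
      have : Z⁻¹ ^ 2 * (Z * A2) = (Z⁻¹ * Z) * (Z⁻¹ * A2) := by ring
      rw [mul_sub, this, h2]; ring
    have e4 : Z⁻¹ ^ 2 * (Z * AC) = Z⁻¹ * AC := by
      have : Z⁻¹ ^ 2 * (Z * AC) = (Z⁻¹ * Z) * (Z⁻¹ * AC) := by ring
      rw [this, h2, one_mul]
    rw [e3, e4] at h1
    exact h1
  · rw [tilted_of_not_integrable hint]
    simp

/-- the same with `ContDiff` hypotheses and `fderiv`: only `Φ ∈ C²`, `f ∈ C¹`, `c ∈ C⁰`. -/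
theorem blg_var_le_contDiff {Φ f c : (ι → ℝ) → ℝ}
    (hΦ : ContDiff ℝ 2 Φ) (hf : ContDiff ℝ 1 f) (hc : Continuous c) (hc0 : ∀ x, 0 ≤ c x)
    (hcv : ∀ x v, 0 ≤ fderiv ℝ (fderiv ℝ Φ) x v v)
    (hdom : ∀ x v, (fderiv ℝ f x v) ^ 2 ≤ c x * (∑ i, v i ^ 2 + fderiv ℝ (fderiv ℝ Φ) x v v))
    (hf2 : Integrable (fun x => f x ^ 2 * Real.exp (-Φ x)) (Measure.pi fun _ : ι => gaussianReal 0 1))
    (hci : Integrable (fun x => c x * Real.exp (-Φ x)) (Measure.pi fun _ : ι => gaussianReal 0 1)) :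
    Var[f; (Measure.pi fun _ : ι => gaussianReal 0 1).tilted (fun x => -Φ x)]
      ≤ ∫ x, c x ∂((Measure.pi fun _ : ι => gaussianReal 0 1).tilted (fun x => -Φ x)) := by
  have hΦ1 : ContDiff ℝ 1 (fderiv ℝ Φ) := hΦ.fderiv_right (m := 1) (by norm_num)
  refine blg_var_le (Φ' := fderiv ℝ Φ) (Φ'' := fderiv ℝ (fderiv ℝ Φ)) (f' := fderiv ℝ f)
    (fun x => (hΦ.differentiable (by norm_num) x).hasFDerivAt)
    (fun x => (hΦ1.differentiable (by norm_num) x).hasFDerivAt)
    (hΦ1.continuous_fderiv (by norm_num)) hcv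
    (fun x => (hf.differentiable (by norm_num) x).hasFDerivAt)
    (hf.continuous_fderiv (by norm_num)) hc hc0 (fun x h => ?_) hf2 hci
  rw [mul_comm]
  exact hdom x h

end var

end Claimed.Agent.BL
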