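import Mathlib

/-!
# Row 286, BOX-A, leaves H, M1, M2 (helper32): second derivative and convexity in a normed space

* `convexOn_of_hasFDerivAt2_nonneg`, `convexOn_of_fderiv2_nonneg` (H): second derivative `≥ 0` on a convex
  set which is a neighbourhood of each of its points gives `ConvexOn`.
* `hasFDerivAt2_nonneg_of_convexOn`, `fderiv2_nonneg_of_convexOn_of_isOpen`, `fderiv2_nonneg_of_convexOn` (M1): the converse.
* `bilin_cauchy_schwarz_of_nonneg`, `hasFDerivAt2_cauchy_schwarz`, `fderiv2_cauchy_schwarz`,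
  `fderiv2_cauchy_schwarz_of_convexOn` (M2): Cauchy-Schwarz for a positive semidefinite second derivative.
Mathlib only.
-/

set_option autoImplicit false

open Set Filter Topology

namespace Claimed.Agent.PL

section hess

variable {G : Type*} [NormedAddCommGroup G] [NormedSpace ℝ G]

/-- the line `r ↦ x + r • v` -/
theorem blh_line0 (x v : G) (r : ℝ) : HasDerivAt (fun r : ℝ => x + r • v) v r := by
  simpa using ((hasDerivAt_id r).smul_const v).const_add x

theorem blh_line1 {W : G → ℝ} {L : G →L[ℝ] ℝ} {x v : G} {r : ℝ} (d1 : HasFDerivAt W L (x + r • v)) :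
    HasDerivAt (fun r : ℝ => W (x + r • v)) (L v) r :=
  d1.comp_hasDerivAt r (blh_line0 x v r)

theorem blh_line2 {W' : G → G →L[ℝ] ℝ} {B : G →L[ℝ] G →L[ℝ] ℝ} {x v : G} {r : ℝ}
    (d2 : HasFDerivAt W' B (x + r • v)) :
    HasDerivAt (fun r : ℝ => W' (x + r • v) v) (B v v) r := by
  have h1 : HasDerivAt (fun r : ℝ => W' (x + r • v)) (B v) r := d2.comp_hasDerivAt r (blh_line0 x v r)
  exact h1.clm_apply (hasDerivAt_const r v) |>.congr_deriv (by simp)

/-- H, `HasFDerivAt` form. -/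
theorem convexOn_of_hasFDerivAt2_nonneg {s : Set G} (hs : Convex ℝ s) {W : G → ℝ}
    {W' : G → G →L[ℝ] ℝ} {W'' : G → G →L[ℝ] G →L[ℝ] ℝ}
    (d1 : ∀ x ∈ s, HasFDerivAt W (W' x) x) (d2 : ∀ x ∈ s, HasFDerivAt W' (W'' x) x)
    (h2 : ∀ x ∈ s, ∀ v, 0 ≤ W'' x v v) : ConvexOn ℝ s W := by
  refine ⟨hs, fun x hx y hy a b ha hb hab => ?_⟩
  have hmem : ∀ r ∈ Icc (0 : ℝ) 1, x + r • (y - x) ∈ s := by
    intro r hr
    have h := hs hx hy (sub_nonneg.2 hr.2) hr.1 (by ring)
    have e : x + r • (y - x) = (1 - r) • x + r • y := by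
      rw [smul_sub, sub_smul, one_smul]; abel
    rw [e]; exact h
  have hint : ∀ r ∈ interior (Icc (0 : ℝ) 1), r ∈ Icc (0 : ℝ) 1 := fun r hr => interior_subset hr
  have hc : ConvexOn ℝ (Icc (0 : ℝ) 1) (fun r : ℝ => W (x + r • (y - x))) := by
    refine convexOn_of_hasDerivWithinAt2_nonneg (convex_Icc 0 1)
      (f' := fun r : ℝ => W' (x + r • (y - x)) (y - x))
      (f'' := fun r : ℝ => W'' (x + r • (y - x)) (y - x) (y - x)) ?_ ?_ ?_ ?_
    · intro r hr
      exact (blh_line1 (d1 _ (hmem r hr))).continuousAt.continuousWithinAt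
    · intro r hr
      exact (blh_line1 (d1 _ (hmem r (hint r hr)))).hasDerivWithinAt
    · intro r hr
      exact (blh_line2 (d2 _ (hmem r (hint r hr)))).hasDerivWithinAt
    · intro r hr
      exact h2 _ (hmem r (hint r hr)) _
  have h := hc.2 (show (0 : ℝ) ∈ Icc (0 : ℝ) 1 by simp) (show (1 : ℝ) ∈ Icc (0 : ℝ) 1 by simp) ha hb hab
  have e1 : x + (a • (0 : ℝ) + b • (1 : ℝ)) • (y - x) = a • x + b • y := by
    have ha' : a = 1 - b := by linarith
    simp only [smul_eq_mul, mul_zero, mul_one, zero_add]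
    rw [ha', smul_sub, sub_smul, one_smul]; abel
  simp only [e1] at h
  simpa using h

/-- H (skeleton of helper224 verbatim). -/
theorem convexOn_of_fderiv2_nonneg {s : Set G} (hs : Convex ℝ s) (hso : IsOpen s) {W : G → ℝ}
    (hW : ContDiffOn ℝ 2 W s) (h2 : ∀ x ∈ s, ∀ v, 0 ≤ fderiv ℝ (fderiv ℝ W) x v v) :
    ConvexOn ℝ s W := by
  have hat : ∀ x ∈ s, ContDiffAt ℝ 2 W x := fun x hx => hW.contDiffAt (hso.mem_nhds hx)
  refine convexOn_of_hasFDerivAt2_nonneg hs (W' := fderiv ℝ W) (W'' := fderiv ℝ (fderiv ℝ W))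
    (fun x hx => ((hat x hx).differentiableAt (by norm_num)).hasFDerivAt) (fun x hx => ?_) h2
  have h1 : ContDiffAt ℝ 1 (fderiv ℝ W) x := (hat x hx).fderiv_right (by norm_num)
  exact (h1.differentiableAt (by norm_num)).hasFDerivAt

/-- H on the whole space. -/
theorem convexOn_univ_of_fderiv2_nonneg {W : G → ℝ} (hW : ContDiff ℝ 2 W)
    (h2 : ∀ x v, 0 ≤ fderiv ℝ (fderiv ℝ W) x v v) : ConvexOn ℝ univ W :=
  convexOn_of_fderiv2_nonneg convex_univ isOpen_univ hW.contDiffOn (fun x _ v => h2 x v)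

/-- M1, `HasFDerivAt` form: a convex function has nonnegative second derivative. -/
theorem hasFDerivAt2_nonneg_of_convexOn {s : Set G} (hso : IsOpen s) {W : G → ℝ}
    {W' : G → G →L[ℝ] ℝ} {B : G →L[ℝ] G →L[ℝ] ℝ} (hc : ConvexOn ℝ s W)
    (d1 : ∀ x ∈ s, HasFDerivAt W (W' x) x) {x : G} (hx : x ∈ s) (d2 : HasFDerivAt W' B x) (v : G) :
    0 ≤ B v v := by
  set I : Set ℝ := (fun r : ℝ => x + r • v) ⁻¹' s with hI
  have hcont : Continuous (fun r : ℝ => x + r • v) := by fun_prop
  have hIo : IsOpen I := hso.preimage hcont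
  have h0 : (0 : ℝ) ∈ I := by simpa [hI] using hx
  have hgc : ConvexOn ℝ I (fun r : ℝ => W (x + r • v)) := by
    refine ⟨?_, ?_⟩
    · intro r hr r' hr' a b ha hb hab
      have h := hc.1 hr hr' ha hb hab
      have e : x + (a • r + b • r') • v = a • (x + r • v) + b • (x + r' • v) := by
        calc x + (a • r + b • r') • v = (a + b) • x + (a • r + b • r') • v := by rw [hab, one_smul]
          _ = a • (x + r • v) + b • (x + r' • v) := by simp only [smul_eq_mul]; module
      show x + (a • r + b • r') • v ∈ s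
      rw [e]; exact h
    · intro r hr r' hr' a b ha hb hab
      have h := hc.2 hr hr' ha hb hab
      have e : x + (a • r + b • r') • v = a • (x + r • v) + b • (x + r' • v) := by
        calc x + (a • r + b • r') • v = (a + b) • x + (a • r + b • r') • v := by rw [hab, one_smul]
          _ = a • (x + r • v) + b • (x + r' • v) := by simp only [smul_eq_mul]; module
      show W (x + (a • r + b • r') • v) ≤ _
      rw [e]; exact h
  have hd : ∀ r ∈ I, HasDerivAt (fun r : ℝ => W (x + r • v)) (W' (x + r • v) v) r :=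
    fun r hr => blh_line1 (d1 _ hr)
  have hm : MonotoneOn (deriv (fun r : ℝ => W (x + r • v))) I :=
    hgc.monotoneOn_deriv (fun r hr => (hd r hr).differentiableAt)
  have hm' : MonotoneOn (fun r : ℝ => W' (x + r • v) v) I := by
    intro r hr r' hr' hrr
    have := hm hr hr' hrr
    rwa [(hd r hr).deriv, (hd r' hr').deriv] at this
  have d2' : HasDerivAt (fun r : ℝ => W' (x + r • v) v) (B v v) 0 :=
    blh_line2 (x := x) (v := v) (r := 0) (by simpa using d2)
  have h := hm'.derivWithin_nonneg (x := (0 : ℝ))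
  rwa [derivWithin_of_isOpen hIo h0, d2'.deriv] at h

/-- M1 on a set which is a neighbourhood of its points. -/
theorem fderiv2_nonneg_of_convexOn_of_isOpen {s : Set G} (hso : IsOpen s) {W : G → ℝ}
    (hc : ConvexOn ℝ s W) (hW : ContDiffOn ℝ 2 W s) {x : G} (hx : x ∈ s) (v : G) :
    0 ≤ fderiv ℝ (fderiv ℝ W) x v v := by
  have hat : ∀ x ∈ s, ContDiffAt ℝ 2 W x := fun x hx => hW.contDiffAt (hso.mem_nhds hx)
  refine hasFDerivAt2_nonneg_of_convexOn hso hc (W' := fderiv ℝ W)
    (fun x hx => ((hat x hx).differentiableAt (by norm_num)).hasFDerivAt) hx ?_ v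
  have h1 : ContDiffAt ℝ 1 (fderiv ℝ W) x := (hat x hx).fderiv_right (by norm_num)
  exact (h1.differentiableAt (by norm_num)).hasFDerivAt

/-- M1 (statement of helper167). -/
theorem fderiv2_nonneg_of_convexOn {F : G → ℝ} (hc : ConvexOn ℝ univ F) (hF : ContDiff ℝ 2 F)
    (x v : G) : 0 ≤ fderiv ℝ (fderiv ℝ F) x v v :=
  fderiv2_nonneg_of_convexOn_of_isOpen isOpen_univ hc hF.contDiffOn (mem_univ x) v

/-- M2, abstract: Cauchy-Schwarz for a symmetric positive semidefinite bilinear form. -/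
theorem bilin_cauchy_schwarz_of_nonneg (B : G →L[ℝ] G →L[ℝ] ℝ) (hsymm : ∀ v w, B v w = B w v)
    (hpos : ∀ v, 0 ≤ B v v) (v w : G) : (B v w) ^ 2 ≤ B v v * B w w := by
  have h : ∀ s : ℝ, 0 ≤ B w w * (s * s) + 2 * B v w * s + B v v := by
    intro s
    have h1 := hpos (v + s • w)
    have e : B (v + s • w) (v + s • w) = B w w * (s * s) + 2 * B v w * s + B v v := by
      simp only [map_add, map_smul, add_apply, smul_apply, smul_eq_mul]
      rw [hsymm w v]; ring
    rwa [e] at h1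
  have hd := discrim_le_zero h
  rw [discrim] at hd
  nlinarith

/-- M2, `HasFDerivAt` form. -/
theorem hasFDerivAt2_cauchy_schwarz {W : G → ℝ} {W' : G → G →L[ℝ] ℝ} {B : G →L[ℝ] G →L[ℝ] ℝ} {x : G}
    (d1 : ∀ᶠ y in 𝓝 x, HasFDerivAt W (W' y) y) (d2 : HasFDerivAt W' B x) (hpos : ∀ v, 0 ≤ B v v)
    (v w : G) : (B v w) ^ 2 ≤ B v v * B w w :=
  bilin_cauchy_schwarz_of_nonneg B (second_derivative_symmetric_of_eventually d1 d2) hpos v w

/-- M2 (statement of helper167): Cauchy-Schwarz for a positive semidefinite second derivative. -/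
theorem fderiv2_cauchy_schwarz {F : G → ℝ} (hF : ContDiff ℝ 2 F) {x : G}
    (hpos : ∀ v, 0 ≤ fderiv ℝ (fderiv ℝ F) x v v) (v w : G) :
    (fderiv ℝ (fderiv ℝ F) x v w) ^ 2 ≤
      fderiv ℝ (fderiv ℝ F) x v v * fderiv ℝ (fderiv ℝ F) x w w := by
  refine hasFDerivAt2_cauchy_schwarz (W := F) (W' := fderiv ℝ F) (x := x)
    (Eventually.of_forall fun y => (hF.differentiable (by norm_num) y).hasFDerivAt) ?_ hpos v w
  have h1 : ContDiff ℝ 1 (fderiv ℝ F) := hF.fderiv_right (by norm_num)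
  exact (h1.differentiable (by norm_num) x).hasFDerivAt

/-- M1 + M2: the block inequality for a convex `C²` function. -/
theorem fderiv2_cauchy_schwarz_of_convexOn {F : G → ℝ} (hc : ConvexOn ℝ univ F)
    (hF : ContDiff ℝ 2 F) (x v w : G) :
    (fderiv ℝ (fderiv ℝ F) x v w) ^ 2 ≤
      fderiv ℝ (fderiv ℝ F) x v v * fderiv ℝ (fderiv ℝ F) x w w :=
  fderiv2_cauchy_schwarz hF (fderiv2_nonneg_of_convexOn hc hF x) v w

/-- symmetry of the second derivative of a `C²` function, in the shape used with the lemmas above. -/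
theorem fderiv2_symm {F : G → ℝ} (hF : ContDiff ℝ 2 F) (x v w : G) :
    fderiv ℝ (fderiv ℝ F) x v w = fderiv ℝ (fderiv ℝ F) x w v := by
  have h1 : ContDiff ℝ 1 (fderiv ℝ F) := hF.fderiv_right (by norm_num)
  exact second_derivative_symmetric (f := F) (f' := fderiv ℝ F)
    (fun y => (hF.differentiable (by norm_num) y).hasFDerivAt)
    (h1.differentiable (by norm_num) x).hasFDerivAt v w

end hess

end Claimed.Agent.PL
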