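import Claimed.Agent.Lib.BLGauss
import Claimed.Agent.Lib.BLHess
import Claimed.Agent.R286.BoxA.BLMom

/-!
# Row 286, BOX-A, leaf M3 (helper32): ONE consumer-facing theorem = BL1 + BL2

`bl_gauss_moment`: for the convex tilt `μ = γ.tilted (-Φ)` of the standard Gaussian on `ι → ℝ`, `A`, `J` bounded `C²`,
`(DA v)² ≤ J (|v|² + D²Φ(v,v))`, `∫ A dμ = 0`:  `(∫ |A|^p dμ)^(2/p) ≤ (1 + p²/3) (∫ J^(p/2) dμ)^(2/p)` for all real `p ≥ 2`.
`bl_gauss_moment_of_convexOn`: the same with `ConvexOn ℝ univ Φ` instead of the Hessian hypothesis.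
-/

set_option autoImplicit false

open MeasureTheory Set Filter Topology ProbabilityTheory
open scoped ENNReal NNReal ContDiff

namespace Claimed.Agent.BL

section gaussmom

variable {ι : Type*} [Fintype ι]

/-- `e^{-Φ}` is integrable for the standard Gaussian if `D²Φ ≥ 0`. -/
theorem bl_gauss_integrable_exp_neg {Φ : (ι → ℝ) → ℝ} (hΦ : ContDiff ℝ 2 Φ)
    (hcv : ∀ x v, 0 ≤ fderiv ℝ (fderiv ℝ Φ) x v v) :
    Integrable (fun x => Real.exp (- Φ x)) (Measure.pi fun _ : ι => gaussianReal 0 1) := by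
  have hV : ContDiff ℝ 2 (fun x : ι → ℝ => Φ x + (∑ i, x i ^ 2) / 2) := by
    refine hΦ.add ?_
    fun_prop
  have h1 : Integrable (fun x : ι → ℝ => Real.exp (- (Φ x + (∑ i, x i ^ 2) / 2))) volume := by
    refine bl_integrable_exp_neg volume one_pos hV ?_
    intro x v
    rw [bl_fderiv2_add_sq hΦ, one_mul]
    have := bl_norm_sq_le_sum v
    have := hcv x v
    linarith
  rw [bl_pi_gaussian_eq_tilted, integrable_tilted_iff bl_integrable_exp_neg_sq]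
  refine h1.congr (Eventually.of_forall fun x => ?_)
  simp only [smul_eq_mul]
  rw [← Real.exp_add]
  congr 1
  ring

/-- the convex tilt of the standard Gaussian is a probability measure. -/
theorem bl_gauss_tilted_isProbabilityMeasure {Φ : (ι → ℝ) → ℝ} (hΦ : ContDiff ℝ 2 Φ)
    (hcv : ∀ x v, 0 ≤ fderiv ℝ (fderiv ℝ Φ) x v v) :
    IsProbabilityMeasure ((Measure.pi fun _ : ι => gaussianReal 0 1).tilted (fun x => - Φ x)) :=
  isProbabilityMeasure_tilted (bl_gauss_integrable_exp_neg hΦ hcv)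

/-- a continuous function of a bounded function is bounded. -/
theorem bl_comp_bdd {α : Type*} {A : α → ℝ} {M : ℝ} (hAb : ∀ x, |A x| ≤ M) {g : ℝ → ℝ}
    (hg : Continuous g) : ∃ C : ℝ, ∀ x, |g (A x)| ≤ C := by
  obtain ⟨C, hC⟩ := (isCompact_Icc (a := -M) (b := M)).exists_bound_of_continuousOn hg.continuousOn
  exact ⟨C, fun x => by simpa using hC (A x) (abs_le.1 (hAb x))⟩

/-- BL1 for `φ ∘ A`, `φ` smooth, `A`, `J` bounded. -/
theorem bl_gauss_var_comp_le {Φ A J : (ι → ℝ) → ℝ} {M : ℝ}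
    (hΦ : ContDiff ℝ 2 Φ) (hA : ContDiff ℝ 2 A) (hJ : ContDiff ℝ 2 J)
    (hcv : ∀ x v, 0 ≤ fderiv ℝ (fderiv ℝ Φ) x v v) (hJ0 : ∀ x, 0 ≤ J x)
    (hdom : ∀ x v, (fderiv ℝ A x v) ^ 2 ≤ J x * (∑ i, v i ^ 2 + fderiv ℝ (fderiv ℝ Φ) x v v))
    (hAb : ∀ x, |A x| ≤ M) (hJb : ∀ x, J x ≤ M) {φ : ℝ → ℝ} (hφ : ContDiff ℝ ∞ φ) :
    Var[fun x => φ (A x); (Measure.pi fun _ : ι => gaussianReal 0 1).tilted (fun x => - Φ x)] ≤
      ∫ x, (deriv φ (A x)) ^ 2 * J x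
        ∂((Measure.pi fun _ : ι => gaussianReal 0 1).tilted (fun x => - Φ x)) := by
  have hint := bl_gauss_integrable_exp_neg hΦ hcv
  have hφ2 : ContDiff ℝ 2 φ := hφ.of_le (WithTop.coe_le_coe.2 le_top)
  have hdφ : ContDiff ℝ 2 (deriv φ) :=
    (contDiff_infty_iff_deriv.1 hφ).2.of_le (WithTop.coe_le_coe.2 le_top)
  have hf : ContDiff ℝ 2 (fun x => φ (A x)) := hφ2.comp hA
  have hJ' : ContDiff ℝ 2 (fun x => (deriv φ (A x)) ^ 2 * J x) := ((hdφ.comp hA).pow 2).mul hJ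
  obtain ⟨C1, hC1⟩ := bl_comp_bdd hAb hφ2.continuous
  obtain ⟨C2, hC2⟩ := bl_comp_bdd hAb hdφ.continuous
  refine bl_gauss_var_le hΦ hf hJ' (fun x => mul_nonneg (sq_nonneg _) (hJ0 x)) hcv ?_ ?_ ?_
  · intro x v
    have hd : fderiv ℝ (fun x => φ (A x)) x v = deriv φ (A x) * fderiv ℝ A x v := by
      have h1 : HasFDerivAt (fun x => φ (A x)) (deriv φ (A x) • fderiv ℝ A x) x :=
        ((hφ2.differentiable (by norm_num) (A x)).hasDerivAt).comp_hasFDerivAt x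
          ((hA.differentiable (by norm_num) x).hasFDerivAt)
      rw [h1.fderiv]; simp
    rw [hd, mul_pow, mul_assoc]
    exact mul_le_mul_of_nonneg_left (hdom x v) (sq_nonneg _)
  · refine hint.bdd_mul (c := C1 ^ 2) (hf.continuous.pow 2).aestronglyMeasurable
      (Eventually.of_forall fun x => ?_)
    rw [Real.norm_eq_abs, abs_pow]
    exact pow_le_pow_left₀ (abs_nonneg _) (hC1 x) 2
  · refine hint.bdd_mul (c := C2 ^ 2 * M) hJ'.continuous.aestronglyMeasurable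
      (Eventually.of_forall fun x => ?_)
    rw [Real.norm_eq_abs, abs_mul, abs_pow, abs_of_nonneg (hJ0 x)]
    exact mul_le_mul (pow_le_pow_left₀ (abs_nonneg _) (hC2 x) 2) (hJb x) (hJ0 x) (sq_nonneg _)

/-- **M3** = BL1 + BL2: the `L^p` Brascamp-Lieb bound of PE Lemma 2.3 / LL (A2) for a convex tilt of the
standard Gaussian. -/
theorem bl_gauss_moment {Φ A J : (ι → ℝ) → ℝ} {M p : ℝ}
    (hΦ : ContDiff ℝ 2 Φ) (hA : ContDiff ℝ 2 A) (hJ : ContDiff ℝ 2 J)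
    (hcv : ∀ x v, 0 ≤ fderiv ℝ (fderiv ℝ Φ) x v v) (hJ0 : ∀ x, 0 ≤ J x)
    (hdom : ∀ x v, (fderiv ℝ A x v) ^ 2 ≤ J x * (∑ i, v i ^ 2 + fderiv ℝ (fderiv ℝ Φ) x v v))
    (hAb : ∀ x, |A x| ≤ M) (hJb : ∀ x, J x ≤ M)
    (hA0 : ∫ x, A x ∂((Measure.pi fun _ : ι => gaussianReal 0 1).tilted (fun x => - Φ x)) = 0)
    (hp : 2 ≤ p) :
    (∫ x, |A x| ^ p ∂((Measure.pi fun _ : ι => gaussianReal 0 1).tilted (fun x => - Φ x))) ^ (2 / p) ≤
      (1 + p ^ 2 / 3) *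
        (∫ x, J x ^ (p / 2)
          ∂((Measure.pi fun _ : ι => gaussianReal 0 1).tilted (fun x => - Φ x))) ^ (2 / p) := by
  have := bl_gauss_tilted_isProbabilityMeasure hΦ hcv
  exact PL.bl_moment_of_var_n (n := ∞) hA.continuous.measurable hJ.continuous.measurable hJ0 hAb hJb hA0
    (fun φ hφ => bl_gauss_var_comp_le hΦ hA hJ hcv hJ0 hdom hAb hJb hφ) hp

/-- M3 with convexity of `Φ` instead of the Hessian hypothesis (M1). -/
theorem bl_gauss_moment_of_convexOn {Φ A J : (ι → ℝ) → ℝ} {M p : ℝ}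
    (hΦ : ContDiff ℝ 2 Φ) (hA : ContDiff ℝ 2 A) (hJ : ContDiff ℝ 2 J)
    (hcv : ConvexOn ℝ univ Φ) (hJ0 : ∀ x, 0 ≤ J x)
    (hdom : ∀ x v, (fderiv ℝ A x v) ^ 2 ≤ J x * (∑ i, v i ^ 2 + fderiv ℝ (fderiv ℝ Φ) x v v))
    (hAb : ∀ x, |A x| ≤ M) (hJb : ∀ x, J x ≤ M)
    (hA0 : ∫ x, A x ∂((Measure.pi fun _ : ι => gaussianReal 0 1).tilted (fun x => - Φ x)) = 0)
    (hp : 2 ≤ p) :
    (∫ x, |A x| ^ p ∂((Measure.pi fun _ : ι => gaussianReal 0 1).tilted (fun x => - Φ x))) ^ (2 / p) ≤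
      (1 + p ^ 2 / 3) *
        (∫ x, J x ^ (p / 2)
          ∂((Measure.pi fun _ : ι => gaussianReal 0 1).tilted (fun x => - Φ x))) ^ (2 / p) :=
  bl_gauss_moment hΦ hA hJ (PL.fderiv2_nonneg_of_convexOn hcv hΦ) hJ0 hdom hAb hJb hA0 hp

end gaussmom

end Claimed.Agent.BL
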