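import Claimed.Agent.Lib.BLVar
import Claimed.Agent.Lib.BLGauss
import Claimed.Agent.R286.BoxA.BLMom

/-!
# Brascamp–Lieb: low regularity consumer forms and the `L^p` ladder   (helper171)

Built on `blv_main` (helper169: `f ∈ C¹`, `c` continuous), `bl_pi_gaussian_eq_tilted` and
`bl_moment_of_var` (helper268).

* `blg_tilted`  : `Var[f; ν.tilted (-U)] ≤ ∫ c ∂ν.tilted (-U)` under `BlvHyp`.
* `blg_hyp`     : `BlvHyp` for `U = Φ + |x|²/2` on `ι → ℝ`, `Φ ∈ C²` convex (explicit derivatives).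
* `blg_var`     : convex tilt of the standard Gaussian, `f ∈ C¹`, `c` continuous.
* `blg_moment`  : the `L^p` ladder of PE Lemma 2.3 / LL (A2) for a convex tilt of the Gaussian:
  `(E|A|^p)^(2/p) ≤ (1 + p²/3) (E J^(p/2))^(2/p)`.
-/

open MeasureTheory Set Filter Topology ProbabilityTheory
open scoped ENNReal NNReal

namespace Claimed.Agent.BL

section tilted

variable {E : Type*} [NormedAddCommGroup E] [NormedSpace ℝ E] [FiniteDimensional ℝ E]
  [MeasurableSpace E] [BorelSpace E]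

/-- `blv_main` in the language of tilted measures. -/
theorem blg_tilted {ν : Measure E} [NeZero ν] {U : E → ℝ} {U' : E → E →L[ℝ] ℝ}
    {U'' : E → E →L[ℝ] E →L[ℝ] ℝ} {κ : ℝ} (hyp : BlvHyp ν U U' U'' κ)
    {f c : E → ℝ} {f' : E → E →L[ℝ] ℝ} (hf1 : ∀ x, HasFDerivAt f (f' x) x) (hf2 : Continuous f')
    (hc : Continuous c) (hc0 : ∀ x, 0 ≤ c x)
    (hQ : ∀ x h, (f' x h) ^ 2 ≤ U'' x h h * c x)
    (hif : Integrable (fun x => f x ^ 2 * Real.exp (-U x)) ν)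
    (hic : Integrable (fun x => c x * Real.exp (-U x)) ν) :
    Var[f; ν.tilted (fun x => - U x)] ≤ ∫ x, c x ∂(ν.tilted (fun x => - U x)) := by
  have hint := hyp.int
  have hprob : IsProbabilityMeasure (ν.tilted fun x => - U x) := isProbabilityMeasure_tilted hint
  have hfc : Continuous f := continuous_iff_continuousAt.2 fun x => (hf1 x).continuousAt
  have hf2' : Integrable (fun x => f x ^ 2) (ν.tilted fun x => - U x) := by
    rw [integrable_tilted_iff hint]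
    refine hif.congr (Eventually.of_forall fun x => ?_)
    simp [mul_comm]
  have hmem : MemLp f 2 (ν.tilted fun x => - U x) :=
    (memLp_two_iff_integrable_sq hfc.aestronglyMeasurable).2 hf2'
  rw [variance_eq_sub hmem]
  set Z : ℝ := ∫ x, Real.exp (-U x) ∂ν with hZ
  have hZpos : 0 < Z := integral_exp_pos hint
  have key := blv_main hyp hf1 hf2 hc hc0 hQ hif hic
  have conv : ∀ g : E → ℝ, ∫ x, g x ∂(ν.tilted fun x => - U x)
      = Z⁻¹ * ∫ x, g x * Real.exp (-U x) ∂ν := by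
    intro g
    rw [integral_tilted, ← integral_const_mul]
    congr 1
    funext x
    rw [smul_eq_mul, ← hZ]
    ring
  have e1 : (∫ x, (f ^ 2) x ∂(ν.tilted fun x => - U x))
      = Z⁻¹ * ∫ x, f x ^ 2 * Real.exp (-U x) ∂ν := conv (fun x => f x ^ 2)
  rw [e1, conv f, conv c]
  rw [← hZ] at key
  have h2 : Z⁻¹ * (∫ x, f x ^ 2 * Real.exp (-U x) ∂ν) - (Z⁻¹ * ∫ x, f x * Real.exp (-U x) ∂ν) ^ 2
      = (Z⁻¹) ^ 2 * (Z * (∫ x, f x ^ 2 * Real.exp (-U x) ∂ν)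
        - (∫ x, f x * Real.exp (-U x) ∂ν) ^ 2) := by
    field_simp
  have h3 : Z⁻¹ * ∫ x, c x * Real.exp (-U x) ∂ν
      = (Z⁻¹) ^ 2 * (Z * ∫ x, c x * Real.exp (-U x) ∂ν) := by
    field_simp
  rw [h2, h3]
  exact mul_le_mul_of_nonneg_left key (by positivity)

/-- integrability of `e^{-U}` from explicit derivatives. -/
theorem blg_integrable (ν : Measure E) [ν.IsAddHaarMeasure] {U : E → ℝ} {U' : E → E →L[ℝ] ℝ}
    {U'' : E → E →L[ℝ] E →L[ℝ] ℝ} {κ : ℝ} (hκ : 0 < κ)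
    (d1 : ∀ x, HasFDerivAt U (U' x) x) (d2 : ∀ x, HasFDerivAt U' (U'' x) x)
    (conv : ∀ x h, κ * ‖h‖ ^ 2 ≤ U'' x h h) :
    Integrable (fun x => Real.exp (- U x)) ν := by
  have hUc : Continuous U := continuous_iff_continuousAt.2 fun x => (d1 x).continuousAt
  have hlow : ∀ x, U 0 + U' 0 x + κ * ‖x‖ ^ 2 / 2 ≤ U x := by
    intro x
    have l1 : ∀ r : ℝ, HasDerivAt (fun r : ℝ => U (0 + r • x)) (U' (0 + r • x) x) r := fun r =>
      (d1 _).comp_hasDerivAt r (bl_line0 0 x r)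
    have l2 : ∀ r : ℝ, HasDerivAt (fun r : ℝ => U' (0 + r • x) x) (U'' (0 + r • x) x x) r := by
      intro r
      have h3 : HasDerivAt (fun r : ℝ => U' (0 + r • x)) (U'' (0 + r • x) x) r :=
        (d2 _).comp_hasDerivAt r (bl_line0 0 x r)
      have h4 := h3.clm_apply (hasDerivAt_const r x)
      simpa using h4
    have := bl_taylor_lower (c := κ * ‖x‖ ^ 2) l1 l2 (fun r => conv _ x)
    simpa using this
  set r : ℝ := (Module.finrank ℝ E : ℝ) + 1 with hr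
  have hr0 : 0 ≤ r := by positivity
  have hi : Integrable (fun x : E => (1 + ‖x‖) ^ (-r)) ν :=
    integrable_one_add_norm (by rw [hr]; linarith)
  set L : ℝ := ‖U' 0‖ with hL
  refine Integrable.mono' (hi.const_mul (Real.exp (- U 0) * Real.exp ((L + r) ^ 2 / (2 * κ))))
    (by fun_prop) (Eventually.of_forall fun x => ?_)
  rw [Real.norm_eq_abs, abs_of_pos (Real.exp_pos _)]
  have h1 := hlow x
  have h2 : -(U' 0 x) ≤ L * ‖x‖ := (neg_le_abs _).trans ((U' 0).le_opNorm x)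
  calc Real.exp (- U x) ≤ Real.exp (- U 0 + (L * ‖x‖ - κ * ‖x‖ ^ 2 / 2)) := by
        apply Real.exp_le_exp.2; linarith
    _ = Real.exp (- U 0) * Real.exp (L * ‖x‖ - κ * ‖x‖ ^ 2 / 2) := Real.exp_add _ _
    _ ≤ Real.exp (- U 0) * (Real.exp ((L + r) ^ 2 / (2 * κ)) * (1 + ‖x‖) ^ (-r)) :=
        mul_le_mul_of_nonneg_left (bl_exp_poly_bound hκ hr0 (norm_nonneg _)) (Real.exp_pos _).le
    _ = Real.exp (- U 0) * Real.exp ((L + r) ^ 2 / (2 * κ)) * (1 + ‖x‖) ^ (-r) := by ring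

end tilted

section gauss

variable {ι : Type*} [Fintype ι]

/-- `BlvHyp` for `U = Φ + |x|²/2`, `Φ` convex of class `C²` (explicit derivatives). -/
theorem blg_hyp {Φ : (ι → ℝ) → ℝ} {Φ' : (ι → ℝ) → (ι → ℝ) →L[ℝ] ℝ}
    {Φ'' : (ι → ℝ) → (ι → ℝ) →L[ℝ] (ι → ℝ) →L[ℝ] ℝ}
    (d1 : ∀ x, HasFDerivAt Φ (Φ' x) x) (d2 : ∀ x, HasFDerivAt Φ' (Φ'' x) x)
    (hcont : Continuous Φ'') (hcv : ∀ x v, 0 ≤ Φ'' x v v) :
    BlvHyp (volume : Measure (ι → ℝ)) (fun x => Φ x + (∑ i, x i ^ 2) / 2)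
      (fun x => Φ' x + blDot ι x) (fun x => Φ'' x + blDot ι) 1 := by
  have e1 : ∀ x, HasFDerivAt (fun x : ι → ℝ => Φ x + (∑ i, x i ^ 2) / 2) (Φ' x + blDot ι x) x :=
    fun x => (d1 x).add (bl_sq_hasFDerivAt x)
  have e2 : ∀ x, HasFDerivAt (fun x : ι → ℝ => Φ' x + blDot ι x) (Φ'' x + blDot ι) x :=
    fun x => (d2 x).add (blDot ι).hasFDerivAt
  have e3 : ∀ x h, (1 : ℝ) * ‖h‖ ^ 2 ≤ (Φ'' x + blDot ι) h h := by
    intro x h
    simp only [add_apply, bl_dot_apply, one_mul]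
    have h1 := bl_norm_sq_le_sum h
    have h2 := hcv x h
    have h3 : ∑ i, h i * h i = ∑ i, h i ^ 2 := Finset.sum_congr rfl fun i _ => by ring
    linarith
  have e4 : Continuous fun x => Φ'' x + blDot ι := by
    have : Isometry fun T : (ι → ℝ) →L[ℝ] (ι → ℝ) →L[ℝ] ℝ => T + blDot ι :=
      Isometry.of_dist_eq fun a b => by simp
    exact this.continuous.comp hcont
  exact ⟨PL.plProp_addHaar _, one_pos, e1, e2, e4, e3,
    blg_integrable volume one_pos e1 e2 e3⟩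

/-- **Brascamp–Lieb for a convex tilt of the standard Gaussian**, `f ∈ C¹`, `c` continuous. -/
theorem blg_var {Φ : (ι → ℝ) → ℝ} {Φ' : (ι → ℝ) → (ι → ℝ) →L[ℝ] ℝ}
    {Φ'' : (ι → ℝ) → (ι → ℝ) →L[ℝ] (ι → ℝ) →L[ℝ] ℝ}
    (d1 : ∀ x, HasFDerivAt Φ (Φ' x) x) (d2 : ∀ x, HasFDerivAt Φ' (Φ'' x) x)
    (hcont : Continuous Φ'') (hcv : ∀ x v, 0 ≤ Φ'' x v v)
    {f c : (ι → ℝ) → ℝ} {f' : (ι → ℝ) → (ι → ℝ) →L[ℝ] ℝ}
    (hf1 : ∀ x, HasFDerivAt f (f' x) x) (hf2 : Continuous f')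
    (hc : Continuous c) (hc0 : ∀ x, 0 ≤ c x)
    (hQ : ∀ x v, (f' x v) ^ 2 ≤ (∑ i, v i ^ 2 + Φ'' x v v) * c x)
    (hif : Integrable (fun x => f x ^ 2 * Real.exp (- Φ x)) (Measure.pi fun _ : ι => gaussianReal 0 1))
    (hic : Integrable (fun x => c x * Real.exp (- Φ x)) (Measure.pi fun _ : ι => gaussianReal 0 1)) :
    Var[f; (Measure.pi fun _ : ι => gaussianReal 0 1).tilted (fun x => - Φ x)] ≤
      ∫ x, c x ∂((Measure.pi fun _ : ι => gaussianReal 0 1).tilted (fun x => - Φ x)) := by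
  set V : (ι → ℝ) → ℝ := fun x => Φ x + (∑ i, x i ^ 2) / 2 with hVdef
  have hg0 := bl_integrable_exp_neg_sq (ι := ι)
  have hmeas : (Measure.pi fun _ : ι => gaussianReal 0 1).tilted (fun x => - Φ x)
      = (volume : Measure (ι → ℝ)).tilted (fun x => - V x) := by
    rw [bl_pi_gaussian_eq_tilted, tilted_tilted hg0]
    congr 1
    funext x
    simp only [Pi.add_apply, hVdef]
    ring
  have conv : ∀ g : (ι → ℝ) → ℝ,
      Integrable (fun x => g x * Real.exp (- Φ x)) (Measure.pi fun _ : ι => gaussianReal 0 1) →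
      Integrable (fun x => g x * Real.exp (- V x)) volume := by
    intro g hg
    rw [bl_pi_gaussian_eq_tilted, integrable_tilted_iff hg0] at hg
    refine hg.congr (Eventually.of_forall fun x => ?_)
    simp only [smul_eq_mul, hVdef]
    rw [mul_comm, mul_assoc, ← Real.exp_add]
    congr 2
    ring
  rw [hmeas]
  refine blg_tilted (blg_hyp d1 d2 hcont hcv) hf1 hf2 hc hc0 ?_ (conv _ hif) (conv _ hic)
  intro x v
  simp only [add_apply, bl_dot_apply]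
  have h3 : ∑ i, v i * v i = ∑ i, v i ^ 2 := Finset.sum_congr rfl fun i _ => by ring
  rw [h3, add_comm]
  exact hQ x v

/-- `e^{-Φ}` is integrable for the standard Gaussian if `Φ` is convex of class `C²`. -/
theorem blg_integrable_gauss {Φ : (ι → ℝ) → ℝ} {Φ' : (ι → ℝ) → (ι → ℝ) →L[ℝ] ℝ}
    {Φ'' : (ι → ℝ) → (ι → ℝ) →L[ℝ] (ι → ℝ) →L[ℝ] ℝ}
    (d1 : ∀ x, HasFDerivAt Φ (Φ' x) x) (d2 : ∀ x, HasFDerivAt Φ' (Φ'' x) x)
    (hcont : Continuous Φ'') (hcv : ∀ x v, 0 ≤ Φ'' x v v) :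
    Integrable (fun x => Real.exp (- Φ x)) (Measure.pi fun _ : ι => gaussianReal 0 1) := by
  have hg0 := bl_integrable_exp_neg_sq (ι := ι)
  rw [bl_pi_gaussian_eq_tilted, integrable_tilted_iff hg0]
  refine (blg_hyp d1 d2 hcont hcv).int.congr (Eventually.of_forall fun x => ?_)
  simp only [smul_eq_mul]
  rw [← Real.exp_add]
  congr 1
  ring

/-- the variance inequality for `φ ∘ A`, all `φ ∈ C²` (`hvar` of `bl_moment_of_var`). -/
theorem blg_hvar {Φ : (ι → ℝ) → ℝ} {Φ' : (ι → ℝ) → (ι → ℝ) →L[ℝ] ℝ}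
    {Φ'' : (ι → ℝ) → (ι → ℝ) →L[ℝ] (ι → ℝ) →L[ℝ] ℝ}
    (d1 : ∀ x, HasFDerivAt Φ (Φ' x) x) (d2 : ∀ x, HasFDerivAt Φ' (Φ'' x) x)
    (hcont : Continuous Φ'') (hcv : ∀ x v, 0 ≤ Φ'' x v v)
    {A J : (ι → ℝ) → ℝ} {A' : (ι → ℝ) → (ι → ℝ) →L[ℝ] ℝ}
    (hA1 : ∀ x, HasFDerivAt A (A' x) x) (hA2 : Continuous A')
    (hJ : Continuous J) (hJ0 : ∀ x, 0 ≤ J x)
    (hQ : ∀ x v, (A' x v) ^ 2 ≤ (∑ i, v i ^ 2 + Φ'' x v v) * J x)
    {M : ℝ} (hAb : ∀ x, |A x| ≤ M) (hJb : ∀ x, J x ≤ M)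
    (φ : ℝ → ℝ) (hφ : ContDiff ℝ 2 φ) :
    Var[fun x => φ (A x); (Measure.pi fun _ : ι => gaussianReal 0 1).tilted (fun x => - Φ x)] ≤
      ∫ x, (deriv φ (A x)) ^ 2 * J x
        ∂((Measure.pi fun _ : ι => gaussianReal 0 1).tilted (fun x => - Φ x)) := by
  have hAc : Continuous A := continuous_iff_continuousAt.2 fun x => (hA1 x).continuousAt
  have hdφ : Continuous (deriv φ) := hφ.continuous_deriv (by norm_num)
  have hie := blg_integrable_gauss d1 d2 hcont hcv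
  have hΦc : Continuous Φ := continuous_iff_continuousAt.2 fun x => (d1 x).continuousAt
  -- bounds on the compact interval
  obtain ⟨C0, hC0⟩ := (isCompact_Icc (a := -M) (b := M)).exists_bound_of_continuousOn
    hφ.continuous.continuousOn
  obtain ⟨C1, hC1⟩ := (isCompact_Icc (a := -M) (b := M)).exists_bound_of_continuousOn
    hdφ.continuousOn
  have hmem : ∀ x, A x ∈ Icc (-M) M := fun x => abs_le.1 (hAb x)
  refine blg_var d1 d2 hcont hcv (f := fun x => φ (A x)) (f' := fun x => deriv φ (A x) • A' x)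
    (c := fun x => (deriv φ (A x)) ^ 2 * J x) ?_ ?_ ?_ ?_ ?_ ?_ ?_
  · intro x
    have h := ((hφ.differentiable (by norm_num)) (A x)).hasDerivAt
    exact h.comp_hasFDerivAt x (hA1 x)
  · exact (hdφ.comp hAc).smul hA2
  · exact ((hdφ.comp hAc).pow 2).mul hJ
  · intro x
    have := hJ0 x
    positivity
  · intro x v
    simp only [smul_apply, smul_eq_mul, mul_pow]
    have := mul_le_mul_of_nonneg_left (hQ x v) (sq_nonneg (deriv φ (A x)))
    linarith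
  · refine hie.bdd_mul (c := C0 ^ 2) (by fun_prop) (Eventually.of_forall fun x => ?_)
    rw [Real.norm_eq_abs, abs_pow]
    exact pow_le_pow_left₀ (abs_nonneg _) (hC0 _ (hmem x)) 2
  · refine hie.bdd_mul (c := C1 ^ 2 * M) (by fun_prop) (Eventually.of_forall fun x => ?_)
    rw [Real.norm_eq_abs, abs_mul, abs_pow, abs_of_nonneg (hJ0 x)]
    exact mul_le_mul (pow_le_pow_left₀ (abs_nonneg _) (hC1 _ (hmem x)) 2) (hJb x) (hJ0 x)
      (by positivity)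

/-- **The `L^p` ladder of PE Lemma 2.3 / LL (A2)** for a convex tilt of the standard Gaussian. -/
theorem blg_moment {Φ : (ι → ℝ) → ℝ} {Φ' : (ι → ℝ) → (ι → ℝ) →L[ℝ] ℝ}
    {Φ'' : (ι → ℝ) → (ι → ℝ) →L[ℝ] (ι → ℝ) →L[ℝ] ℝ}
    (d1 : ∀ x, HasFDerivAt Φ (Φ' x) x) (d2 : ∀ x, HasFDerivAt Φ' (Φ'' x) x)
    (hcont : Continuous Φ'') (hcv : ∀ x v, 0 ≤ Φ'' x v v)
    {A J : (ι → ℝ) → ℝ} {A' : (ι → ℝ) → (ι → ℝ) →L[ℝ] ℝ}
    (hA1 : ∀ x, HasFDerivAt A (A' x) x) (hA2 : Continuous A')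
    (hJ : Continuous J) (hJ0 : ∀ x, 0 ≤ J x)
    (hQ : ∀ x v, (A' x v) ^ 2 ≤ (∑ i, v i ^ 2 + Φ'' x v v) * J x)
    {M : ℝ} (hAb : ∀ x, |A x| ≤ M) (hJb : ∀ x, J x ≤ M)
    (hA0 : ∫ x, A x ∂((Measure.pi fun _ : ι => gaussianReal 0 1).tilted (fun x => - Φ x)) = 0)
    {p : ℝ} (hp : 2 ≤ p) :
    (∫ x, |A x| ^ p ∂((Measure.pi fun _ : ι => gaussianReal 0 1).tilted (fun x => - Φ x))) ^ (2 / p)
      ≤ (1 + p ^ 2 / 3) *
        (∫ x, J x ^ (p / 2)
          ∂((Measure.pi fun _ : ι => gaussianReal 0 1).tilted (fun x => - Φ x))) ^ (2 / p) := by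
  have hAc : Continuous A := continuous_iff_continuousAt.2 fun x => (hA1 x).continuousAt
  have hprob : IsProbabilityMeasure
      ((Measure.pi fun _ : ι => gaussianReal 0 1).tilted (fun x => - Φ x)) :=
    isProbabilityMeasure_tilted (blg_integrable_gauss d1 d2 hcont hcv)
  exact PL.bl_moment_of_var hAc.measurable hJ.measurable hJ0 hAb hJb hA0
    (fun φ hφ => blg_hvar d1 d2 hcont hcv hA1 hA2 hJ hJ0 hQ hAb hJb φ hφ) hp

end gauss

end Claimed.Agent.BL
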