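import Claimed.Agent.Lib.PLConvex

/-!
# The Brascamp–Lieb variance inequality (dual form, no inverse matrix), from Prékopa–Leindler      (helper169)

**`blv_main`**: `ν` a measure with the Prékopa–Leindler property on a finite dimensional normed space (`plProp_addHaar`, `plProp_pi_fin`), `U ∈ C²` with `D²U(x)[h,h] ≥ κ ‖h‖²`, `κ > 0`,
`f ∈ C¹`, `c ≥ 0` continuous, `(Df(x) h)² ≤ D²U(x)[h,h] · c(x)` for all `x, h`.   Then, for `dμ = e^{-U} dν`:   `μ(1) μ(f²) - μ(f)² ≤ μ(1) μ(c)`,   i.e. `Var f ≤ E c` for the normalised measure.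
(With `c = ⟨(D²U)⁻¹ ∇f, ∇f⟩` this is Brascamp–Lieb 1976, Theorem 4.1.)

PROOF.   Prékopa–Leindler at the midpoint on a closed ball `B`, for `exp(-U ± t f - t² c/2)` against `exp(-U + ε t²/2)`; the hypothesis of PL is `0 ≤ Δ + (t/2)(f y - f x) + (t²/4)(c x + c y) + ε t²/2`, `Δ = (U x + U y)/2 - U((x+y)/2)`:
for `‖y - x‖/2 ≥ 2 t M₁/κ` by strong convexity, else by `A/2 + t B + t² C/2 ≥ 0` (`B² ≤ A C`) and uniform continuity on `B`.   Expansion to the order `t²`; `R → ∞`.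

* `blv_pl_mid`        Prékopa–Leindler at the midpoint on a convex set, real form
* `blv_second_order`  if `∫ e^{tf - t²c/2} ∫ e^{-tf - t²c/2} ≤ e^{ε t²} M²` for small `t`, all `ε`, then `M ∫ f² - (∫ f)² ≤ M ∫ c`
* `blv_on_convex`     abstract form on a convex set
* `blv_second_diff`, `blv_mid_alg`, `blv_ball`, `blv_main`
* `BlvGauss γ ν B Z` (`γ = Z e^{-B(x,x)/2} dν`), `BlvGauss.integral`, `BlvGauss.integrable_iff`, `BlvGauss.pi`, `blvGauss_real`, `blvGauss_pi`, `blvGauss_pi_pi`, `blv_pi_withDensity`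
* `blv_gauss_gen`     perturbation `e^{-V} dγ` of a Gaussian measure, `B + D²V ≥ κ`
* `blv_gauss`, `blv_gauss_semi`    on `K → ℝ` with `Measure.pi fun _ => gaussianReal 0 1`:   `(Df h)² ≤ (∑ h_k² + D²V[h,h]) c`  ⟹  `γ(e^{-V}) γ(f² e^{-V}) - γ(f e^{-V})² ≤ γ(e^{-V}) γ(c e^{-V})`
* `blv_gauss2`, `blv_gauss2_semi`  the same on `L → K → ℝ` with `Measure.pi fun _ => Measure.pi fun _ => gaussianReal 0 1`
   (`f` only `C¹`, `c` only continuous; tilted-measure / `Var` forms for `C²` data: `Lib/BLGauss.lean` of helper171)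
-/

open MeasureTheory Set Filter Topology
open scoped ENNReal NNReal

namespace Claimed.Agent.BL

open Claimed.Agent.PL

/-- Prékopa–Leindler at the midpoint on a convex set -/
theorem blv_pl_mid {E : Type*} [AddCommGroup E] [Module ℝ E] [MeasurableSpace E] {ν : Measure E} (hν : PLProp E ν)
    {B : Set E} (hB : Convex ℝ B) (hBm : MeasurableSet B) {P Q W : E → ℝ} (hP : Measurable P) (hQ : Measurable Q) (hW : Measurable W)
    (H : ∀ x ∈ B, ∀ y ∈ B, W ((1 / 2 : ℝ) • x + (1 / 2 : ℝ) • y) ≤ (P x + Q y) / 2)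
    (hiP : IntegrableOn (fun x => Real.exp (-P x)) B ν) (hiQ : IntegrableOn (fun x => Real.exp (-Q x)) B ν)
    (hiW : IntegrableOn (fun x => Real.exp (-W x)) B ν) :
    (∫ x in B, Real.exp (-P x) ∂ν) * (∫ x in B, Real.exp (-Q x) ∂ν) ≤ (∫ x in B, Real.exp (-W x) ∂ν) ^ 2 := by
  have e12 : (1 - (1 / 2 : ℝ)) = 1 / 2 := by norm_num
  have h12 : (0 : ℝ) < 1 / 2 := by norm_num
  have key := hν (1 / 2) h12 (by norm_num) (B.indicator fun y => ENNReal.ofReal (Real.exp (-P y)))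
    (B.indicator fun y => ENNReal.ofReal (Real.exp (-Q y))) (B.indicator fun y => ENNReal.ofReal (Real.exp (-W y)))
    ((by fun_prop : Measurable fun y => ENNReal.ofReal (Real.exp (-P y))).indicator hBm)
    ((by fun_prop : Measurable fun y => ENNReal.ofReal (Real.exp (-Q y))).indicator hBm)
    ((by fun_prop : Measurable fun y => ENNReal.ofReal (Real.exp (-W y))).indicator hBm) ?_
  · have hP0 : 0 ≤ ∫ x in B, Real.exp (-P x) ∂ν := integral_nonneg fun _ => (Real.exp_pos _).le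
    have hQ0 : 0 ≤ ∫ x in B, Real.exp (-Q x) ∂ν := integral_nonneg fun _ => (Real.exp_pos _).le
    have hW0 : 0 ≤ ∫ x in B, Real.exp (-W x) ∂ν := integral_nonneg fun _ => (Real.exp_pos _).le
    rw [lintegral_indicator hBm, lintegral_indicator hBm, lintegral_indicator hBm, e12,
      ← ofReal_integral_eq_lintegral_ofReal hiP (Eventually.of_forall fun _ => (Real.exp_pos _).le),
      ← ofReal_integral_eq_lintegral_ofReal hiQ (Eventually.of_forall fun _ => (Real.exp_pos _).le),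
      ← ofReal_integral_eq_lintegral_ofReal hiW (Eventually.of_forall fun _ => (Real.exp_pos _).le),
      ENNReal.ofReal_rpow_of_nonneg hP0 h12.le, ENNReal.ofReal_rpow_of_nonneg hQ0 h12.le,
      ← ENNReal.ofReal_mul (Real.rpow_nonneg hP0 _)] at key
    have key' := (ENNReal.ofReal_le_ofReal_iff hW0).1 key
    have h2 := pow_le_pow_left₀ (mul_nonneg (Real.rpow_nonneg hP0 _) (Real.rpow_nonneg hQ0 _)) key' 2
    rw [mul_pow, ← Real.rpow_natCast, ← Real.rpow_natCast, ← Real.rpow_mul hP0, ← Real.rpow_mul hQ0] at h2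
    norm_num at h2
    exact h2
  · intro x y
    by_cases hx : x ∈ B
    · by_cases hy : y ∈ B
      · have hz : (1 - (1 / 2 : ℝ)) • x + (1 / 2 : ℝ) • y ∈ B := hB hx hy (by norm_num) (by norm_num) (by norm_num)
        rw [indicator_of_mem hx, indicator_of_mem hy, indicator_of_mem hz, e12,
          ENNReal.ofReal_rpow_of_nonneg (Real.exp_pos _).le h12.le, ENNReal.ofReal_rpow_of_nonneg (Real.exp_pos _).le h12.le,
          ← ENNReal.ofReal_mul (Real.rpow_nonneg (Real.exp_pos _).le _)]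
        apply ENNReal.ofReal_le_ofReal
        rw [← Real.exp_mul, ← Real.exp_mul, ← Real.exp_add]
        apply Real.exp_le_exp.2
        have := H x hx y hy
        linarith
      · rw [indicator_of_notMem hy, ENNReal.zero_rpow_of_pos h12, mul_zero]
        exact zero_le
    · rw [indicator_of_notMem hx, ENNReal.zero_rpow_of_pos (by norm_num), zero_mul]
      exact zero_le

theorem blv_exp_lower {y : ℝ} (hy : |y| ≤ 1) : 1 + y + y ^ 2 / 2 - |y| ^ 3 ≤ Real.exp y := by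
  have h := Real.exp_bound hy (n := 3) (by norm_num)
  have h1 := (abs_le.1 h).1
  simp only [Finset.sum_range_succ, Finset.sum_range_zero, Nat.factorial] at h1
  have h3 : 0 ≤ |y| ^ 3 := by positivity
  norm_num at h1
  nlinarith

theorem blv_pt_lower {t f c F C : ℝ} (ht0 : 0 < t) (ht1 : t ≤ 1) (hF : |f| ≤ F) (hC : |c| ≤ C) (htD : t * (F + C) ≤ 1) :
    1 + t * f + t ^ 2 * ((f ^ 2 - c) / 2) - (F * C / 2 + (F + C) ^ 3) * t ^ 3 ≤ Real.exp (t * f - t ^ 2 * c / 2) := by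
  have hF0 : 0 ≤ F := le_trans (abs_nonneg _) hF
  have hC0 : 0 ≤ C := le_trans (abs_nonneg _) hC
  have hy : |t * f - t ^ 2 * c / 2| ≤ t * (F + C) := by
    have h1 : |t * f - t ^ 2 * c / 2| ≤ |t * f| + |t ^ 2 * c / 2| := abs_sub _ _
    have h2 : |t * f| = t * |f| := by rw [abs_mul, abs_of_pos ht0]
    have h3 : |t ^ 2 * c / 2| = t ^ 2 * |c| / 2 := by
      rw [abs_div, abs_mul, abs_of_pos (by positivity : (0 : ℝ) < t ^ 2), abs_of_pos (by norm_num : (0 : ℝ) < 2)]
    have h4 : t ^ 2 * |c| / 2 ≤ t * C := by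
      have : t ^ 2 ≤ t := by nlinarith
      nlinarith [abs_nonneg c]
    have h5 : t * |f| ≤ t * F := mul_le_mul_of_nonneg_left hF ht0.le
    rw [h2, h3] at h1
    linarith
  have h0 := blv_exp_lower (le_trans hy htD)
  have h3 : |t * f - t ^ 2 * c / 2| ^ 3 ≤ (t * (F + C)) ^ 3 := pow_le_pow_left₀ (abs_nonneg _) hy 3
  have hfc : f * c ≤ F * C := by
    have : f * c ≤ |f| * |c| := by rw [← abs_mul]; exact le_abs_self _
    exact le_trans this (mul_le_mul hF hC (abs_nonneg _) hF0)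
  have h4 : t ^ 2 * f ^ 2 / 2 - t ^ 3 * (F * C) / 2 ≤ (t * f - t ^ 2 * c / 2) ^ 2 / 2 := by
    have e : (t * f - t ^ 2 * c / 2) ^ 2 / 2 = t ^ 2 * f ^ 2 / 2 - t ^ 3 * (f * c) / 2 + t ^ 4 * c ^ 2 / 8 := by ring
    rw [e]
    have h5 : t ^ 3 * (f * c) ≤ t ^ 3 * (F * C) := mul_le_mul_of_nonneg_left hfc (by positivity)
    have h6 : 0 ≤ t ^ 4 * c ^ 2 / 8 := by positivity
    linarith
  have e3 : (t * (F + C)) ^ 3 = (F + C) ^ 3 * t ^ 3 := by ring
  rw [e3] at h3
  nlinarith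

theorem blv_exp_up {M η t : ℝ} (hM : 0 < M) (hη : 0 < η) (htpos : 0 < t) (ht1 : t ≤ 1) (h_c : t * (η / (4 * M ^ 2)) ≤ 1) :
    Real.exp (η / (4 * M ^ 2) * t ^ 2) * M ^ 2 ≤ M ^ 2 + η / 2 * t ^ 2 := by
  have hn2 : 0 ≤ η / (4 * M ^ 2) := by positivity
  have ht2 : t ^ 2 ≤ t := by nlinarith
  have hexp : Real.exp (η / (4 * M ^ 2) * t ^ 2) ≤ 1 + 2 * (η / (4 * M ^ 2) * t ^ 2) := by
    have hu0 : 0 ≤ η / (4 * M ^ 2) * t ^ 2 := by positivity
    have hu1 : η / (4 * M ^ 2) * t ^ 2 ≤ 1 := by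
      have : η / (4 * M ^ 2) * t ^ 2 ≤ η / (4 * M ^ 2) * t := mul_le_mul_of_nonneg_left ht2 hn2
      linarith
    have h1 := Real.abs_exp_sub_one_sub_id_le (x := η / (4 * M ^ 2) * t ^ 2) (by rw [abs_of_nonneg hu0]; exact hu1)
    have h2 := (abs_le.1 h1).2
    generalize η / (4 * M ^ 2) * t ^ 2 = u at *
    nlinarith
  have h1 := mul_le_mul_of_nonneg_right hexp (sq_nonneg M)
  have e : (1 + 2 * (η / (4 * M ^ 2) * t ^ 2)) * M ^ 2 = M ^ 2 + η / 2 * t ^ 2 := by field_simp; ring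
  linarith

theorem blv_alg {M a b K η t I1 I2 : ℝ} (hM : 0 < M) (hK0 : 0 ≤ K) (hη : 0 < η) (htpos : 0 < t) (ht1 : t ≤ 1) (h_b' : t * (|a| + |b| + K) ≤ M)
    (h_d' : 4 * M * K * t ≤ η) (hI1 : M + t * a + t ^ 2 * b - K * t ^ 3 ≤ I1) (hI2 : M + t * (-a) + t ^ 2 * b - K * t ^ 3 ≤ I2)
    (hHt : I1 * I2 ≤ M ^ 2 + η / 2 * t ^ 2) : 2 * M * b - a ^ 2 ≤ η := by
  have ht2 : t ^ 2 ≤ t := by nlinarith
  have ht3 : t ^ 3 ≤ t := by nlinarith
  have hsmall : t * |a| + t ^ 2 * |b| + K * t ^ 3 ≤ M := by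
    have h1 : t ^ 2 * |b| ≤ t * |b| := mul_le_mul_of_nonneg_right ht2 (abs_nonneg _)
    have h2 : K * t ^ 3 ≤ K * t := mul_le_mul_of_nonneg_left ht3 hK0
    linarith
  have hb1 : -(t ^ 2 * |b|) ≤ t ^ 2 * b := by
    have h1 := neg_abs_le b
    have h2 := mul_le_mul_of_nonneg_left h1 (sq_nonneg t)
    linarith
  have ha1 : -(t * |a|) ≤ t * a := by
    have h1 := neg_abs_le a
    have h2 := mul_le_mul_of_nonneg_left h1 htpos.le
    linarith
  have ha2 : -(t * |a|) ≤ t * (-a) := by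
    have h1 := le_abs_self a
    have h2 := mul_le_mul_of_nonneg_left h1 htpos.le
    linarith
  have hL1 : 0 ≤ M + t * a + t ^ 2 * b - K * t ^ 3 := by linarith
  have hL2 : 0 ≤ M + t * (-a) + t ^ 2 * b - K * t ^ 3 := by linarith
  have hprod := mul_le_mul hI1 hI2 hL2 (le_trans hL1 hI1)
  have hfin : t ^ 2 * (2 * M * b - a ^ 2) ≤ t ^ 2 * (η / 2 + 2 * M * K * t) := by
    have e : (M + t * a + t ^ 2 * b - K * t ^ 3) * (M + t * (-a) + t ^ 2 * b - K * t ^ 3)
        = M ^ 2 + t ^ 2 * (2 * M * b - a ^ 2) - t ^ 2 * (2 * M * K * t) + (t ^ 2 * b - K * t ^ 3) ^ 2 := by ring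
    have h0 : 0 ≤ (t ^ 2 * b - K * t ^ 3) ^ 2 := sq_nonneg _
    have e2 : t ^ 2 * (η / 2 + 2 * M * K * t) = η / 2 * t ^ 2 + t ^ 2 * (2 * M * K * t) := by ring
    linarith
  have := le_of_mul_le_mul_left hfin (by positivity)
  linarith

/-- the second order consequence of the midpoint inequalities -/
theorem blv_second_order {Ω : Type*} [MeasurableSpace Ω] (m : Measure Ω) [IsFiniteMeasure m] (f c : Ω → ℝ)
    (hf : AEStronglyMeasurable f m) (hc : AEStronglyMeasurable c m) (F C : ℝ) (hF : ∀ᵐ x ∂m, |f x| ≤ F) (hC : ∀ᵐ x ∂m, |c x| ≤ C)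
    (H : ∀ ε : ℝ, 0 < ε → ∃ t0 : ℝ, 0 < t0 ∧ ∀ t : ℝ, 0 < t → t < t0 →
      (∫ x, Real.exp (t * f x - t ^ 2 * c x / 2) ∂m) * (∫ x, Real.exp (t * (-f x) - t ^ 2 * c x / 2) ∂m)
        ≤ Real.exp (ε * t ^ 2) * (m.real univ) ^ 2) :
    m.real univ * ∫ x, f x ^ 2 ∂m - (∫ x, f x ∂m) ^ 2 ≤ m.real univ * ∫ x, c x ∂m := by
  rcases eq_or_ne m 0 with rfl | hm
  · simp
  have hM : 0 < m.real univ := by
    rw [measureReal_def]
    exact ENNReal.toReal_pos (by simpa using hm) (measure_ne_top _ _)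
  have : NeZero m := ⟨hm⟩
  obtain ⟨x0, hx0F, hx0C⟩ := (hF.and hC).exists
  have hF0 : 0 ≤ F := le_trans (abs_nonneg _) hx0F
  have hC0 : 0 ≤ C := le_trans (abs_nonneg _) hx0C
  have hif : Integrable f m := Integrable.of_bound hf F (by simpa using hF)
  have hic : Integrable c m := Integrable.of_bound hc C (by simpa using hC)
  have hif2 : Integrable (fun x => f x ^ 2) m := by
    refine Integrable.of_bound (hf.pow 2) (F ^ 2) ?_
    filter_upwards [hF] with x hx
    rw [Real.norm_eq_abs, abs_pow]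
    exact pow_le_pow_left₀ (abs_nonneg _) hx 2
  set M := m.real univ with hMdef
  set a := ∫ x, f x ∂m with ha
  set b := (∫ x, f x ^ 2 ∂m - ∫ x, c x ∂m) / 2 with hb
  set K1 := F * C / 2 + (F + C) ^ 3 with hK1
  have hK10 : 0 ≤ K1 := by positivity
  -- lower bound for the two integrals
  have hlow : ∀ (g : Ω → ℝ), AEStronglyMeasurable g m → (∀ᵐ x ∂m, |g x| ≤ F) → (∀ x, g x ^ 2 = f x ^ 2) → Integrable g m → ∀ t : ℝ, 0 < t → t ≤ 1 → t * (F + C) ≤ 1 →
      M + t * (∫ x, g x ∂m) + t ^ 2 * b - K1 * t ^ 3 * M ≤ ∫ x, Real.exp (t * g x - t ^ 2 * c x / 2) ∂m := by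
    intro g hg hgF hg2 hig t ht0 ht1 htD
    have hie : Integrable (fun x => Real.exp (t * g x - t ^ 2 * c x / 2)) m := by
      refine Integrable.of_bound (Real.measurable_exp.comp_aemeasurable
        ((hg.aemeasurable.const_mul t).sub ((hc.aemeasurable.const_mul (t ^ 2)).div_const 2))).aestronglyMeasurable (Real.exp (t * F + t ^ 2 * C / 2)) ?_
      filter_upwards [hgF, hC] with x hx1 hx2
      rw [Real.norm_eq_abs, abs_of_pos (Real.exp_pos _)]
      apply Real.exp_le_exp.2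
      have h1 : t * g x ≤ t * F := mul_le_mul_of_nonneg_left (le_trans (le_abs_self _) hx1) ht0.le
      have h2 : -(c x) ≤ C := le_trans (neg_le_abs _) hx2
      have h3 : t ^ 2 * (-(c x)) ≤ t ^ 2 * C := mul_le_mul_of_nonneg_left h2 (by positivity)
      linarith
    have hil : Integrable (fun x => 1 + t * g x + t ^ 2 * ((f x ^ 2 - c x) / 2) - K1 * t ^ 3) m :=
      (((integrable_const 1).add (hig.const_mul t)).add (((hif2.sub hic).div_const 2).const_mul (t ^ 2))).sub (integrable_const _)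
    have hle : ∫ x, (1 + t * g x + t ^ 2 * ((f x ^ 2 - c x) / 2) - K1 * t ^ 3) ∂m ≤ ∫ x, Real.exp (t * g x - t ^ 2 * c x / 2) ∂m := by
      refine integral_mono_ae hil hie ?_
      filter_upwards [hgF, hC] with x hx1 hx2
      have := blv_pt_lower ht0 ht1 hx1 hx2 htD
      rw [hg2 x] at this
      exact this
    have heq : ∫ x, (1 + t * g x + t ^ 2 * ((f x ^ 2 - c x) / 2) - K1 * t ^ 3) ∂m = M + t * (∫ x, g x ∂m) + t ^ 2 * b - K1 * t ^ 3 * M := by
      have i1 : Integrable (fun x => 1 + t * g x) m := (integrable_const 1).add (hig.const_mul t)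
      have i2 : Integrable (fun x => t ^ 2 * ((f x ^ 2 - c x) / 2)) m := ((hif2.sub hic).div_const 2).const_mul (t ^ 2)
      have i3 : Integrable (fun x => 1 + t * g x + t ^ 2 * ((f x ^ 2 - c x) / 2)) m := i1.add i2
      rw [integral_sub (f := fun x => 1 + t * g x + t ^ 2 * ((f x ^ 2 - c x) / 2)) (g := fun _ => K1 * t ^ 3) i3 (integrable_const _),
        integral_add (f := fun x => 1 + t * g x) (g := fun x => t ^ 2 * ((f x ^ 2 - c x) / 2)) i1 i2,
        integral_add (f := fun _ => (1 : ℝ)) (g := fun x => t * g x) (integrable_const 1) (hig.const_mul t), integral_const_mul, integral_const_mul,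
        integral_div, integral_sub (f := fun x => f x ^ 2) (g := c) hif2 hic, integral_const, integral_const]
      simp only [smul_eq_mul, mul_one]
      ring
    rw [← heq]
    exact hle
  -- the conclusion, up to `η`
  have hmain : 2 * M * b - a ^ 2 ≤ 0 := by
    refine le_of_forall_pos_le_add fun η hη => ?_
    rw [zero_add]
    obtain ⟨t0, ht0, Ht⟩ := H (η / (4 * M ^ 2)) (by positivity)
    set K := K1 * M with hK
    have hK0 : 0 ≤ K := by positivity
    set S := 1 + (F + C) + (|a| + |b| + K) / M + η / (4 * M ^ 2) + 4 * M * K / η with hS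
    have hS1 : 1 ≤ S := by
      have h1 : 0 ≤ (|a| + |b| + K) / M := by positivity
      have h2 : 0 ≤ η / (4 * M ^ 2) := by positivity
      have h3 : 0 ≤ 4 * M * K / η := by positivity
      have h4 : 0 ≤ F + C := by positivity
      rw [hS]; linarith
    have hn1 : 0 ≤ (|a| + |b| + K) / M := by positivity
    have hn2 : 0 ≤ η / (4 * M ^ 2) := by positivity
    have hn3 : 0 ≤ 4 * M * K / η := by positivity
    have hn4 : 0 ≤ F + C := by positivity
    have hS0 : 0 < S := by linarith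
    set t := min (t0 / 2) (1 / S) with ht
    have htpos : 0 < t := lt_min (by linarith) (by positivity)
    have htt0 : t < t0 := lt_of_le_of_lt (min_le_left _ _) (by linarith)
    have htS : t * S ≤ 1 := by
      have h1 : t ≤ 1 / S := min_le_right _ _
      calc t * S ≤ 1 / S * S := mul_le_mul_of_nonneg_right h1 hS0.le
        _ = 1 := by field_simp
    have hpart : ∀ X : ℝ, X ≤ S → t * X ≤ 1 := fun X hX => le_trans (mul_le_mul_of_nonneg_left hX htpos.le) htS
    have ht1 : t ≤ 1 := by simpa using hpart 1 hS1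
    have h_a : t * (F + C) ≤ 1 := hpart _ (by rw [hS]; linarith)
    have h_b : t * ((|a| + |b| + K) / M) ≤ 1 := hpart _ (by rw [hS]; linarith)
    have h_c : t * (η / (4 * M ^ 2)) ≤ 1 := hpart _ (by rw [hS]; linarith)
    have h_d : t * (4 * M * K / η) ≤ 1 := hpart _ (by rw [hS]; linarith)
    have h_b' : t * (|a| + |b| + K) ≤ M := by
      have : t * ((|a| + |b| + K) / M) * M ≤ 1 * M := mul_le_mul_of_nonneg_right h_b hM.le
      have e : t * ((|a| + |b| + K) / M) * M = t * (|a| + |b| + K) := by field_simp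
      linarith
    have h_d' : 4 * M * K * t ≤ η := by
      have : t * (4 * M * K / η) * η ≤ 1 * η := mul_le_mul_of_nonneg_right h_d hη.le
      have e : t * (4 * M * K / η) * η = 4 * M * K * t := by field_simp
      linarith
    have hI1 := hlow f hf hF (fun _ => rfl) hif t htpos ht1 h_a
    have hI2 := hlow (fun x => -f x) hf.neg (by simpa using hF) (fun x => by ring) hif.neg t htpos ht1 h_a
    rw [integral_neg] at hI2
    have eK : K1 * t ^ 3 * M = K * t ^ 3 := by rw [hK]; ring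
    rw [eK] at hI1 hI2
    exact blv_alg hM hK0 hη htpos ht1 h_b' h_d' hI1 hI2 (le_trans (Ht t htpos htt0) (blv_exp_up hM hη htpos ht1 h_c))
  have e : M * ∫ x, f x ^ 2 ∂m - a ^ 2 - M * ∫ x, c x ∂m = 2 * M * b - a ^ 2 := by rw [hb]; ring
  linarith

/-- **Brascamp–Lieb on a convex set, abstract form**: the midpoint inequalities at the order `o(t²)` give the variance inequality for `e^{-U} ν` on `B` -/
theorem blv_on_convex {E : Type*} [AddCommGroup E] [Module ℝ E] [MeasurableSpace E] {ν : Measure E} (hν : PLProp E ν)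
    {B : Set E} (hB : Convex ℝ B) (hBm : MeasurableSet B) {U f c : E → ℝ} (hU : Measurable U) (hf : Measurable f) (hc : Measurable c)
    (F C : ℝ) (hF : ∀ x ∈ B, |f x| ≤ F) (hC : ∀ x ∈ B, |c x| ≤ C) (hiU : IntegrableOn (fun x => Real.exp (-U x)) B ν)
    (H : ∀ ε : ℝ, 0 < ε → ∃ t0 : ℝ, 0 < t0 ∧ ∀ t : ℝ, 0 < t → t < t0 → ∀ x ∈ B, ∀ y ∈ B,
      U ((1 / 2 : ℝ) • x + (1 / 2 : ℝ) • y) ≤ ((U x - t * f x + t ^ 2 * c x / 2) + (U y + t * f y + t ^ 2 * c y / 2)) / 2 + ε * t ^ 2 / 2) :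
    (∫ x in B, Real.exp (-U x) ∂ν) * (∫ x in B, f x ^ 2 * Real.exp (-U x) ∂ν) - (∫ x in B, f x * Real.exp (-U x) ∂ν) ^ 2
      ≤ (∫ x in B, Real.exp (-U x) ∂ν) * ∫ x in B, c x * Real.exp (-U x) ∂ν := by
  set m : Measure E := (ν.restrict B).withDensity fun x => ENNReal.ofReal (Real.exp (-U x)) with hm
  have hfin : IsFiniteMeasure m := isFiniteMeasure_withDensity_ofReal hiU.2
  have hint : ∀ g : E → ℝ, ∫ x, g x ∂m = ∫ x in B, g x * Real.exp (-U x) ∂ν := by
    intro g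
    rw [hm, integral_withDensity_eq_integral_toReal_smul (by fun_prop) (Eventually.of_forall fun _ => ENNReal.ofReal_lt_top)]
    refine integral_congr_ae (Eventually.of_forall fun x => ?_)
    simp only [smul_eq_mul]
    rw [ENNReal.toReal_ofReal (Real.exp_pos _).le, mul_comm]
  have hM : m.real univ = ∫ x in B, Real.exp (-U x) ∂ν := by
    have h1 := hint fun _ => 1
    rw [integral_const] at h1
    simpa using h1
  have hae : ∀ᵐ x ∂m, x ∈ B := by
    rw [hm]
    exact (withDensity_absolutelyContinuous _ _).ae_le (ae_restrict_mem hBm)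
  have key := blv_second_order m f c hf.aestronglyMeasurable hc.aestronglyMeasurable F C (hae.mono fun x hx => hF x hx) (hae.mono fun x hx => hC x hx) ?_
  · rw [hM, hint, hint, hint] at key
    exact key
  · intro ε hε
    obtain ⟨t0, ht0, Ht⟩ := H ε hε
    refine ⟨t0, ht0, fun t ht htt => ?_⟩
    have hbd : ∀ s : ℝ, |s| ≤ 1 → IntegrableOn (fun x => Real.exp (-(U x + s * (t * f x) + t ^ 2 * c x / 2))) B ν := by
      intro s hs
      have h1 : IntegrableOn (fun x => Real.exp (t * F + t ^ 2 * C / 2) * Real.exp (-U x)) B ν := hiU.const_mul _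
      refine Integrable.mono' h1 (by fun_prop) ?_
      filter_upwards [ae_restrict_mem hBm] with x hx
      rw [Real.norm_eq_abs, abs_of_pos (Real.exp_pos _), ← Real.exp_add]
      apply Real.exp_le_exp.2
      have h2 : -(s * (t * f x)) ≤ t * F := by
        have h3 : -(s * (t * f x)) ≤ |s * (t * f x)| := neg_le_abs _
        have h4 : |s * (t * f x)| = |s| * (t * |f x|) := by rw [abs_mul, abs_mul, abs_of_pos ht]
        have h5 : |s| * (t * |f x|) ≤ 1 * (t * F) :=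
          mul_le_mul hs (mul_le_mul_of_nonneg_left (hF x hx) ht.le) (by positivity) zero_le_one
        linarith
      have h6 : t ^ 2 * (-(c x)) ≤ t ^ 2 * C := mul_le_mul_of_nonneg_left (le_trans (neg_le_abs _) (hC x hx)) (by positivity)
      linarith
    have hP := hbd (-1) (by norm_num)
    have hQ := hbd 1 (by norm_num)
    have hW : IntegrableOn (fun x => Real.exp (-(U x - ε * t ^ 2 / 2))) B ν := by
      have h1 : IntegrableOn (fun x => Real.exp (ε * t ^ 2 / 2) * Real.exp (-U x)) B ν := hiU.const_mul _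
      refine h1.congr (Eventually.of_forall fun x => ?_)
      simp only
      rw [← Real.exp_add]
      congr 1
      ring
    have hpl := blv_pl_mid hν hB hBm (P := fun x => U x + (-1) * (t * f x) + t ^ 2 * c x / 2) (Q := fun x => U x + 1 * (t * f x) + t ^ 2 * c x / 2)
      (W := fun x => U x - ε * t ^ 2 / 2) (by fun_prop) (by fun_prop) (by fun_prop) (fun x hx y hy => by have := Ht t ht htt x hx y hy; linarith) hP hQ hW
    rw [hint, hint, hM]
    have e1 : ∫ x in B, Real.exp (t * f x - t ^ 2 * c x / 2) * Real.exp (-U x) ∂ν = ∫ x in B, Real.exp (-(U x + (-1) * (t * f x) + t ^ 2 * c x / 2)) ∂ν := by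
      refine integral_congr_ae (Eventually.of_forall fun x => ?_)
      simp only
      rw [← Real.exp_add]
      congr 1
      ring
    have e2 : ∫ x in B, Real.exp (t * (-f x) - t ^ 2 * c x / 2) * Real.exp (-U x) ∂ν = ∫ x in B, Real.exp (-(U x + 1 * (t * f x) + t ^ 2 * c x / 2)) ∂ν := by
      refine integral_congr_ae (Eventually.of_forall fun x => ?_)
      simp only
      rw [← Real.exp_add]
      congr 1
      ring
    have e3 : ∫ x in B, Real.exp (-(U x - ε * t ^ 2 / 2)) ∂ν = Real.exp (ε * t ^ 2 / 2) * ∫ x in B, Real.exp (-U x) ∂ν := by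
      rw [← integral_const_mul]
      refine integral_congr_ae (Eventually.of_forall fun x => ?_)
      simp only
      rw [← Real.exp_add]
      congr 1
      ring
    rw [e1, e2]
    refine le_trans hpl (le_of_eq ?_)
    rw [e3, mul_pow, ← Real.exp_nat_mul]
    congr 2
    push_cast
    ring

/-- second differences and second derivatives -/
theorem blv_second_diff {g g' g'' : ℝ → ℝ} {q : ℝ} (h1 : ∀ r, HasDerivAt g (g' r) r) (h2 : ∀ r, HasDerivAt g' (g'' r) r)
    (hq : ∀ r ∈ Icc (-1 : ℝ) 1, q ≤ g'' r) : q ≤ g 1 + g (-1) - 2 * g 0 := by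
  -- `ψ r = g r + g (-r) - 2 g 0 - q r²`
  have hψ : ∀ r, HasDerivAt (fun r => g r + g (-r) - 2 * g 0 - q * r ^ 2) (g' r - g' (-r) - 2 * q * r) r := by
    intro r
    have a1 := h1 r
    have a2 : HasDerivAt (fun r => g (-r)) (-(g' (-r))) r := by
      have := (h1 (-r)).comp r (hasDerivAt_neg r)
      simpa [Function.comp_def] using this
    have a3 : HasDerivAt (fun r : ℝ => q * r ^ 2) (q * (2 * r)) r := by
      have := (hasDerivAt_pow 2 r).const_mul q
      simpa using this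
    exact (((a1.add a2).sub_const (2 * g 0)).sub a3).congr_deriv (by ring)
  have hψ' : ∀ r, HasDerivAt (fun r => g' r - g' (-r) - 2 * q * r) (g'' r + g'' (-r) - 2 * q) r := by
    intro r
    have a1 := h2 r
    have a2 : HasDerivAt (fun r => g' (-r)) (-(g'' (-r))) r := by
      have := (h2 (-r)).comp r (hasDerivAt_neg r)
      simpa [Function.comp_def] using this
    have a3 : HasDerivAt (fun r : ℝ => 2 * q * r) (2 * q) r := by
      have := (hasDerivAt_id r).const_mul (2 * q)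
      simpa using this
    exact ((a1.sub a2).sub a3).congr_deriv (by ring)
  have hmono' : MonotoneOn (fun r => g' r - g' (-r) - 2 * q * r) (Icc (0 : ℝ) 1) := by
    refine monotoneOn_of_deriv_nonneg (convex_Icc 0 1) (fun r _ => (hψ' r).continuousAt.continuousWithinAt)
      (fun r _ => (hψ' r).differentiableAt.differentiableWithinAt) fun r hr => ?_
    rw [interior_Icc] at hr
    rw [(hψ' r).deriv]
    have b1 := hq r ⟨by linarith [hr.1], hr.2.le⟩
    have b2 := hq (-r) ⟨by linarith [hr.2], by linarith [hr.1]⟩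
    linarith
  have hmono : MonotoneOn (fun r => g r + g (-r) - 2 * g 0 - q * r ^ 2) (Icc (0 : ℝ) 1) := by
    refine monotoneOn_of_deriv_nonneg (convex_Icc 0 1) (fun r _ => (hψ r).continuousAt.continuousWithinAt)
      (fun r _ => (hψ r).differentiableAt.differentiableWithinAt) fun r hr => ?_
    rw [interior_Icc] at hr
    rw [(hψ r).deriv]
    have := hmono' (left_mem_Icc.2 zero_le_one) ⟨hr.1.le, hr.2.le⟩ hr.1.le
    simpa using this
  have := hmono (left_mem_Icc.2 zero_le_one) (right_mem_Icc.2 zero_le_one) zero_le_one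
  simp only [neg_zero] at this
  nlinarith

/-- the algebra of the midpoint inequality.   `Δ = (U x + U y)/2 - U z`, `φ = f y - f x`, `N = ‖h‖` -/
theorem blv_mid_alg {κ t N Δ φ cx cy cz A Bq M1 ω δ ε : ℝ} (hκ : 0 < κ) (ht : 0 < t) (hN : 0 ≤ N) (hM1 : 0 ≤ M1) (hω : 0 ≤ ω)
    (hU1 : κ / 2 * N ^ 2 ≤ Δ) (hU2 : N ≤ δ → A / 2 - ω * N ^ 2 ≤ Δ) (hF1 : |φ| ≤ 2 * M1 * N) (hF2 : N ≤ δ → |φ - 2 * Bq| ≤ 2 * ω * N)
    (hcx0 : 0 ≤ cx) (hcy0 : 0 ≤ cy) (hcx : N ≤ δ → cz - ω ≤ cx) (hcy : N ≤ δ → cz - ω ≤ cy) (hA : 0 ≤ A) (hcz : 0 ≤ cz) (hQ : Bq ^ 2 ≤ A * cz)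
    (htδ : t * (2 * M1 / κ) ≤ δ) (hωε : ω * ((2 * M1 / κ) ^ 2 + 2 * M1 / κ + 1 / 2) ≤ ε / 2) :
    0 ≤ Δ + t / 2 * φ + t ^ 2 / 4 * (cx + cy) + ε * t ^ 2 / 2 := by
  have hε : 0 ≤ ε := by
    have : 0 ≤ ω * ((2 * M1 / κ) ^ 2 + 2 * M1 / κ + 1 / 2) := by positivity
    linarith
  set ρ := 2 * M1 / κ with hρ
  have hρ0 : 0 ≤ ρ := by positivity
  have hρκ : ρ * κ = 2 * M1 := by rw [hρ]; field_simp
  have hφ := abs_le.1 hF1
  rcases le_or_gt (t * ρ) N with hcase | hcase
  · -- far: strong convexity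
    have h1 : t * M1 * N ≤ κ / 2 * N ^ 2 := by
      have : t * ρ * (κ / 2 * N) ≤ N * (κ / 2 * N) := mul_le_mul_of_nonneg_right hcase (by positivity)
      have e : t * ρ * (κ / 2 * N) = t * M1 * N := by
        calc t * ρ * (κ / 2 * N) = t * (ρ * κ) * N / 2 := by ring
          _ = t * M1 * N := by rw [hρκ]; ring
      nlinarith
    have h2 : -(t * M1 * N) ≤ t / 2 * φ := by nlinarith [hφ.1]
    have h3 : 0 ≤ t ^ 2 / 4 * (cx + cy) := by positivity
    have h4 : 0 ≤ ε * t ^ 2 / 2 := by positivity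
    linarith
  · -- near: the quadratic form
    have hNδ : N ≤ δ := le_trans hcase.le htδ
    have a1 := hU2 hNδ
    have a2 := abs_le.1 (hF2 hNδ)
    have a3 := hcx hNδ
    have a4 := hcy hNδ
    have hquad : 0 ≤ A / 2 + t * Bq + t ^ 2 * cz / 2 := by
      -- `(A + t Bq')`: discriminant
      rcases eq_or_lt_of_le hA with hA0 | hApos
      · have hB0 : Bq = 0 := by
          have : Bq ^ 2 ≤ 0 := by rw [← hA0] at hQ; simpa using hQ
          exact pow_eq_zero_iff (two_ne_zero) |>.1 (le_antisymm this (sq_nonneg _))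
        rw [← hA0, hB0]
        positivity
      · have : 0 ≤ (A + t * Bq) ^ 2 + t ^ 2 * (A * cz - Bq ^ 2) := by
          have := sub_nonneg.2 hQ
          positivity
        have e : (A + t * Bq) ^ 2 + t ^ 2 * (A * cz - Bq ^ 2) = 2 * A * (A / 2 + t * Bq + t ^ 2 * cz / 2) := by ring
        rw [e] at this
        exact nonneg_of_mul_nonneg_right this (by positivity)
    have hN2 : N ^ 2 ≤ (t * ρ) ^ 2 := pow_le_pow_left₀ hN hcase.le 2
    have b1 : ω * N ^ 2 ≤ ω * (t * ρ) ^ 2 := mul_le_mul_of_nonneg_left hN2 hω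
    have b2 : t * (ω * N) ≤ t * (ω * (t * ρ)) := mul_le_mul_of_nonneg_left (mul_le_mul_of_nonneg_left hcase.le hω) ht.le
    have b3 : t / 2 * (2 * Bq - 2 * ω * N) ≤ t / 2 * φ := mul_le_mul_of_nonneg_left (by linarith [a2.1]) (by positivity)
    have b4 : t ^ 2 / 4 * (2 * (cz - ω)) ≤ t ^ 2 / 4 * (cx + cy) := mul_le_mul_of_nonneg_left (by linarith) (by positivity)
    have b5 : t ^ 2 * (ω * (ρ ^ 2 + ρ + 1 / 2)) ≤ t ^ 2 * (ε / 2) := mul_le_mul_of_nonneg_left hωε (by positivity)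
    nlinarith

/-- the standing hypotheses on the reference measure and the potential -/
structure BlvHyp {E : Type*} [NormedAddCommGroup E] [NormedSpace ℝ E] [MeasurableSpace E] (ν : Measure E) (U : E → ℝ) (U' : E → E →L[ℝ] ℝ)
    (U'' : E → E →L[ℝ] E →L[ℝ] ℝ) (κ : ℝ) : Prop where
  pl : PLProp E ν
  kpos : 0 < κ
  d1 : ∀ x, HasFDerivAt U (U' x) x
  d2 : ∀ x, HasFDerivAt U' (U'' x) x
  cont : Continuous U''
  conv : ∀ x h, κ * ‖h‖ ^ 2 ≤ U'' x h h
  int : Integrable (fun x => Real.exp (-U x)) ν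

section

variable {E : Type*} [NormedAddCommGroup E] [NormedSpace ℝ E]

/-- second differences of `U` along a line -/
theorem blv_line {U : E → ℝ} {U' : E → E →L[ℝ] ℝ} {U'' : E → E →L[ℝ] E →L[ℝ] ℝ} (d1 : ∀ x, HasFDerivAt U (U' x) x) (d2 : ∀ x, HasFDerivAt U' (U'' x) x)
    (z h : E) (q : ℝ) (hq : ∀ r ∈ Icc (-1 : ℝ) 1, q ≤ U'' (z + r • h) h h) : q / 2 ≤ (U (z - h) + U (z + h)) / 2 - U z := by
  have hline : ∀ r : ℝ, HasDerivAt (fun r : ℝ => z + r • h) h r := by
    intro r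
    have := ((hasDerivAt_id r).smul_const h).const_add z
    simpa using this
  have h1 : ∀ r, HasDerivAt (fun r : ℝ => U (z + r • h)) (U' (z + r • h) h) r := fun r => (d1 (z + r • h)).comp_hasDerivAt r (hline r)
  have h2 : ∀ r, HasDerivAt (fun r : ℝ => U' (z + r • h) h) (U'' (z + r • h) h h) r := by
    intro r
    have a := (d2 (z + r • h)).comp_hasDerivAt r (hline r)
    have b := a.clm_apply (hasDerivAt_const r h)
    simpa using b
  have := blv_second_diff h1 h2 hq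
  simp only [one_smul, neg_smul, zero_smul, add_zero] at this
  rw [← sub_eq_add_neg] at this
  linarith

end

section

variable {E : Type*} [NormedAddCommGroup E] [NormedSpace ℝ E] [FiniteDimensional ℝ E] [MeasurableSpace E] [BorelSpace E]

/-- the midpoint inequality on a compact convex set -/
theorem blv_mid {U : E → ℝ} {U' : E → E →L[ℝ] ℝ} {U'' : E → E →L[ℝ] E →L[ℝ] ℝ} {κ : ℝ} (hκ : 0 < κ) (d1 : ∀ x, HasFDerivAt U (U' x) x)
    (d2 : ∀ x, HasFDerivAt U' (U'' x) x) (hcont : Continuous U'') (hconv : ∀ x h, κ * ‖h‖ ^ 2 ≤ U'' x h h)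
    {f c : E → ℝ} {f' : E → E →L[ℝ] ℝ} (hf1 : ∀ x, HasFDerivAt f (f' x) x) (hf2 : Continuous f') (hc : Continuous c) (hc0 : ∀ x, 0 ≤ c x)
    (hQ : ∀ x h, (f' x h) ^ 2 ≤ U'' x h h * c x) {B : Set E} (hBc : IsCompact B) (hB : Convex ℝ B) (ε : ℝ) (hε : 0 < ε) :
    ∃ t0 : ℝ, 0 < t0 ∧ ∀ t : ℝ, 0 < t → t < t0 → ∀ x ∈ B, ∀ y ∈ B,
      U ((1 / 2 : ℝ) • x + (1 / 2 : ℝ) • y) ≤ ((U x - t * f x + t ^ 2 * c x / 2) + (U y + t * f y + t ^ 2 * c y / 2)) / 2 + ε * t ^ 2 / 2 := by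
  obtain ⟨M0, hM0⟩ := hBc.exists_bound_of_continuousOn hf2.continuousOn
  set M1 := max M0 0 with hM1
  have hM10 : 0 ≤ M1 := le_max_right _ _
  have hM1b : ∀ x ∈ B, ‖f' x‖ ≤ M1 := fun x hx => le_trans (hM0 x hx) (le_max_left _ _)
  set ρ := 2 * M1 / κ with hρ
  have hρ0 : 0 ≤ ρ := by positivity
  set ω := ε / 2 / (ρ ^ 2 + ρ + 1 / 2) with hω
  have hω0 : 0 < ω := by positivity
  have hωε : ω * (ρ ^ 2 + ρ + 1 / 2) ≤ ε / 2 := by
    rw [hω]
    have : ρ ^ 2 + ρ + 1 / 2 ≠ 0 := by positivity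
    field_simp
    exact le_refl _
  have hu1 : UniformContinuousOn U'' B := hBc.uniformContinuousOn_of_continuous hcont.continuousOn
  have hu2 : UniformContinuousOn f' B := hBc.uniformContinuousOn_of_continuous hf2.continuousOn
  obtain ⟨δ1, hδ1, H1⟩ := (Metric.uniformContinuousOn_iff (f := U'') (s := B)).1 hu1 ω hω0
  obtain ⟨δ2, hδ2, H2⟩ := (Metric.uniformContinuousOn_iff (f := f') (s := B)).1 hu2 ω hω0
  obtain ⟨δ3, hδ3, H3⟩ := Metric.uniformContinuousOn_iff.1 (hBc.uniformContinuousOn_of_continuous hc.continuousOn) ω hω0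
  set δ := min δ1 (min δ2 δ3) / 2 with hδ
  have hδ0 : 0 < δ := by
    have : 0 < min δ1 (min δ2 δ3) := lt_min hδ1 (lt_min hδ2 hδ3)
    positivity
  have hδl1 : δ < δ1 := by
    have : min δ1 (min δ2 δ3) ≤ δ1 := min_le_left _ _
    have h0 : 0 < min δ1 (min δ2 δ3) := lt_min hδ1 (lt_min hδ2 hδ3)
    rw [hδ]; linarith
  have hδl2 : δ < δ2 := by
    have : min δ1 (min δ2 δ3) ≤ δ2 := le_trans (min_le_right _ _) (min_le_left _ _)
    have h0 : 0 < min δ1 (min δ2 δ3) := lt_min hδ1 (lt_min hδ2 hδ3)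
    rw [hδ]; linarith
  have hδl3 : δ < δ3 := by
    have : min δ1 (min δ2 δ3) ≤ δ3 := le_trans (min_le_right _ _) (min_le_right _ _)
    have h0 : 0 < min δ1 (min δ2 δ3) := lt_min hδ1 (lt_min hδ2 hδ3)
    rw [hδ]; linarith
  refine ⟨δ / (ρ + 1), by positivity, fun t ht htt x hx y hy => ?_⟩
  have htδ : t * ρ ≤ δ := by
    have h1 : t * (ρ + 1) < δ := by rwa [lt_div_iff₀ (by positivity)] at htt
    nlinarith
  set z := (1 / 2 : ℝ) • x + (1 / 2 : ℝ) • y with hz
  set h := (1 / 2 : ℝ) • (y - x) with hh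
  have hzB : z ∈ B := hB hx hy (by norm_num) (by norm_num) (by norm_num)
  have hxz : z - h = x := by
    rw [hz, hh, smul_sub]
    have : (1 / 2 : ℝ) • x + (1 / 2 : ℝ) • x = x := by rw [← add_smul]; norm_num
    calc (1 / 2 : ℝ) • x + (1 / 2 : ℝ) • y - ((1 / 2 : ℝ) • y - (1 / 2 : ℝ) • x) = (1 / 2 : ℝ) • x + (1 / 2 : ℝ) • x := by abel
      _ = x := this
  have hyz : z + h = y := by
    rw [hz, hh, smul_sub]
    have : (1 / 2 : ℝ) • y + (1 / 2 : ℝ) • y = y := by rw [← add_smul]; norm_num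
    calc (1 / 2 : ℝ) • x + (1 / 2 : ℝ) • y + ((1 / 2 : ℝ) • y - (1 / 2 : ℝ) • x) = (1 / 2 : ℝ) • y + (1 / 2 : ℝ) • y := by abel
      _ = y := this
  have hyx : y - x = (2 : ℝ) • h := by rw [hh, smul_smul]; norm_num
  have hnyx : ‖y - x‖ = 2 * ‖h‖ := by rw [hyx, norm_smul]; norm_num
  -- points of the segment
  have hseg : ∀ r ∈ Icc (-1 : ℝ) 1, z + r • h ∈ B := by
    intro r hr
    have e : z + r • h = ((1 - r) / 2) • x + ((1 + r) / 2) • y := by
      rw [hz, hh]
      module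
    rw [e]
    exact hB hx hy (by linarith [hr.2]) (by linarith [hr.1]) (by ring)
  have hdist : ∀ r ∈ Icc (-1 : ℝ) 1, dist (z + r • h) z ≤ ‖h‖ := by
    intro r hr
    rw [dist_eq_norm, add_sub_cancel_left, norm_smul, Real.norm_eq_abs]
    have : |r| ≤ 1 := abs_le.2 hr
    nlinarith [norm_nonneg h]
  have hU1 : κ / 2 * ‖h‖ ^ 2 ≤ (U x + U y) / 2 - U z := by
    have := blv_line d1 d2 z h (κ * ‖h‖ ^ 2) (fun r _ => hconv _ _)
    rw [hxz, hyz] at this
    linarith
  have hU2 : ‖h‖ ≤ δ → U'' z h h / 2 - ω * ‖h‖ ^ 2 ≤ (U x + U y) / 2 - U z := by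
    intro hN
    have := blv_line d1 d2 z h (U'' z h h - ω * ‖h‖ ^ 2) (fun r hr => ?_)
    · rw [hxz, hyz] at this
      have h0 : 0 ≤ ω * ‖h‖ ^ 2 := by positivity
      linarith
    · have a0 := H1 _ (hseg r hr) z hzB (lt_of_le_of_lt (le_trans (hdist r hr) hN) hδl1)
      have a1 : ‖U'' (z + r • h) - U'' z‖ < ω := lt_of_eq_of_lt (dist_eq_norm (U'' (z + r • h)) (U'' z)).symm a0
      have a2 : |(U'' (z + r • h) - U'' z) h h| ≤ ‖U'' (z + r • h) - U'' z‖ * ‖h‖ * ‖h‖ := by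
        rw [← Real.norm_eq_abs]
        exact ContinuousLinearMap.le_opNorm₂ _ _ _
      have a3 : (U'' (z + r • h) - U'' z) h h = U'' (z + r • h) h h - U'' z h h := by simp
      rw [a3] at a2
      have a4 := (abs_le.1 a2).1
      have a5 : ‖U'' (z + r • h) - U'' z‖ * ‖h‖ * ‖h‖ ≤ ω * ‖h‖ * ‖h‖ := by
        gcongr
      nlinarith
  have hF1 : |f y - f x| ≤ 2 * M1 * ‖h‖ := by
    have := Convex.norm_image_sub_le_of_norm_hasFDerivWithin_le (fun w _ => (hf1 w).hasFDerivWithinAt) hM1b hB hx hy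
    rw [Real.norm_eq_abs, hnyx] at this
    linarith
  have hF2 : ‖h‖ ≤ δ → |f y - f x - 2 * f' z h| ≤ 2 * ω * ‖h‖ := by
    intro hN
    have hs : Convex ℝ (B ∩ Metric.closedBall z ‖h‖) := hB.inter (convex_closedBall _ _)
    have hxs : x ∈ B ∩ Metric.closedBall z ‖h‖ := ⟨hx, by rw [Metric.mem_closedBall, dist_eq_norm, ← hxz]; simp⟩
    have hys : y ∈ B ∩ Metric.closedBall z ‖h‖ := ⟨hy, by rw [Metric.mem_closedBall, dist_eq_norm, ← hyz]; simp⟩
    have := Convex.norm_image_sub_le_of_norm_hasFDerivWithin_le' (φ := f' z) (C := ω) (fun w _ => (hf1 w).hasFDerivWithinAt) (fun w hw => ?_) hs hxs hys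
    · rw [Real.norm_eq_abs, hnyx, hyx, map_smul, smul_eq_mul] at this
      linarith
    · have a0 := H2 w hw.1 z hzB (lt_of_le_of_lt (le_trans hw.2 hN) hδl2)
      have a1 : ‖f' w - f' z‖ < ω := lt_of_eq_of_lt (dist_eq_norm (f' w) (f' z)).symm a0
      exact a1.le
  have hcx : ‖h‖ ≤ δ → c z - ω ≤ c x := by
    intro hN
    have a1 := H3 x hx z hzB (by
      rw [dist_eq_norm, ← hxz]
      simpa using lt_of_le_of_lt hN hδl3)
    rw [Real.dist_eq] at a1
    linarith [(abs_lt.1 a1).1]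
  have hcy : ‖h‖ ≤ δ → c z - ω ≤ c y := by
    intro hN
    have a1 := H3 y hy z hzB (by
      rw [dist_eq_norm, ← hyz]
      simpa using lt_of_le_of_lt hN hδl3)
    rw [Real.dist_eq] at a1
    linarith [(abs_lt.1 a1).1]
  have hA : 0 ≤ U'' z h h := le_trans (by positivity) (hconv z h)
  have := blv_mid_alg hκ ht (norm_nonneg h) hM10 hω0.le hU1 hU2 hF1 hF2 (hc0 x) (hc0 y) hcx hcy hA (hc0 z) (hQ z h) htδ hωε
  linarith

end

section

variable {E : Type*} [NormedAddCommGroup E] [NormedSpace ℝ E] [FiniteDimensional ℝ E] [MeasurableSpace E] [BorelSpace E]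

/-- **Brascamp–Lieb on a closed ball** -/
theorem blv_ball {ν : Measure E} {U : E → ℝ} {U' : E → E →L[ℝ] ℝ} {U'' : E → E →L[ℝ] E →L[ℝ] ℝ} {κ : ℝ} (hyp : BlvHyp ν U U' U'' κ)
    {f c : E → ℝ} {f' : E → E →L[ℝ] ℝ} (hf1 : ∀ x, HasFDerivAt f (f' x) x) (hf2 : Continuous f') (hc : Continuous c) (hc0 : ∀ x, 0 ≤ c x)
    (hQ : ∀ x h, (f' x h) ^ 2 ≤ U'' x h h * c x) (R : ℝ) :
    (∫ x in Metric.closedBall (0 : E) R, Real.exp (-U x) ∂ν) * (∫ x in Metric.closedBall (0 : E) R, f x ^ 2 * Real.exp (-U x) ∂ν)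
        - (∫ x in Metric.closedBall (0 : E) R, f x * Real.exp (-U x) ∂ν) ^ 2
      ≤ (∫ x in Metric.closedBall (0 : E) R, Real.exp (-U x) ∂ν) * ∫ x in Metric.closedBall (0 : E) R, c x * Real.exp (-U x) ∂ν := by
  have hUc : Continuous U := continuous_iff_continuousAt.2 fun x => (hyp.d1 x).continuousAt
  have hfc : Continuous f := continuous_iff_continuousAt.2 fun x => (hf1 x).continuousAt
  have hBc : IsCompact (Metric.closedBall (0 : E) R) := isCompact_closedBall 0 R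
  obtain ⟨F, hF⟩ := hBc.exists_bound_of_continuousOn hfc.continuousOn
  obtain ⟨C, hC⟩ := hBc.exists_bound_of_continuousOn hc.continuousOn
  exact blv_on_convex hyp.pl (convex_closedBall 0 R) measurableSet_closedBall hUc.measurable hfc.measurable hc.measurable F C
    (fun x hx => by simpa using hF x hx) (fun x hx => by simpa using hC x hx) hyp.int.integrableOn
    (fun ε hε => blv_mid hyp.kpos hyp.d1 hyp.d2 hyp.cont hyp.conv hf1 hf2 hc hc0 hQ hBc (convex_closedBall 0 R) ε hε)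

theorem blv_tendsto_ball {ν : Measure E} {g : E → ℝ} (hg : Integrable g ν) :
    Tendsto (fun n : ℕ => ∫ x in Metric.closedBall (0 : E) n, g x ∂ν) atTop (𝓝 (∫ x, g x ∂ν)) := by
  have h := tendsto_setIntegral_of_monotone (μ := ν) (f := g) (s := fun n : ℕ => Metric.closedBall (0 : E) n) (fun _ => measurableSet_closedBall)
    (fun a b hab => Metric.closedBall_subset_closedBall (by exact_mod_cast hab)) hg.integrableOn
  rwa [Metric.iUnion_closedBall_nat, setIntegral_univ] at h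

/-- **THE BRASCAMP–LIEB VARIANCE INEQUALITY, dual form** -/
theorem blv_main {ν : Measure E} {U : E → ℝ} {U' : E → E →L[ℝ] ℝ} {U'' : E → E →L[ℝ] E →L[ℝ] ℝ} {κ : ℝ} (hyp : BlvHyp ν U U' U'' κ)
    {f c : E → ℝ} {f' : E → E →L[ℝ] ℝ} (hf1 : ∀ x, HasFDerivAt f (f' x) x) (hf2 : Continuous f') (hc : Continuous c) (hc0 : ∀ x, 0 ≤ c x)
    (hQ : ∀ x h, (f' x h) ^ 2 ≤ U'' x h h * c x)
    (hif : Integrable (fun x => f x ^ 2 * Real.exp (-U x)) ν) (hic : Integrable (fun x => c x * Real.exp (-U x)) ν) :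
    (∫ x, Real.exp (-U x) ∂ν) * (∫ x, f x ^ 2 * Real.exp (-U x) ∂ν) - (∫ x, f x * Real.exp (-U x) ∂ν) ^ 2
      ≤ (∫ x, Real.exp (-U x) ∂ν) * ∫ x, c x * Real.exp (-U x) ∂ν := by
  have hUc : Continuous U := continuous_iff_continuousAt.2 fun x => (hyp.d1 x).continuousAt
  have hfc : Continuous f := continuous_iff_continuousAt.2 fun x => (hf1 x).continuousAt
  have hif1 : Integrable (fun x => f x * Real.exp (-U x)) ν := by
    refine Integrable.mono' (hyp.int.add hif) (by fun_prop) (Eventually.of_forall fun x => ?_)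
    have he := Real.exp_pos (-U x)
    rw [Real.norm_eq_abs, abs_mul, abs_of_pos he]
    simp only [Pi.add_apply]
    have h1 : |f x| ≤ 1 + f x ^ 2 := by
      have := sq_abs (f x)
      nlinarith [abs_nonneg (f x), sq_nonneg (|f x| - 1)]
    nlinarith
  have t0 := blv_tendsto_ball hyp.int
  have t1 := blv_tendsto_ball hif1
  have t2 := blv_tendsto_ball hif
  have t3 := blv_tendsto_ball hic
  exact le_of_tendsto_of_tendsto' ((t0.mul t2).sub (t1.pow 2)) (t0.mul t3) fun n => blv_ball hyp hf1 hf2 hc hc0 hQ n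

end

section gauss

open ProbabilityTheory

/-- a finite product of measures with integrable real densities -/
theorem blv_pi_withDensity {L : Type*} [Fintype L] {X : L → Type*} [∀ l, MeasurableSpace (X l)] (μ : ∀ l, Measure (X l)) [∀ l, SigmaFinite (μ l)]
    (ρ : ∀ l, X l → ℝ) (hρ : ∀ l, Integrable (ρ l) (μ l)) (hρ0 : ∀ l x, 0 ≤ ρ l x) :
    Measure.pi (fun l => (μ l).withDensity fun x => ENNReal.ofReal (ρ l x))
      = (Measure.pi μ).withDensity (fun x => ENNReal.ofReal (∏ l, ρ l (x l))) := by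
  have hfin : ∀ l, IsFiniteMeasure ((μ l).withDensity fun x => ENNReal.ofReal (ρ l x)) := fun l =>
    isFiniteMeasure_withDensity_ofReal (hρ l).2
  refine Measure.pi_eq fun s hs => ?_
  rw [withDensity_apply _ (MeasurableSet.univ_pi hs)]
  have h1 : ∀ x : (∀ l, X l), (Set.univ.pi s).indicator (fun x => ENNReal.ofReal (∏ l, ρ l (x l))) x =
      ENNReal.ofReal (∏ l, (s l).indicator (ρ l) (x l)) := by
    intro x
    by_cases hx : x ∈ Set.univ.pi s
    · rw [Set.indicator_of_mem hx]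
      congr 1
      refine Finset.prod_congr rfl fun i _ => ?_
      rw [Set.indicator_of_mem (hx i (Set.mem_univ i))]
    · rw [Set.indicator_of_notMem hx]
      simp only [Set.mem_pi, Set.mem_univ, true_imp_iff, not_forall] at hx
      obtain ⟨i, hi⟩ := hx
      rw [Finset.prod_eq_zero (Finset.mem_univ i) (Set.indicator_of_notMem hi _)]
      simp
  rw [← lintegral_indicator (MeasurableSet.univ_pi hs)]
  simp_rw [h1]
  have hint : ∀ l, Integrable ((s l).indicator (ρ l)) (μ l) := fun l => (hρ l).indicator (hs l)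
  have hnn : ∀ l (a : X l), 0 ≤ (s l).indicator (ρ l) a := fun l a => Set.indicator_nonneg (fun b _ => hρ0 l b) a
  have hI : Integrable (fun x : (∀ l, X l) => ∏ l, (s l).indicator (ρ l) (x l)) (Measure.pi μ) := Integrable.fintype_prod_dep hint
  rw [← ofReal_integral_eq_lintegral_ofReal hI (Eventually.of_forall fun x => Finset.prod_nonneg fun i _ => hnn i _)]
  rw [integral_fintype_prod_eq_prod (fun l => (s l).indicator (ρ l))]
  rw [ENNReal.ofReal_prod_of_nonneg (fun i _ => integral_nonneg (hnn i))]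
  refine Finset.prod_congr rfl fun i _ => ?_
  rw [withDensity_apply _ (hs i), integral_indicator (hs i),
    ofReal_integral_eq_lintegral_ofReal (hρ i).integrableOn (Eventually.of_forall fun x => hρ0 i x)]

/-- `γ = Z e^{-B(x,x)/2} dν`: a centred Gaussian measure with inverse covariance `B`, over a reference measure with the Prékopa–Leindler property -/
structure BlvGauss {E : Type*} [NormedAddCommGroup E] [NormedSpace ℝ E] [MeasurableSpace E] (γ ν : Measure E) (B : E →L[ℝ] E →L[ℝ] ℝ) (Z : ℝ) : Prop where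
  pl : PLProp E ν
  zpos : 0 < Z
  symm : ∀ x y, B x y = B y x
  dens : γ = ν.withDensity (fun x => ENNReal.ofReal (Z * Real.exp (-(B x x / 2))))

section basic

variable {E : Type*} [NormedAddCommGroup E] [NormedSpace ℝ E] [MeasurableSpace E] [BorelSpace E] {γ ν : Measure E} {B : E →L[ℝ] E →L[ℝ] ℝ} {Z : ℝ}

omit [MeasurableSpace E] [BorelSpace E] in
theorem blv_cont_quad (B : E →L[ℝ] E →L[ℝ] ℝ) : Continuous fun x => B x x :=
  B.continuous₂.comp (continuous_id.prodMk continuous_id)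

theorem blv_meas_dens (B : E →L[ℝ] E →L[ℝ] ℝ) (Z : ℝ) : Measurable (fun x => ENNReal.ofReal (Z * Real.exp (-(B x x / 2)))) := by
  have := blv_cont_quad B
  exact (by fun_prop : Continuous fun x => Z * Real.exp (-(B x x / 2))).measurable.ennreal_ofReal

theorem BlvGauss.integral (hG : BlvGauss γ ν B Z) (g : E → ℝ) : ∫ x, g x ∂γ = Z * ∫ x, g x * Real.exp (-(B x x / 2)) ∂ν := by
  rw [hG.dens, integral_withDensity_eq_integral_toReal_smul (blv_meas_dens B Z) (Eventually.of_forall fun x => ENNReal.ofReal_lt_top), ← integral_const_mul]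
  refine integral_congr_ae (Eventually.of_forall fun x => ?_)
  simp only [smul_eq_mul]
  rw [ENNReal.toReal_ofReal (mul_nonneg hG.zpos.le (Real.exp_pos _).le)]
  ring

theorem BlvGauss.integrable_iff (hG : BlvGauss γ ν B Z) {g : E → ℝ} : Integrable g γ ↔ Integrable (fun x => g x * Real.exp (-(B x x / 2))) ν := by
  rw [hG.dens, integrable_withDensity_iff_integrable_smul' (blv_meas_dens B Z) (Eventually.of_forall fun x => ENNReal.ofReal_lt_top)]
  have e : (fun x : E => (ENNReal.ofReal (Z * Real.exp (-(B x x / 2)))).toReal • g x) = fun x => Z * (g x * Real.exp (-(B x x / 2))) := by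
    funext x
    simp only [smul_eq_mul]
    rw [ENNReal.toReal_ofReal (mul_nonneg hG.zpos.le (Real.exp_pos _).le)]
    ring
  rw [e]
  exact integrable_const_mul_iff (isUnit_iff_ne_zero.2 hG.zpos.ne') _

omit [MeasurableSpace E] [BorelSpace E] in
theorem blv_quad_hasFDerivAt (hs : ∀ x y, B x y = B y x) (x : E) : HasFDerivAt (fun x : E => B x x / 2) (B x) x := by
  have h := (B.hasFDerivAt_of_bilinear (hasFDerivAt_id x) (hasFDerivAt_id x)).const_mul (1 / 2 : ℝ)
  have e : (fun x : E => B x x / 2) = fun x => (1 / 2 : ℝ) * B (id x) (id x) := by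
    funext y; simp only [id]; ring
  rw [e]
  refine h.congr_fderiv ?_
  ext y
  simp [hs y x]
  ring

/-- **Brascamp–Lieb for a perturbation `e^{-V} dγ` of a Gaussian measure**, `B + D²V ≥ κ > 0`. -/
theorem blv_gauss_gen [FiniteDimensional ℝ E] (hG : BlvGauss γ ν B Z) {V : E → ℝ} {V' : E → E →L[ℝ] ℝ} {V'' : E → E →L[ℝ] E →L[ℝ] ℝ} {κ : ℝ} (hκ : 0 < κ)
    (d1 : ∀ x, HasFDerivAt V (V' x) x) (d2 : ∀ x, HasFDerivAt V' (V'' x) x) (hcont : Continuous V'') (hconv : ∀ x h, κ * ‖h‖ ^ 2 ≤ B h h + V'' x h h)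
    (hint : Integrable (fun x => Real.exp (-V x)) γ)
    {f c : E → ℝ} {f' : E → E →L[ℝ] ℝ} (hf1 : ∀ x, HasFDerivAt f (f' x) x) (hf2 : Continuous f') (hc : Continuous c) (hc0 : ∀ x, 0 ≤ c x)
    (hQ : ∀ x h, (f' x h) ^ 2 ≤ (B h h + V'' x h h) * c x)
    (hif : Integrable (fun x => f x ^ 2 * Real.exp (-V x)) γ) (hic : Integrable (fun x => c x * Real.exp (-V x)) γ) :
    (∫ x, Real.exp (-V x) ∂γ) * (∫ x, f x ^ 2 * Real.exp (-V x) ∂γ) - (∫ x, f x * Real.exp (-V x) ∂γ) ^ 2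
      ≤ (∫ x, Real.exp (-V x) ∂γ) * ∫ x, c x * Real.exp (-V x) ∂γ := by
  have ee : ∀ x, Real.exp (-(V x + B x x / 2)) = Real.exp (-V x) * Real.exp (-(B x x / 2)) := fun x => by
    rw [← Real.exp_add]; congr 1; ring
  have hcB : Continuous (fun x => V'' x + B) := by
    have := (inferInstance : IsTopologicalAddGroup (E →L[ℝ] E →L[ℝ] ℝ)).toContinuousAdd
    exact this.continuous_add.comp (hcont.prodMk continuous_const)
  have hyp : BlvHyp ν (fun x => V x + B x x / 2) (fun x => V' x + B x) (fun x => V'' x + B) κ := by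
    refine ⟨hG.pl, hκ, fun x => (d1 x).add (blv_quad_hasFDerivAt hG.symm x), fun x => (d2 x).add B.hasFDerivAt, hcB, ?_, ?_⟩
    · intro x h
      have := hconv x h
      simp only [add_apply]
      linarith
    · simp_rw [ee]
      exact hG.integrable_iff.1 hint
  have key := blv_main hyp hf1 hf2 hc hc0 (fun x h => by
    have := hQ x h
    simp only [add_apply]
    rwa [add_comm]) (by
      have := hG.integrable_iff.1 hif
      simp_rw [ee]
      refine this.congr (Eventually.of_forall fun x => ?_)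
      simp only []; ring) (by
      have := hG.integrable_iff.1 hic
      simp_rw [ee]
      refine this.congr (Eventually.of_forall fun x => ?_)
      simp only []; ring)
  simp_rw [ee] at key
  rw [hG.integral, hG.integral, hG.integral, hG.integral]
  have a1 : ∀ g : E → ℝ, (∫ x, g x * Real.exp (-V x) * Real.exp (-(B x x / 2)) ∂ν) = ∫ x, g x * (Real.exp (-V x) * Real.exp (-(B x x / 2))) ∂ν := fun g =>
    integral_congr_ae (Eventually.of_forall fun x => by simp only []; ring)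
  rw [a1, a1, a1]
  have hZ := hG.zpos
  nlinarith [mul_le_mul_of_nonneg_left key (by positivity : 0 ≤ Z ^ 2)]

end basic

theorem blvGauss_real : BlvGauss (gaussianReal 0 1) volume (ContinuousLinearMap.mul ℝ ℝ) (√(2 * Real.pi))⁻¹ := by
  refine ⟨plProp_real, by positivity, fun x y => by simp [mul_comm], ?_⟩
  rw [gaussianReal_of_var_ne_zero 0 one_ne_zero]
  congr 1
  funext x
  simp only [gaussianPDF, gaussianPDFReal, sub_zero, NNReal.coe_one, mul_one, ContinuousLinearMap.mul_apply']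
  congr 3
  ring

section pi

variable {L : Type*} [Fintype L] {E : L → Type*} [∀ l, NormedAddCommGroup (E l)] [∀ l, NormedSpace ℝ (E l)]

/-- the direct sum of bilinear forms -/
noncomputable def blvPiB (B : ∀ l, E l →L[ℝ] E l →L[ℝ] ℝ) : (∀ l, E l) →L[ℝ] (∀ l, E l) →L[ℝ] ℝ :=
  ∑ l, (B l).bilinearComp (ContinuousLinearMap.proj l) (ContinuousLinearMap.proj l)

theorem blvPiB_apply (B : ∀ l, E l →L[ℝ] E l →L[ℝ] ℝ) (x y : ∀ l, E l) : blvPiB B x y = ∑ l, B l (x l) (y l) := by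
  simp [blvPiB]

omit [∀ l, NormedSpace ℝ (E l)] in
theorem blv_norm_sq_le (h : ∀ l, E l) : ‖h‖ ^ 2 ≤ ∑ l, ‖h l‖ ^ 2 := by
  have hS : 0 ≤ ∑ l, ‖h l‖ ^ 2 := Finset.sum_nonneg fun k _ => sq_nonneg _
  have h1 : ‖h‖ ≤ √(∑ l, ‖h l‖ ^ 2) := by
    refine (pi_norm_le_iff_of_nonneg (Real.sqrt_nonneg _)).2 fun k => ?_
    refine Real.le_sqrt_of_sq_le ?_
    exact Finset.single_le_sum (f := fun k => ‖h k‖ ^ 2) (fun i _ => sq_nonneg _) (Finset.mem_univ k)
  calc ‖h‖ ^ 2 ≤ (√(∑ l, ‖h l‖ ^ 2)) ^ 2 := pow_le_pow_left₀ (norm_nonneg _) h1 2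
    _ = _ := Real.sq_sqrt hS

theorem BlvGauss.pi [∀ l, MeasurableSpace (E l)] [∀ l, BorelSpace (E l)] {γ ν : ∀ l, Measure (E l)} [∀ l, SigmaFinite (ν l)] [∀ l, IsFiniteMeasure (γ l)]
    {B : ∀ l, E l →L[ℝ] E l →L[ℝ] ℝ} {Z : L → ℝ} (h : ∀ l, BlvGauss (γ l) (ν l) (B l) (Z l)) (hpl : PLProp (∀ l, E l) (Measure.pi ν)) :
    BlvGauss (Measure.pi γ) (Measure.pi ν) (blvPiB B) (∏ l, Z l) := by
  refine ⟨hpl, Finset.prod_pos fun l _ => (h l).zpos, fun x y => ?_, ?_⟩
  · rw [blvPiB_apply, blvPiB_apply]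
    exact Finset.sum_congr rfl fun l _ => (h l).symm _ _
  have e : γ = fun l => (ν l).withDensity fun x => ENNReal.ofReal (Z l * Real.exp (-(B l x x / 2))) := funext fun l => (h l).dens
  have hi : ∀ l, Integrable (fun x => Z l * Real.exp (-(B l x x / 2))) (ν l) := fun l => by
    have := (h l).integrable_iff.1 (integrable_const (1 : ℝ))
    simp only [one_mul] at this
    exact this.const_mul _
  conv_lhs => rw [e]
  rw [blv_pi_withDensity ν (fun l x => Z l * Real.exp (-(B l x x / 2))) hi (fun l x => mul_nonneg (h l).zpos.le (Real.exp_pos _).le)]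
  congr 1
  funext x
  congr 1
  rw [Finset.prod_mul_distrib, ← Real.exp_sum, blvPiB_apply]
  congr 2
  rw [Finset.sum_div, Finset.sum_neg_distrib]

end pi

theorem blvGauss_pi (K : Type*) [Fintype K] : BlvGauss (Measure.pi fun _ : K => gaussianReal 0 1) volume (blvPiB fun _ : K => ContinuousLinearMap.mul ℝ ℝ)
    (∏ _k : K, (√(2 * Real.pi))⁻¹) :=
  BlvGauss.pi (fun _ => blvGauss_real) (plProp_addHaar _)

theorem blvGauss_pi_pi (L K : Type*) [Fintype L] [Fintype K] : BlvGauss (Measure.pi fun _ : L => Measure.pi fun _ : K => gaussianReal 0 1) volume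
    (blvPiB fun _ : L => blvPiB fun _ : K => ContinuousLinearMap.mul ℝ ℝ) (∏ _l : L, ∏ _k : K, (√(2 * Real.pi))⁻¹) :=
  BlvGauss.pi (fun _ => blvGauss_pi K) (plProp_addHaar _)

/-- **Brascamp–Lieb on `(K → ℝ, standard Gaussian)`**, semiconvex perturbation: `1 + D²V ≥ κ > 0`. -/
theorem blv_gauss_semi {K : Type*} [Fintype K] {V : (K → ℝ) → ℝ} {V' : (K → ℝ) → (K → ℝ) →L[ℝ] ℝ} {V'' : (K → ℝ) → (K → ℝ) →L[ℝ] (K → ℝ) →L[ℝ] ℝ} {κ : ℝ} (hκ : 0 < κ)
    (d1 : ∀ x, HasFDerivAt V (V' x) x) (d2 : ∀ x, HasFDerivAt V' (V'' x) x) (hcont : Continuous V'')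
    (hconv : ∀ x h, κ * ∑ k, h k ^ 2 ≤ ∑ k, h k ^ 2 + V'' x h h)
    (hint : Integrable (fun x => Real.exp (-V x)) (Measure.pi fun _ : K => gaussianReal 0 1))
    {f c : (K → ℝ) → ℝ} {f' : (K → ℝ) → (K → ℝ) →L[ℝ] ℝ} (hf1 : ∀ x, HasFDerivAt f (f' x) x) (hf2 : Continuous f') (hc : Continuous c) (hc0 : ∀ x, 0 ≤ c x)
    (hQ : ∀ x h, (f' x h) ^ 2 ≤ (∑ k, h k ^ 2 + V'' x h h) * c x)
    (hif : Integrable (fun x => f x ^ 2 * Real.exp (-V x)) (Measure.pi fun _ : K => gaussianReal 0 1))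
    (hic : Integrable (fun x => c x * Real.exp (-V x)) (Measure.pi fun _ : K => gaussianReal 0 1)) :
    (∫ x, Real.exp (-V x) ∂(Measure.pi fun _ : K => gaussianReal 0 1)) * (∫ x, f x ^ 2 * Real.exp (-V x) ∂(Measure.pi fun _ : K => gaussianReal 0 1))
        - (∫ x, f x * Real.exp (-V x) ∂(Measure.pi fun _ : K => gaussianReal 0 1)) ^ 2
      ≤ (∫ x, Real.exp (-V x) ∂(Measure.pi fun _ : K => gaussianReal 0 1)) * ∫ x, c x * Real.exp (-V x) ∂(Measure.pi fun _ : K => gaussianReal 0 1) := by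
  have eB : ∀ h : K → ℝ, (blvPiB fun _ : K => ContinuousLinearMap.mul ℝ ℝ) h h = ∑ k, h k ^ 2 := fun h => by
    rw [blvPiB_apply]
    exact Finset.sum_congr rfl fun k _ => by simp [sq]
  refine blv_gauss_gen (blvGauss_pi K) hκ d1 d2 hcont (fun x h => ?_) hint hf1 hf2 hc hc0 (fun x h => ?_) hif hic
  · rw [eB]
    refine le_trans (mul_le_mul_of_nonneg_left ?_ hκ.le) (hconv x h)
    simpa using blv_norm_sq_le h
  · rw [eB]
    exact hQ x h

/-- **Brascamp–Lieb on `(K → ℝ, standard Gaussian)`**, convex perturbation. -/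
theorem blv_gauss {K : Type*} [Fintype K] {V : (K → ℝ) → ℝ} {V' : (K → ℝ) → (K → ℝ) →L[ℝ] ℝ} {V'' : (K → ℝ) → (K → ℝ) →L[ℝ] (K → ℝ) →L[ℝ] ℝ}
    (d1 : ∀ x, HasFDerivAt V (V' x) x) (d2 : ∀ x, HasFDerivAt V' (V'' x) x) (hcont : Continuous V'') (hconv : ∀ x h, 0 ≤ V'' x h h)
    (hint : Integrable (fun x => Real.exp (-V x)) (Measure.pi fun _ : K => gaussianReal 0 1))
    {f c : (K → ℝ) → ℝ} {f' : (K → ℝ) → (K → ℝ) →L[ℝ] ℝ} (hf1 : ∀ x, HasFDerivAt f (f' x) x) (hf2 : Continuous f') (hc : Continuous c) (hc0 : ∀ x, 0 ≤ c x)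
    (hQ : ∀ x h, (f' x h) ^ 2 ≤ (∑ k, h k ^ 2 + V'' x h h) * c x)
    (hif : Integrable (fun x => f x ^ 2 * Real.exp (-V x)) (Measure.pi fun _ : K => gaussianReal 0 1))
    (hic : Integrable (fun x => c x * Real.exp (-V x)) (Measure.pi fun _ : K => gaussianReal 0 1)) :
    (∫ x, Real.exp (-V x) ∂(Measure.pi fun _ : K => gaussianReal 0 1)) * (∫ x, f x ^ 2 * Real.exp (-V x) ∂(Measure.pi fun _ : K => gaussianReal 0 1))
        - (∫ x, f x * Real.exp (-V x) ∂(Measure.pi fun _ : K => gaussianReal 0 1)) ^ 2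
      ≤ (∫ x, Real.exp (-V x) ∂(Measure.pi fun _ : K => gaussianReal 0 1)) * ∫ x, c x * Real.exp (-V x) ∂(Measure.pi fun _ : K => gaussianReal 0 1) :=
  blv_gauss_semi one_pos d1 d2 hcont (fun x h => by linarith [hconv x h]) hint hf1 hf2 hc hc0 hQ hif hic

/-- **Brascamp–Lieb on `(L → K → ℝ, standard Gaussian)`** (a product of products), semiconvex perturbation: `1 + D²V ≥ κ > 0`. -/
theorem blv_gauss2_semi {L K : Type*} [Fintype L] [Fintype K] {V : (L → K → ℝ) → ℝ} {V' : (L → K → ℝ) → (L → K → ℝ) →L[ℝ] ℝ}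
    {V'' : (L → K → ℝ) → (L → K → ℝ) →L[ℝ] (L → K → ℝ) →L[ℝ] ℝ} {κ : ℝ} (hκ : 0 < κ)
    (d1 : ∀ x, HasFDerivAt V (V' x) x) (d2 : ∀ x, HasFDerivAt V' (V'' x) x) (hcont : Continuous V'')
    (hconv : ∀ x h, κ * ∑ l, ∑ k, h l k ^ 2 ≤ ∑ l, ∑ k, h l k ^ 2 + V'' x h h)
    (hint : Integrable (fun x => Real.exp (-V x)) (Measure.pi fun _ : L => Measure.pi fun _ : K => gaussianReal 0 1))
    {f c : (L → K → ℝ) → ℝ} {f' : (L → K → ℝ) → (L → K → ℝ) →L[ℝ] ℝ} (hf1 : ∀ x, HasFDerivAt f (f' x) x) (hf2 : Continuous f') (hc : Continuous c) (hc0 : ∀ x, 0 ≤ c x)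
    (hQ : ∀ x h, (f' x h) ^ 2 ≤ (∑ l, ∑ k, h l k ^ 2 + V'' x h h) * c x)
    (hif : Integrable (fun x => f x ^ 2 * Real.exp (-V x)) (Measure.pi fun _ : L => Measure.pi fun _ : K => gaussianReal 0 1))
    (hic : Integrable (fun x => c x * Real.exp (-V x)) (Measure.pi fun _ : L => Measure.pi fun _ : K => gaussianReal 0 1)) :
    (∫ x, Real.exp (-V x) ∂(Measure.pi fun _ : L => Measure.pi fun _ : K => gaussianReal 0 1))
          * (∫ x, f x ^ 2 * Real.exp (-V x) ∂(Measure.pi fun _ : L => Measure.pi fun _ : K => gaussianReal 0 1))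
        - (∫ x, f x * Real.exp (-V x) ∂(Measure.pi fun _ : L => Measure.pi fun _ : K => gaussianReal 0 1)) ^ 2
      ≤ (∫ x, Real.exp (-V x) ∂(Measure.pi fun _ : L => Measure.pi fun _ : K => gaussianReal 0 1))
          * ∫ x, c x * Real.exp (-V x) ∂(Measure.pi fun _ : L => Measure.pi fun _ : K => gaussianReal 0 1) := by
  have eB : ∀ h : L → K → ℝ, (blvPiB fun _ : L => blvPiB fun _ : K => ContinuousLinearMap.mul ℝ ℝ) h h = ∑ l, ∑ k, h l k ^ 2 := fun h => by
    rw [blvPiB_apply]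
    refine Finset.sum_congr rfl fun l _ => ?_
    rw [blvPiB_apply]
    exact Finset.sum_congr rfl fun k _ => by simp [sq]
  refine blv_gauss_gen (blvGauss_pi_pi L K) hκ d1 d2 hcont (fun x h => ?_) hint hf1 hf2 hc hc0 (fun x h => ?_) hif hic
  · rw [eB]
    refine le_trans (mul_le_mul_of_nonneg_left ?_ hκ.le) (hconv x h)
    refine (blv_norm_sq_le h).trans (Finset.sum_le_sum fun l _ => ?_)
    simpa using blv_norm_sq_le (h l)
  · rw [eB]
    exact hQ x h

/-- **Brascamp–Lieb on `(L → K → ℝ, standard Gaussian)`**, convex perturbation. -/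
theorem blv_gauss2 {L K : Type*} [Fintype L] [Fintype K] {V : (L → K → ℝ) → ℝ} {V' : (L → K → ℝ) → (L → K → ℝ) →L[ℝ] ℝ}
    {V'' : (L → K → ℝ) → (L → K → ℝ) →L[ℝ] (L → K → ℝ) →L[ℝ] ℝ}
    (d1 : ∀ x, HasFDerivAt V (V' x) x) (d2 : ∀ x, HasFDerivAt V' (V'' x) x) (hcont : Continuous V'') (hconv : ∀ x h, 0 ≤ V'' x h h)
    (hint : Integrable (fun x => Real.exp (-V x)) (Measure.pi fun _ : L => Measure.pi fun _ : K => gaussianReal 0 1))
    {f c : (L → K → ℝ) → ℝ} {f' : (L → K → ℝ) → (L → K → ℝ) →L[ℝ] ℝ} (hf1 : ∀ x, HasFDerivAt f (f' x) x) (hf2 : Continuous f') (hc : Continuous c) (hc0 : ∀ x, 0 ≤ c x)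
    (hQ : ∀ x h, (f' x h) ^ 2 ≤ (∑ l, ∑ k, h l k ^ 2 + V'' x h h) * c x)
    (hif : Integrable (fun x => f x ^ 2 * Real.exp (-V x)) (Measure.pi fun _ : L => Measure.pi fun _ : K => gaussianReal 0 1))
    (hic : Integrable (fun x => c x * Real.exp (-V x)) (Measure.pi fun _ : L => Measure.pi fun _ : K => gaussianReal 0 1)) :
    (∫ x, Real.exp (-V x) ∂(Measure.pi fun _ : L => Measure.pi fun _ : K => gaussianReal 0 1))
          * (∫ x, f x ^ 2 * Real.exp (-V x) ∂(Measure.pi fun _ : L => Measure.pi fun _ : K => gaussianReal 0 1))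
        - (∫ x, f x * Real.exp (-V x) ∂(Measure.pi fun _ : L => Measure.pi fun _ : K => gaussianReal 0 1)) ^ 2
      ≤ (∫ x, Real.exp (-V x) ∂(Measure.pi fun _ : L => Measure.pi fun _ : K => gaussianReal 0 1))
          * ∫ x, c x * Real.exp (-V x) ∂(Measure.pi fun _ : L => Measure.pi fun _ : K => gaussianReal 0 1) :=
  blv_gauss2_semi one_pos d1 d2 hcont (fun x h => by linarith [hconv x h]) hint hf1 hf2 hc hc0 hQ hif hic

end gauss

end Claimed.Agent.BL
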