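import Claimed.Agent.Lib.PLConvex

/-!
# The Brascamp–Lieb variance inequality (from Prékopa's theorem)

`E` finite dimensional, `ν` a Haar measure, `V, f, J : E → ℝ` of class `C²`,
`D²V(v,v) ≥ κ‖v‖²`, `J ≥ 0` and `(Df v)² ≤ J · D²V(v,v)`.  Then
`Var_μ f ≤ E_μ J` for `dμ = e^{-V} dν / Z`   (`bl_var`).
This is the inverse Hessian form `Var f ≤ E ⟨(D²V)⁻¹∇f,∇f⟩` without the inverse.

Proof: `W(t,x) = V - t f + t²(J+ε)/2` is jointly convex for small `t` (`f`, `J` of compact support),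
so by Prékopa `Z(t) Z(-t) ≤ Z(0)²`; expand to second order in `t`; then cut off.
-/

open MeasureTheory Set Filter Topology

namespace Claimed.Agent.BL

/-- the quadratic form of the Hessian of `W` is nonnegative for small `t`. -/
theorem bl_quad {ε κ B0 B1 B2 B3 : ℝ} (hε : 0 < ε) (hκ : 0 < κ) (h0 : 0 ≤ B0) (h1 : 0 ≤ B1)
    (h2 : 0 ≤ B2) (h3 : 0 ≤ B3) :
    ∃ t₀ : ℝ, 0 < t₀ ∧ ∀ t : ℝ, |t| ≤ t₀ → ∀ Jx a d e1 e2 e3 n s : ℝ, 0 ≤ Jx → Jx ≤ B0 → 0 ≤ n →
      κ * n ^ 2 ≤ a → d ^ 2 ≤ Jx * a → |e1| ≤ B1 * n → |e2| ≤ B2 * n ^ 2 → |e3| ≤ B3 * n ^ 2 →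
      0 ≤ (Jx + ε) * s ^ 2 + 2 * s * (-d + t * e1) + a - t * e2 + t ^ 2 / 2 * e3 := by
  set θ : ℝ := ε / (2 * B0 + ε) with hθ
  have hden : 0 < 2 * B0 + ε := by linarith
  have hθ0 : 0 < θ := div_pos hε hden
  set K : ℝ := 2 / ε * B1 ^ 2 + B2 + B3 / 2 + 1 with hK
  have hK0 : 0 < K := by positivity
  refine ⟨min 1 (θ * κ / K), lt_min one_pos (by positivity), ?_⟩
  intro t ht Jx a d e1 e2 e3 n s hJ0 hJB hn ha hd he1 he2 he3
  have ht1 : |t| ≤ 1 := ht.trans (min_le_left _ _)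
  have ht2 : |t| * K ≤ θ * κ := by
    have := ht.trans (min_le_right _ _)
    rwa [le_div_iff₀ hK0] at this
  have ha0 : 0 ≤ a := le_trans (by positivity) ha
  have hl : 0 < Jx + ε / 2 := by linarith
  -- (i)
  have hamgm : 2 * s * d ≤ (Jx + ε / 2) * s ^ 2 + d ^ 2 / (Jx + ε / 2) := by
    have h : 0 ≤ ((Jx + ε / 2) * s - d) ^ 2 / (Jx + ε / 2) := by positivity
    have e : ((Jx + ε / 2) * s - d) ^ 2 / (Jx + ε / 2)
        = (Jx + ε / 2) * s ^ 2 - 2 * s * d + d ^ 2 / (Jx + ε / 2) := by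
      field_simp
      ring
    linarith
  have hdd : d ^ 2 / (Jx + ε / 2) ≤ (1 - θ) * a := by
    rw [div_le_iff₀ hl]
    have h1θ : Jx ≤ (1 - θ) * (Jx + ε / 2) := by
      have e : (1 - θ) = 2 * B0 / (2 * B0 + ε) := by
        rw [hθ]; field_simp; ring
      rw [e, div_mul_eq_mul_div, le_div_iff₀ hden]
      nlinarith
    calc d ^ 2 ≤ Jx * a := hd
      _ ≤ ((1 - θ) * (Jx + ε / 2)) * a := mul_le_mul_of_nonneg_right h1θ ha0
      _ = (1 - θ) * a * (Jx + ε / 2) := by ring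
  -- (ii)
  have hcross : -(ε / 2 * s ^ 2) - 2 / ε * (t ^ 2 * (B1 ^ 2 * n ^ 2)) ≤ 2 * s * (t * e1) := by
    have h : 0 ≤ (ε / 2 * s + t * e1) ^ 2 / (ε / 2) := by positivity
    have e : (ε / 2 * s + t * e1) ^ 2 / (ε / 2)
        = ε / 2 * s ^ 2 + 2 * s * (t * e1) + 2 / ε * (t ^ 2 * e1 ^ 2) := by
      field_simp
      ring
    have he : e1 ^ 2 ≤ B1 ^ 2 * n ^ 2 := by
      have := pow_le_pow_left₀ (abs_nonneg e1) he1 2
      rwa [sq_abs, mul_pow] at this
    have : 2 / ε * (t ^ 2 * e1 ^ 2) ≤ 2 / ε * (t ^ 2 * (B1 ^ 2 * n ^ 2)) := by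
      apply mul_le_mul_of_nonneg_left _ (by positivity)
      exact mul_le_mul_of_nonneg_left he (sq_nonneg t)
    linarith
  have htsq : t ^ 2 ≤ |t| := by
    rw [← sq_abs]
    nlinarith [abs_nonneg t]
  have hn2 : 0 ≤ n ^ 2 := sq_nonneg n
  have h_e2 : -(|t| * (B2 * n ^ 2)) ≤ -(t * e2) := by
    have : t * e2 ≤ |t| * |e2| := by rw [← abs_mul]; exact le_abs_self _
    have := this.trans (mul_le_mul_of_nonneg_left he2 (abs_nonneg t))
    linarith
  have h_e3 : -(|t| / 2 * (B3 * n ^ 2)) ≤ t ^ 2 / 2 * e3 := by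
    have h : -(t ^ 2 / 2 * (B3 * n ^ 2)) ≤ t ^ 2 / 2 * e3 := by
      have : -(B3 * n ^ 2) ≤ e3 := by
        have := (abs_le.1 he3).1
        linarith
      have := mul_le_mul_of_nonneg_left this (by positivity : (0:ℝ) ≤ t ^ 2 / 2)
      linarith
    have : t ^ 2 / 2 * (B3 * n ^ 2) ≤ |t| / 2 * (B3 * n ^ 2) := by
      apply mul_le_mul_of_nonneg_right _ (by positivity)
      linarith
    linarith
  have h_c : 2 / ε * (t ^ 2 * (B1 ^ 2 * n ^ 2)) ≤ 2 / ε * (|t| * (B1 ^ 2 * n ^ 2)) := by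
    apply mul_le_mul_of_nonneg_left _ (by positivity)
    exact mul_le_mul_of_nonneg_right htsq (by positivity)
  have hfin : |t| * K * n ^ 2 ≤ θ * a := by
    calc |t| * K * n ^ 2 ≤ θ * κ * n ^ 2 := mul_le_mul_of_nonneg_right ht2 hn2
      _ = θ * (κ * n ^ 2) := by ring
      _ ≤ θ * a := mul_le_mul_of_nonneg_left ha hθ0.le
  have hKexp : |t| * K * n ^ 2 = 2 / ε * (|t| * (B1 ^ 2 * n ^ 2)) + |t| * (B2 * n ^ 2)
      + |t| / 2 * (B3 * n ^ 2) + |t| * n ^ 2 := by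
    rw [hK]; ring
  have hlast : 0 ≤ |t| * n ^ 2 := by positivity
  nlinarith

section line

variable {E : Type*} [NormedAddCommGroup E] [NormedSpace ℝ E]

theorem bl_line0 (y w : E) (r : ℝ) : HasDerivAt (fun r : ℝ => y + r • w) w r := by
  simpa using ((hasDerivAt_id r).smul_const w).const_add y

theorem bl_line1 {g : E → ℝ} (hg : ContDiff ℝ 2 g) (y w : E) (r : ℝ) :
    HasDerivAt (fun r : ℝ => g (y + r • w)) (fderiv ℝ g (y + r • w) w) r := by
  have h1 : HasFDerivAt g (fderiv ℝ g (y + r • w)) (y + r • w) :=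
    ((hg.differentiable (by norm_num)) _).hasFDerivAt
  exact h1.comp_hasDerivAt r (bl_line0 y w r)

theorem bl_line2 {g : E → ℝ} (hg : ContDiff ℝ 2 g) (y w : E) (r : ℝ) :
    HasDerivAt (fun r : ℝ => fderiv ℝ g (y + r • w) w)
      (fderiv ℝ (fderiv ℝ g) (y + r • w) w w) r := by
  have hd : ContDiff ℝ 1 (fderiv ℝ g) := hg.fderiv_right (by norm_num)
  have h1 : HasFDerivAt (fderiv ℝ g) (fderiv ℝ (fderiv ℝ g) (y + r • w)) (y + r • w) :=
    ((hd.differentiable (by norm_num)) _).hasFDerivAt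
  have h3 : HasDerivAt (fun r : ℝ => fderiv ℝ g (y + r • w))
      (fderiv ℝ (fderiv ℝ g) (y + r • w) w) r := h1.comp_hasDerivAt r (bl_line0 y w r)
  have h4 := h3.clm_apply (hasDerivAt_const r w)
  simpa using h4

/-- the potential `W(t,x) = V - t f + t² (J + ε) / 2`. -/
noncomputable def blW (ε : ℝ) (V f J : E → ℝ) (t : ℝ) (x : E) : ℝ := V x - t * f x + t ^ 2 / 2 * (J x + ε)

/-- joint convexity of `W` on `[-t₀,t₀] × E` from the nonnegativity of the Hessian form. -/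
theorem bl_W_convex {V f J : E → ℝ} (hV : ContDiff ℝ 2 V) (hf : ContDiff ℝ 2 f)
    (hJ : ContDiff ℝ 2 J) {ε t₀ : ℝ}
    (HQ : ∀ t : ℝ, |t| ≤ t₀ → ∀ (x v : E) (s : ℝ),
      0 ≤ (J x + ε) * s ^ 2 + 2 * s * (-(fderiv ℝ f x v) + t * fderiv ℝ J x v)
        + fderiv ℝ (fderiv ℝ V) x v v - t * fderiv ℝ (fderiv ℝ f) x v v
        + t ^ 2 / 2 * fderiv ℝ (fderiv ℝ J) x v v)
    {x₀ x₁ : ℝ} (hx₀ : |x₀| ≤ t₀) (hx₁ : |x₁| ≤ t₀) (y₀ y₁ : E) {a b : ℝ} (ha : 0 ≤ a)
    (hb : 0 ≤ b) (hab : a + b = 1) :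
    blW ε V f J (a • x₀ + b • x₁) (a • y₀ + b • y₁)
      ≤ a * blW ε V f J x₀ y₀ + b * blW ε V f J x₁ y₁ := by
  set s : ℝ := x₁ - x₀ with hs
  set w : E := y₁ - y₀ with hw
  set τ : ℝ → ℝ := fun r => x₀ + r * s with hτ
  set p : ℝ → E := fun r => y₀ + r • w with hp
  set ψ : ℝ → ℝ := fun r => blW ε V f J (τ r) (p r) with hψ
  set ψ' : ℝ → ℝ := fun r => fderiv ℝ V (p r) w - (s * f (p r) + τ r * fderiv ℝ f (p r) w)
    + (τ r * s * (J (p r) + ε) + τ r ^ 2 / 2 * fderiv ℝ J (p r) w) with hψ'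
  set ψ'' : ℝ → ℝ := fun r => (J (p r) + ε) * s ^ 2
    + 2 * s * (-(fderiv ℝ f (p r) w) + τ r * fderiv ℝ J (p r) w)
    + fderiv ℝ (fderiv ℝ V) (p r) w w - τ r * fderiv ℝ (fderiv ℝ f) (p r) w w
    + τ r ^ 2 / 2 * fderiv ℝ (fderiv ℝ J) (p r) w w with hψ''
  have hτd : ∀ r, HasDerivAt τ s r := by
    intro r
    have := ((hasDerivAt_id r).mul_const s).const_add x₀
    simp only [one_mul] at this
    exact this
  have h1 : ∀ r, HasDerivAt ψ (ψ' r) r := by
    intro r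
    have hA := bl_line1 hV y₀ w r
    have hB := (hτd r).mul (bl_line1 hf y₀ w r)
    have hC := (((hτd r).pow 2).div_const 2).mul ((bl_line1 hJ y₀ w r).add_const ε)
    have h := (hA.sub hB).add hC
    refine HasDerivAt.congr_deriv (f := ψ) h ?_
    simp only [hψ', hp, Pi.pow_apply, Nat.add_one_sub_one, Nat.reduceSub, pow_one, Nat.cast_ofNat]
    ring
  have h2 : ∀ r, HasDerivAt ψ' (ψ'' r) r := by
    intro r
    have hA := bl_line2 hV y₀ w r
    have hB1 := (bl_line1 hf y₀ w r).const_mul s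
    have hB2 := (hτd r).mul (bl_line2 hf y₀ w r)
    have hC1 := ((hτd r).mul_const s).mul ((bl_line1 hJ y₀ w r).add_const ε)
    have hC2 := (((hτd r).pow 2).div_const 2).mul (bl_line2 hJ y₀ w r)
    have h := (hA.sub (hB1.add hB2)).add (hC1.add hC2)
    refine HasDerivAt.congr_deriv (f := ψ') h ?_
    simp only [hψ'', hp, Pi.pow_apply, Nat.add_one_sub_one, Nat.reduceSub, pow_one, Nat.cast_ofNat]
    ring
  have hconv : ConvexOn ℝ (Icc (0:ℝ) 1) ψ := by
    refine convexOn_of_hasDerivWithinAt2_nonneg (f' := ψ') (f'' := ψ'') (convex_Icc 0 1) ?_ ?_ ?_ ?_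
    · exact fun r _ => (h1 r).continuousAt.continuousWithinAt
    · exact fun r _ => (h1 r).hasDerivWithinAt
    · exact fun r _ => (h2 r).hasDerivWithinAt
    · intro r hr
      rw [interior_Icc] at hr
      refine HQ (τ r) ?_ (p r) w s
      have e : τ r = (1 - r) * x₀ + r * x₁ := by simp only [hτ, hs]; ring
      rw [e]
      calc |(1 - r) * x₀ + r * x₁| ≤ |(1 - r) * x₀| + |r * x₁| := abs_add_le _ _
        _ = (1 - r) * |x₀| + r * |x₁| := by
            rw [abs_mul, abs_mul, abs_of_pos hr.1, abs_of_pos (by linarith [hr.2] : 0 < 1 - r)]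
        _ ≤ (1 - r) * t₀ + r * t₀ := by
            have := mul_le_mul_of_nonneg_left hx₀ (by linarith [hr.2] : 0 ≤ 1 - r)
            have := mul_le_mul_of_nonneg_left hx₁ hr.1.le
            linarith
        _ = t₀ := by ring
  have key := hconv.2 (x := 0) (y := 1) (by simp) (by simp) ha hb hab
  have ea : a = 1 - b := by linarith
  have e0 : ψ 0 = blW ε V f J x₀ y₀ := by simp [hψ, hτ, hp]
  have e1 : ψ 1 = blW ε V f J x₁ y₁ := by simp [hψ, hτ, hp, hs, hw]
  have eb : ψ (a • (0:ℝ) + b • (1:ℝ)) = blW ε V f J (a • x₀ + b • x₁) (a • y₀ + b • y₁) := by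
    simp only [hψ, hτ, hp, hs, hw, smul_eq_mul, mul_zero, mul_one, zero_add]
    congr 1
    · rw [ea]; ring
    · rw [ea, smul_sub, sub_smul, one_smul]; abel
  rw [eb, e0, e1] at key
  simpa using key

end line

section expand

theorem bl_exp_lower {u : ℝ} (hu : |u| ≤ 1) : 1 + u + u ^ 2 / 2 - |u| ^ 3 ≤ Real.exp u := by
  have h := Real.exp_bound hu (n := 3) (by norm_num)
  simp only [Finset.sum_range_succ, Finset.sum_range_zero, Nat.factorial] at h
  have h2 := (abs_le.1 h).1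
  have h3 : 0 ≤ |u| ^ 3 := by positivity
  norm_num at h2
  nlinarith

theorem bl_exp_upper {u : ℝ} (hu : |u| ≤ 1) : Real.exp u ≤ 1 + u + u ^ 2 := by
  have := (abs_le.1 (Real.abs_exp_sub_one_sub_id_le hu)).2
  linarith

/-- pointwise second order lower bound. -/
theorem bl_pt {t B f J : ℝ} (ht : 0 < t) (hB : 1 ≤ B) (htB : t * B ≤ 1 / 4) (hf : |f| ≤ B)
    (hJ : |J| ≤ B) :
    1 + t * f + t ^ 2 * ((f ^ 2 - J) / 2) - 9 * B ^ 3 * t ^ 3 ≤ Real.exp (t * f - t ^ 2 / 2 * J) := by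
  have hB0 : 0 < B := by linarith
  have ht1 : t ≤ 1 / 4 := by nlinarith
  set u : ℝ := t * f - t ^ 2 / 2 * J with hu
  have hu1 : |u| ≤ 2 * (t * B) := by
    have h1 : |t * f| ≤ t * B := by rw [abs_mul, abs_of_pos ht]; exact mul_le_mul_of_nonneg_left hf ht.le
    have h2 : |t ^ 2 / 2 * J| ≤ t * B := by
      rw [abs_mul, abs_of_pos (by positivity : 0 < t ^ 2 / 2)]
      have : t ^ 2 / 2 ≤ t := by nlinarith
      exact mul_le_mul this hJ (abs_nonneg _) ht.le
    calc |u| ≤ |t * f| + |t ^ 2 / 2 * J| := abs_sub _ _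
      _ ≤ 2 * (t * B) := by linarith
  have hu2 : |u| ≤ 1 := by linarith
  have h := bl_exp_lower hu2
  have hu3 : |u| ^ 3 ≤ 8 * (B ^ 3 * t ^ 3) := by
    have := pow_le_pow_left₀ (abs_nonneg u) hu1 3
    calc |u| ^ 3 ≤ (2 * (t * B)) ^ 3 := this
      _ = 8 * (B ^ 3 * t ^ 3) := by ring
  have hfJ : f * J ≤ B ^ 2 := by
    have : |f * J| ≤ B * B := by rw [abs_mul]; exact mul_le_mul hf hJ (abs_nonneg _) hB0.le
    have := (le_abs_self _).trans this
    nlinarith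
  have husq : t ^ 2 * f ^ 2 / 2 - t ^ 3 * B ^ 2 / 2 ≤ u ^ 2 / 2 := by
    have e : u ^ 2 / 2 = t ^ 2 * f ^ 2 / 2 - t ^ 3 * (f * J) / 2 + t ^ 4 * J ^ 2 / 8 := by
      rw [hu]; ring
    have h1 : t ^ 3 * (f * J) ≤ t ^ 3 * B ^ 2 := mul_le_mul_of_nonneg_left hfJ (by positivity)
    have h2 : 0 ≤ t ^ 4 * J ^ 2 / 8 := by positivity
    rw [e]; linarith
  have hB23 : t ^ 3 * B ^ 2 / 2 ≤ B ^ 3 * t ^ 3 := by
    have : B ^ 2 ≤ B ^ 3 := by nlinarith [sq_nonneg B]
    have := mul_le_mul_of_nonneg_left this (by positivity : 0 ≤ t ^ 3)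
    have h0 : 0 ≤ t ^ 3 * B ^ 2 := by positivity
    linarith
  have e2 : 1 + t * f + t ^ 2 * ((f ^ 2 - J) / 2) = 1 + u + t ^ 2 * f ^ 2 / 2 := by rw [hu]; ring
  rw [e2]
  linarith

/-- integrated second order lower bound. -/
theorem bl_int_lower {α : Type*} [MeasurableSpace α] (μ : Measure α) [IsProbabilityMeasure μ]
    {f J : α → ℝ} (hf : Measurable f) (hJ : Measurable J) {B t : ℝ} (hB : 1 ≤ B)
    (hfB : ∀ x, |f x| ≤ B) (hJB : ∀ x, |J x| ≤ B) (ht : 0 < t) (htB : t * B ≤ 1 / 4) :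
    1 + t * (∫ x, f x ∂μ) + t ^ 2 * (((∫ x, f x ^ 2 ∂μ) - ∫ x, J x ∂μ) / 2) - 9 * B ^ 3 * t ^ 3
      ≤ ∫ x, Real.exp (t * f x - t ^ 2 / 2 * J x) ∂μ := by
  have hB0 : 0 < B := by linarith
  have if1 : Integrable f μ :=
    Integrable.of_bound hf.aestronglyMeasurable B (Eventually.of_forall fun x => by simpa using hfB x)
  have iJ : Integrable J μ :=
    Integrable.of_bound hJ.aestronglyMeasurable B (Eventually.of_forall fun x => by simpa using hJB x)
  have if2 : Integrable (fun x => f x ^ 2) μ :=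
    Integrable.of_bound (hf.pow_const 2).aestronglyMeasurable (B ^ 2) (Eventually.of_forall fun x => by
      rw [Real.norm_eq_abs, abs_pow]
      exact pow_le_pow_left₀ (abs_nonneg _) (hfB x) 2)
  have iexp : Integrable (fun x => Real.exp (t * f x - t ^ 2 / 2 * J x)) μ := by
    refine Integrable.of_bound (by fun_prop) (Real.exp (t * B + t ^ 2 / 2 * B))
      (Eventually.of_forall fun x => ?_)
    rw [Real.norm_eq_abs, abs_of_pos (Real.exp_pos _)]
    apply Real.exp_le_exp.2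
    have h1 : t * f x ≤ t * B := mul_le_mul_of_nonneg_left ((le_abs_self _).trans (hfB x)) ht.le
    have h2 : -(t ^ 2 / 2 * J x) ≤ t ^ 2 / 2 * B := by
      have : -J x ≤ B := (neg_le_abs _).trans (hJB x)
      have := mul_le_mul_of_nonneg_left this (by positivity : 0 ≤ t ^ 2 / 2)
      linarith
    linarith
  have e : 1 + t * (∫ x, f x ∂μ) + t ^ 2 * (((∫ x, f x ^ 2 ∂μ) - ∫ x, J x ∂μ) / 2)
      - 9 * B ^ 3 * t ^ 3
      = ∫ x, (1 + t * f x + t ^ 2 * ((f x ^ 2 - J x) / 2) - 9 * B ^ 3 * t ^ 3) ∂μ := by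
    rw [integral_sub, integral_add, integral_add, integral_const_mul, integral_const_mul,
      integral_div, integral_sub if2 iJ]
    · simp
    · exact integrable_const _
    · exact if1.const_mul _
    · exact (integrable_const _).add (if1.const_mul _)
    · exact ((if2.sub iJ).div_const 2).const_mul _
    · exact ((integrable_const _).add (if1.const_mul _)).add (((if2.sub iJ).div_const 2).const_mul _)
    · exact integrable_const _
  rw [e]
  refine integral_mono ?_ iexp fun x => bl_pt ht hB htB (hfB x) (hJB x)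
  exact (((integrable_const _).add (if1.const_mul _)).add
    (((if2.sub iJ).div_const 2).const_mul _)).sub (integrable_const _)

/-- **Second order expansion**: if `m(t) m(-t) ≤ exp (ε t²)` for small `t > 0`, where
`m(t) = E exp (t f - t² J / 2)`, then `Var f ≤ E J + ε`. -/
theorem bl_expand {α : Type*} [MeasurableSpace α] (μ : Measure α) [IsProbabilityMeasure μ]
    {f J : α → ℝ} (hf : Measurable f) (hJ : Measurable J) {B ε t₀ : ℝ} (hB : 1 ≤ B)
    (hfB : ∀ x, |f x| ≤ B) (hJB : ∀ x, |J x| ≤ B) (hε : 0 ≤ ε) (ht₀ : 0 < t₀)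
    (H : ∀ t, 0 < t → t < t₀ → (∫ x, Real.exp (t * f x - t ^ 2 / 2 * J x) ∂μ)
      * (∫ x, Real.exp (t * (-f x) - t ^ 2 / 2 * J x) ∂μ) ≤ Real.exp (ε * t ^ 2)) :
    (∫ x, f x ^ 2 ∂μ) - (∫ x, f x ∂μ) ^ 2 ≤ (∫ x, J x ∂μ) + ε := by
  have hB0 : 0 < B := by linarith
  set a : ℝ := ∫ x, f x ∂μ with ha
  set b : ℝ := ((∫ x, f x ^ 2 ∂μ) - ∫ x, J x ∂μ) / 2 with hb
  set c : ℝ := 9 * B ^ 3 with hc
  have hc0 : 0 < c := by positivity
  have haB : |a| ≤ B := by
    have := norm_integral_le_of_norm_le_const (μ := μ) (f := f) (C := B)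
      (Eventually.of_forall fun x => by simpa using hfB x)
    simpa using this
  have hbB : |b| ≤ B ^ 2 := by
    have h1 : |∫ x, f x ^ 2 ∂μ| ≤ B ^ 2 := by
      have := norm_integral_le_of_norm_le_const (μ := μ) (f := fun x => f x ^ 2) (C := B ^ 2)
        (Eventually.of_forall fun x => by
          rw [Real.norm_eq_abs, abs_pow]
          exact pow_le_pow_left₀ (abs_nonneg _) (hfB x) 2)
      simpa using this
    have h2 : |∫ x, J x ∂μ| ≤ B := by
      have := norm_integral_le_of_norm_le_const (μ := μ) (f := J) (C := B)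
        (Eventually.of_forall fun x => by simpa using hJB x)
      simpa using this
    have h3 : B ≤ B ^ 2 := by nlinarith
    rw [hb, abs_div, abs_of_pos (by norm_num : (0:ℝ) < 2), div_le_iff₀ (by norm_num)]
    calc |(∫ x, f x ^ 2 ∂μ) - ∫ x, J x ∂μ| ≤ |∫ x, f x ^ 2 ∂μ| + |∫ x, J x ∂μ| := abs_sub _ _
      _ ≤ B ^ 2 * 2 := by linarith
  have key : ∀ t, 0 < t → t < t₀ → t * B ≤ 1 / 4 → t * (ε + 1) ≤ 1 →
      2 * b - a ^ 2 ≤ ε + (2 * c + ε ^ 2) * t := by
    intro t ht htt htB hte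
    have ht1 : t ≤ 1 := by nlinarith
    have hp := bl_int_lower μ hf hJ hB hfB hJB ht htB
    have hm := bl_int_lower μ hf.neg hJ hB (fun x => by simpa using hfB x) hJB ht htB
    simp only [Pi.neg_apply, even_two, Even.neg_pow, integral_neg] at hm
    rw [← ha, ← hb, ← hc] at hp hm
    have htB2 : t ^ 2 * B ^ 2 ≤ 1 / 16 := by
      have := pow_le_pow_left₀ (by positivity) htB 2
      calc t ^ 2 * B ^ 2 = (t * B) ^ 2 := by ring
        _ ≤ (1 / 4) ^ 2 := this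
        _ = 1 / 16 := by norm_num
    have htB3 : c * t ^ 3 ≤ 9 / 64 := by
      have := pow_le_pow_left₀ (by positivity) htB 3
      calc c * t ^ 3 = 9 * (t * B) ^ 3 := by rw [hc]; ring
        _ ≤ 9 * (1 / 4) ^ 3 := by linarith
        _ = 9 / 64 := by norm_num
    have hta : |t * a| ≤ 1 / 4 := by
      rw [abs_mul, abs_of_pos ht]
      exact (mul_le_mul_of_nonneg_left haB ht.le).trans htB
    have htb : |t ^ 2 * b| ≤ 1 / 16 := by
      rw [abs_mul, abs_of_pos (by positivity : 0 < t ^ 2)]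
      exact (mul_le_mul_of_nonneg_left hbB (by positivity)).trans htB2
    have hLp : 0 ≤ 1 + t * a + t ^ 2 * b - c * t ^ 3 := by
      have := (abs_le.1 hta).1
      have := (abs_le.1 htb).1
      linarith
    have hLm : 0 ≤ 1 + t * (-a) + t ^ 2 * b - c * t ^ 3 := by
      have := (abs_le.1 hta).2
      have := (abs_le.1 htb).1
      linarith
    have hprod := (mul_le_mul hp hm hLm (hLp.trans hp)).trans (H t ht htt)
    have het : |ε * t ^ 2| ≤ 1 := by
      rw [abs_of_nonneg (by positivity)]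
      nlinarith
    have hup := hprod.trans (bl_exp_upper het)
    have hexp : (1 + t * a + t ^ 2 * b - c * t ^ 3) * (1 + t * (-a) + t ^ 2 * b - c * t ^ 3)
        = 1 + t ^ 2 * (2 * b - a ^ 2) - 2 * c * t ^ 3 + (t ^ 2 * b - c * t ^ 3) ^ 2 := by ring
    rw [hexp] at hup
    have hsq : 0 ≤ (t ^ 2 * b - c * t ^ 3) ^ 2 := sq_nonneg _
    have h4 : t ^ 2 * (2 * b - a ^ 2) ≤ t ^ 2 * (ε + (2 * c + ε ^ 2) * t) := by
      have : t ^ 2 * (ε ^ 2 * t ^ 2) ≤ t ^ 2 * (ε ^ 2 * t) := by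
        apply mul_le_mul_of_nonneg_left _ (by positivity)
        apply mul_le_mul_of_nonneg_left _ (by positivity)
        nlinarith
      nlinarith
    exact le_of_mul_le_mul_left h4 (by positivity)
  have hfin : 2 * b - a ^ 2 ≤ ε := by
    apply le_of_forall_pos_le_add
    intro δ hδ
    set t : ℝ := min (min (t₀ / 2) (1 / (4 * B))) (min (1 / (ε + 1)) (δ / (2 * c + ε ^ 2))) with htdef
    have hD : 0 < 2 * c + ε ^ 2 := by positivity
    have ht : 0 < t := by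
      refine lt_min (lt_min (by positivity) (by positivity)) (lt_min (by positivity) (by positivity))
    have h1 : t ≤ t₀ / 2 := (min_le_left _ _).trans (min_le_left _ _)
    have h2 : t ≤ 1 / (4 * B) := (min_le_left _ _).trans (min_le_right _ _)
    have h3 : t ≤ 1 / (ε + 1) := (min_le_right _ _).trans (min_le_left _ _)
    have h4 : t ≤ δ / (2 * c + ε ^ 2) := (min_le_right _ _).trans (min_le_right _ _)
    have := key t ht (by linarith) ?_ ?_
    · rw [le_div_iff₀ hD] at h4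
      linarith
    · rw [le_div_iff₀ (by positivity)] at h2
      linarith
    · rwa [le_div_iff₀ (by positivity)] at h3
  rw [hb] at hfin
  linarith

end expand

section cpt

variable {E : Type*} [NormedAddCommGroup E] [NormedSpace ℝ E] [MeasurableSpace E] [BorelSpace E]

/-- **Brascamp–Lieb**, `f` and `J` of compact support. -/
theorem bl_var_cpt {ν : Measure E} (hν : PL.PLProp E ν) [NeZero ν] {V f J : E → ℝ} {κ : ℝ}
    (hκ : 0 < κ) (hV : ContDiff ℝ 2 V) (hf : ContDiff ℝ 2 f) (hJ : ContDiff ℝ 2 J)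
    (hfc : HasCompactSupport f) (hJc : HasCompactSupport J)
    (hVκ : ∀ x v, κ * ‖v‖ ^ 2 ≤ fderiv ℝ (fderiv ℝ V) x v v)
    (hJ0 : ∀ x, 0 ≤ J x)
    (hdom : ∀ x v, (fderiv ℝ f x v) ^ 2 ≤ J x * fderiv ℝ (fderiv ℝ V) x v v)
    (hint : Integrable (fun x => Real.exp (- V x)) ν) :
    (∫ x, f x ^ 2 ∂(ν.tilted fun x => - V x)) - (∫ x, f x ∂(ν.tilted fun x => - V x)) ^ 2
      ≤ ∫ x, J x ∂(ν.tilted fun x => - V x) := by
  set μ : Measure E := ν.tilted fun x => - V x with hμ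
  have hprob : IsProbabilityMeasure μ := isProbabilityMeasure_tilted hint
  set Z0 : ℝ := ∫ x, Real.exp (- V x) ∂ν with hZ0
  have hZpos : 0 < Z0 := integral_exp_pos hint
  -- bounds
  obtain ⟨Cf, hCf⟩ := hf.continuous.bounded_above_of_compact_support hfc
  obtain ⟨CJ, hCJ⟩ := hJ.continuous.bounded_above_of_compact_support hJc
  have hJ1 : ContDiff ℝ 1 (fderiv ℝ J) := hJ.fderiv_right (by norm_num)
  have hf1 : ContDiff ℝ 1 (fderiv ℝ f) := hf.fderiv_right (by norm_num)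
  obtain ⟨B1, hB1⟩ := hJ1.continuous.bounded_above_of_compact_support (hJc.fderiv (𝕜 := ℝ))
  obtain ⟨B2, hB2⟩ := (hf1.continuous_fderiv (by norm_num)).bounded_above_of_compact_support
    ((hfc.fderiv (𝕜 := ℝ)).fderiv (𝕜 := ℝ))
  obtain ⟨B3, hB3⟩ := (hJ1.continuous_fderiv (by norm_num)).bounded_above_of_compact_support
    ((hJc.fderiv (𝕜 := ℝ)).fderiv (𝕜 := ℝ))
  have hx0 : E := 0
  have hCJ0 : 0 ≤ CJ := (norm_nonneg _).trans (hCJ 0)
  have hB10 : 0 ≤ B1 := (norm_nonneg _).trans (hB1 0)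
  have hB20 : 0 ≤ B2 := (norm_nonneg _).trans (hB2 0)
  have hB30 : 0 ≤ B3 := (norm_nonneg _).trans (hB3 0)
  set B : ℝ := max 1 (max Cf CJ) with hB
  have hB1' : 1 ≤ B := le_max_left _ _
  have hfB : ∀ x, |f x| ≤ B := fun x =>
    (hCf x).trans ((le_max_left _ _).trans (le_max_right _ _))
  have hJB : ∀ x, |J x| ≤ B := fun x =>
    (hCJ x).trans ((le_max_right _ _).trans (le_max_right _ _))
  have hVm : Measurable V := hV.continuous.measurable
  have hfm : Measurable f := hf.continuous.measurable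
  have hJm : Measurable J := hJ.continuous.measurable
  -- it suffices to prove it up to ε
  suffices H : ∀ ε : ℝ, 0 < ε → (∫ x, f x ^ 2 ∂μ) - (∫ x, f x ∂μ) ^ 2 ≤ (∫ x, J x ∂μ) + ε from
    le_of_forall_pos_le_add H
  intro ε hε
  obtain ⟨t₀, ht₀, hq⟩ := bl_quad hε hκ hCJ0 hB10 hB20 hB30
  have HQ : ∀ t : ℝ, |t| ≤ t₀ → ∀ (x v : E) (s : ℝ),
      0 ≤ (J x + ε) * s ^ 2 + 2 * s * (-(fderiv ℝ f x v) + t * fderiv ℝ J x v)
        + fderiv ℝ (fderiv ℝ V) x v v - t * fderiv ℝ (fderiv ℝ f) x v v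
        + t ^ 2 / 2 * fderiv ℝ (fderiv ℝ J) x v v := by
    intro t ht x v s
    refine hq t ht (J x) _ _ _ _ _ ‖v‖ s (hJ0 x) ((le_abs_self _).trans (hCJ x)) (norm_nonneg _)
      (hVκ x v) (hdom x v) ?_ ?_ ?_
    · exact ((fderiv ℝ J x).le_opNorm v).trans
        (mul_le_mul_of_nonneg_right (hB1 x) (norm_nonneg _))
    · have := (fderiv ℝ (fderiv ℝ f) x).le_opNorm₂ v v
      rw [pow_two, ← mul_assoc]
      exact this.trans (mul_le_mul_of_nonneg_right
        (mul_le_mul_of_nonneg_right (hB2 x) (norm_nonneg _)) (norm_nonneg _))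
    · have := (fderiv ℝ (fderiv ℝ J) x).le_opNorm₂ v v
      rw [pow_two, ← mul_assoc]
      exact this.trans (mul_le_mul_of_nonneg_right
        (mul_le_mul_of_nonneg_right (hB3 x) (norm_nonneg _)) (norm_nonneg _))
  -- measurability and integrability of `exp (-W)`
  have hWm : ∀ τ : ℝ, Measurable (blW ε V f J τ) := by
    intro τ
    unfold blW
    fun_prop
  have hWe : ∀ (τ : ℝ) (x : E), Real.exp (- blW ε V f J τ x)
      = Real.exp (-(ε * τ ^ 2 / 2)) * (Real.exp (- V x) * Real.exp (τ * f x - τ ^ 2 / 2 * J x)) := by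
    intro τ x
    rw [← Real.exp_add, ← Real.exp_add]
    congr 1
    unfold blW
    ring
  have hbd : ∀ (τ : ℝ), Integrable (fun x => Real.exp (- V x) * Real.exp (τ * f x - τ ^ 2 / 2 * J x)) ν := by
    intro τ
    refine hint.mul_bdd (c := Real.exp (|τ| * B + τ ^ 2 / 2 * B)) (by fun_prop)
      (Eventually.of_forall fun x => ?_)
    rw [Real.norm_eq_abs, abs_of_pos (Real.exp_pos _)]
    apply Real.exp_le_exp.2
    have h1 : τ * f x ≤ |τ| * B := by
      calc τ * f x ≤ |τ * f x| := le_abs_self _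
        _ = |τ| * |f x| := abs_mul _ _
        _ ≤ |τ| * B := mul_le_mul_of_nonneg_left (hfB x) (abs_nonneg _)
    have h2 : -(τ ^ 2 / 2 * J x) ≤ τ ^ 2 / 2 * B := by
      have : -J x ≤ B := (neg_le_abs _).trans (hJB x)
      have := mul_le_mul_of_nonneg_left this (by positivity : 0 ≤ τ ^ 2 / 2)
      linarith
    linarith
  have hWi : ∀ τ : ℝ, Integrable (fun x => Real.exp (- blW ε V f J τ x)) ν := by
    intro τ
    simp only [hWe]
    exact (hbd τ).const_mul _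
  have hm : ∀ τ : ℝ, ∫ x, Real.exp (τ * f x - τ ^ 2 / 2 * J x) ∂μ
      = Z0⁻¹ * Real.exp (ε * τ ^ 2 / 2) * ∫ x, Real.exp (- blW ε V f J τ x) ∂ν := by
    intro τ
    rw [hμ, integral_tilted, ← integral_const_mul]
    congr 1
    funext x
    rw [hWe, smul_eq_mul, ← hZ0, Real.exp_neg (ε * τ ^ 2 / 2)]
    have := (Real.exp_pos (ε * τ ^ 2 / 2)).ne'
    field_simp
  refine bl_expand μ hfm hJm hB1' hfB hJB hε.le ht₀ ?_
  intro t ht htt
  have hpk := PL.pl_prekopa_mul hν (W := blW ε V f J) (x₀ := -t) (x₁ := t) (t := 1 / 2)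
    (by norm_num) (by norm_num) (hWm _) (hWm _) (hWm _) ?_ (hWi _) (hWi _) (hWi _)
  · have e0 : ((1 - 1 / 2 : ℝ) • (-t) + (1 / 2 : ℝ) • t) = 0 := by simp; ring
    rw [e0] at hpk
    have eW0 : ∫ x, Real.exp (- blW ε V f J 0 x) ∂ν = Z0 := by
      rw [hZ0]; congr 1; funext x; simp [blW]
    rw [eW0] at hpk
    set A : ℝ := ∫ x, Real.exp (- blW ε V f J (-t) x) ∂ν with hA
    set A' : ℝ := ∫ x, Real.exp (- blW ε V f J t x) ∂ν with hA'
    have hA0 : 0 ≤ A := integral_nonneg fun x => (Real.exp_pos _).le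
    have hA'0 : 0 ≤ A' := integral_nonneg fun x => (Real.exp_pos _).le
    have hAA : A' * A ≤ Z0 ^ 2 := by
      have h12 : (1 - 1 / 2 : ℝ) = 1 / 2 := by norm_num
      rw [h12, ← Real.sqrt_eq_rpow, ← Real.sqrt_eq_rpow] at hpk
      have := pow_le_pow_left₀ (by positivity) hpk 2
      rw [mul_pow, Real.sq_sqrt hA0, Real.sq_sqrt hA'0] at this
      linarith
    have e2 : ∫ x, Real.exp (t * (-f x) - t ^ 2 / 2 * J x) ∂μ
        = ∫ x, Real.exp ((-t) * f x - (-t) ^ 2 / 2 * J x) ∂μ := by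
      congr 1; funext x; congr 1; ring
    rw [e2, hm t, hm (-t), ← hA, ← hA']
    have e3 : Z0⁻¹ * Real.exp (ε * t ^ 2 / 2) * A' * (Z0⁻¹ * Real.exp (ε * (-t) ^ 2 / 2) * A)
        = Real.exp (ε * t ^ 2) * ((A' * A) / Z0 ^ 2) := by
      have : Real.exp (ε * t ^ 2) = Real.exp (ε * t ^ 2 / 2) * Real.exp (ε * (-t) ^ 2 / 2) := by
        rw [← Real.exp_add]; congr 1; ring
      rw [this]
      field_simp
    rw [e3]
    have : A' * A / Z0 ^ 2 ≤ 1 := by
      rw [div_le_one (by positivity)]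
      exact hAA
    calc Real.exp (ε * t ^ 2) * ((A' * A) / Z0 ^ 2) ≤ Real.exp (ε * t ^ 2) * 1 :=
          mul_le_mul_of_nonneg_left this (Real.exp_pos _).le
      _ = Real.exp (ε * t ^ 2) := mul_one _
  · intro y₀ y₁
    exact bl_W_convex hV hf hJ HQ (by rw [abs_neg, abs_of_pos ht]; exact htt.le)
      (by rw [abs_of_pos ht]; exact htt.le) y₀ y₁ (by norm_num) (by norm_num) (by norm_num)

end cpt

section cut
variable {E : Type*} [NormedAddCommGroup E] [NormedSpace ℝ E] [FiniteDimensional ℝ E]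

/-- a fixed bump function, `1` on the unit ball, supported in the ball of radius `2`. -/
noncomputable def blChi (E : Type*) [NormedAddCommGroup E] [NormedSpace ℝ E]
    [FiniteDimensional ℝ E] : ContDiffBump (0 : E) := ⟨1, 2, one_pos, by norm_num⟩

/-- the cutoff at scale `R`. -/
noncomputable def blCut (R : ℝ) (x : E) : ℝ := blChi E (R⁻¹ • x)

theorem bl_cut_contDiff (R : ℝ) : ContDiff ℝ 2 (blCut R : E → ℝ) := by
  unfold blCut
  exact ((blChi E).contDiff (n := 2)).comp (contDiff_const_smul R⁻¹)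

theorem bl_cut_nonneg (R : ℝ) (x : E) : 0 ≤ blCut R x := (blChi E).nonneg

theorem bl_cut_le_one (R : ℝ) (x : E) : blCut R x ≤ 1 := (blChi E).le_one

theorem bl_cut_eq_one {R : ℝ} (hR : 0 < R) {x : E} (hx : ‖x‖ ≤ R) : blCut R x = 1 := by
  apply (blChi E).one_of_mem_closedBall
  rw [mem_closedBall_zero_iff, norm_smul, norm_inv, Real.norm_eq_abs, abs_of_pos hR]
  show R⁻¹ * ‖x‖ ≤ 1
  rw [inv_mul_le_iff₀ hR]
  simpa using hx

theorem bl_cut_cpt {R : ℝ} (hR : 0 < R) : HasCompactSupport (blCut R : E → ℝ) :=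
  (blChi E).hasCompactSupport.comp_smul (inv_ne_zero hR.ne')

theorem bl_cut_deriv : ∃ C : ℝ, 0 ≤ C ∧ ∀ (R : ℝ), 0 < R → ∀ x v : E,
    (fderiv ℝ (blCut R : E → ℝ) x v) ^ 2 ≤ (C / R) ^ 2 * blCut (2 * R) x * ‖v‖ ^ 2 := by
  obtain ⟨C, hC⟩ := (((blChi E).contDiff (n := 1)).continuous_fderiv (by norm_num)).bounded_above_of_compact_support
    ((blChi E).hasCompactSupport.fderiv (𝕜 := ℝ))
  have hC0 : 0 ≤ C := (norm_nonneg _).trans (hC 0)
  refine ⟨C, hC0, ?_⟩
  intro R hR x v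
  have e : fderiv ℝ (blCut R : E → ℝ) x = R⁻¹ • fderiv ℝ (blChi E) (R⁻¹ • x) := by
    unfold blCut
    exact fderiv_comp_smul (f := (blChi E : E → ℝ)) (x := x) R⁻¹
  by_cases hx : ‖x‖ ≤ 2 * R
  · rw [bl_cut_eq_one (by positivity) hx, mul_one, e]
    have h1 : |(R⁻¹ • fderiv ℝ (blChi E) (R⁻¹ • x)) v| ≤ C / R * ‖v‖ := by
      rw [smul_apply, smul_eq_mul, abs_mul, abs_of_pos (inv_pos.2 hR)]
      have := ((fderiv ℝ (blChi E) (R⁻¹ • x)).le_opNorm v).trans
        (mul_le_mul_of_nonneg_right (hC _) (norm_nonneg _))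
      calc R⁻¹ * |fderiv ℝ (blChi E) (R⁻¹ • x) v| ≤ R⁻¹ * (C * ‖v‖) :=
            mul_le_mul_of_nonneg_left this (inv_pos.2 hR).le
        _ = C / R * ‖v‖ := by field_simp
    have := pow_le_pow_left₀ (abs_nonneg _) h1 2
    rwa [sq_abs, mul_pow] at this
  · have h0 : fderiv ℝ (blChi E) (R⁻¹ • x) = 0 := by
      apply fderiv_of_notMem_tsupport
      rw [(blChi E).tsupport_eq, mem_closedBall_zero_iff, norm_smul, norm_inv, Real.norm_eq_abs,
        abs_of_pos hR]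
      show ¬ (R⁻¹ * ‖x‖ ≤ 2)
      rw [inv_mul_le_iff₀ hR]
      intro h
      exact hx (by linarith)
    rw [e, h0]
    simp only [smul_zero, zero_apply]
    have := bl_cut_nonneg (2 * R) x
    rw [zero_pow (by norm_num)]
    positivity

end cut

section main

variable {E : Type*} [NormedAddCommGroup E] [NormedSpace ℝ E] [FiniteDimensional ℝ E]
  [MeasurableSpace E] [BorelSpace E]

theorem bl_sq_add_le (a b : ℝ) {δ : ℝ} (hδ : 0 < δ) :
    (a + b) ^ 2 ≤ (1 + δ) * a ^ 2 + (1 + 1 / δ) * b ^ 2 := by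
  have h : 0 ≤ (δ * a - b) ^ 2 / δ := by positivity
  have e : (δ * a - b) ^ 2 / δ = δ * a ^ 2 - 2 * a * b + 1 / δ * b ^ 2 := by
    field_simp
    ring
  nlinarith

/-- one step of the cutoff argument. -/
theorem bl_var_step {ν : Measure E} (hν : PL.PLProp E ν) [NeZero ν] {V f J : E → ℝ} {κ : ℝ}
    (hκ : 0 < κ) (hV : ContDiff ℝ 2 V) (hf : ContDiff ℝ 2 f) (hJ : ContDiff ℝ 2 J)
    (hVκ : ∀ x v, κ * ‖v‖ ^ 2 ≤ fderiv ℝ (fderiv ℝ V) x v v)
    (hJ0 : ∀ x, 0 ≤ J x)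
    (hdom : ∀ x v, (fderiv ℝ f x v) ^ 2 ≤ J x * fderiv ℝ (fderiv ℝ V) x v v)
    (hint : Integrable (fun x => Real.exp (- V x)) ν)
    (hf2 : Integrable (fun x => f x ^ 2) (ν.tilted fun x => - V x))
    (hJi : Integrable J (ν.tilted fun x => - V x))
    {C : ℝ} (hC : ∀ (R : ℝ), 0 < R → ∀ x v : E,
      (fderiv ℝ (blCut R : E → ℝ) x v) ^ 2 ≤ (C / R) ^ 2 * blCut (2 * R) x * ‖v‖ ^ 2)
    {R δ : ℝ} (hR : 0 < R) (hδ : 0 < δ) :
    (∫ x, (blCut R x * f x) ^ 2 ∂(ν.tilted fun x => - V x))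
        - (∫ x, blCut R x * f x ∂(ν.tilted fun x => - V x)) ^ 2
      ≤ (1 + δ) * (∫ x, J x ∂(ν.tilted fun x => - V x))
        + (1 + 1 / δ) * ((C / R) ^ 2 / κ) * ∫ x, f x ^ 2 ∂(ν.tilted fun x => - V x) := by
  set μ : Measure E := ν.tilted fun x => - V x with hμ
  set c : ℝ := (1 + 1 / δ) * ((C / R) ^ 2 / κ) with hc
  have hc0 : 0 ≤ c := by positivity
  set fR : E → ℝ := fun x => blCut R x * f x with hfR
  set JR : E → ℝ := fun x => (1 + δ) * (blCut R x ^ 2 * J x) + c * (blCut (2 * R) x * f x ^ 2)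
    with hJR
  have hcR := bl_cut_contDiff (E := E) R
  have hcR2 := bl_cut_contDiff (E := E) (2 * R)
  have h1 : ContDiff ℝ 2 fR := hcR.mul hf
  have h2 : ContDiff ℝ 2 JR :=
    (contDiff_const.mul ((hcR.pow 2).mul hJ)).add (contDiff_const.mul (hcR2.mul (hf.pow 2)))
  have h3 : HasCompactSupport fR := (bl_cut_cpt hR).mul_right
  have h4 : HasCompactSupport JR := by
    refine HasCompactSupport.add ?_ ?_
    · refine HasCompactSupport.mul_left (f := fun _ => (1 + δ)) ?_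
      refine HasCompactSupport.mul_right (f' := J) ?_
      exact (bl_cut_cpt hR).mono (fun x hx => by
        simp only [Function.mem_support, ne_eq, pow_eq_zero_iff, OfNat.ofNat_ne_zero,
          not_false_eq_true] at hx ⊢
        exact hx)
    · refine HasCompactSupport.mul_left (f := fun _ => c) ?_
      exact (bl_cut_cpt (by positivity : 0 < 2 * R)).mul_right
  have h5 : ∀ x, 0 ≤ JR x := by
    intro x
    have := hJ0 x
    have := bl_cut_nonneg (2 * R) x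
    positivity
  have h6 : ∀ x v, (fderiv ℝ fR x v) ^ 2 ≤ JR x * fderiv ℝ (fderiv ℝ V) x v v := by
    intro x v
    have hd1 : DifferentiableAt ℝ (blCut R : E → ℝ) x := (hcR.differentiable (by norm_num)) x
    have hd2 : DifferentiableAt ℝ f x := (hf.differentiable (by norm_num)) x
    have e : fderiv ℝ fR x v = blCut R x * fderiv ℝ f x v + f x * fderiv ℝ (blCut R : E → ℝ) x v := by
      rw [hfR, fderiv_fun_mul hd1 hd2]
      simp
    set a : ℝ := fderiv ℝ (fderiv ℝ V) x v v with ha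
    have ha0 : 0 ≤ a := le_trans (by positivity) (hVκ x v)
    rw [e]
    refine (bl_sq_add_le _ _ hδ).trans ?_
    have t1 : (blCut R x * fderiv ℝ f x v) ^ 2 ≤ blCut R x ^ 2 * J x * a := by
      rw [mul_pow, mul_assoc]
      exact mul_le_mul_of_nonneg_left (hdom x v) (sq_nonneg _)
    have t2 : (f x * fderiv ℝ (blCut R : E → ℝ) x v) ^ 2
        ≤ (C / R) ^ 2 / κ * (blCut (2 * R) x * f x ^ 2) * a := by
      rw [mul_pow]
      have hn : ‖v‖ ^ 2 ≤ a / κ := by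
        rw [le_div_iff₀ hκ]
        linarith [hVκ x v]
      have hb := bl_cut_nonneg (2 * R) x
      calc f x ^ 2 * (fderiv ℝ (blCut R : E → ℝ) x v) ^ 2
          ≤ f x ^ 2 * ((C / R) ^ 2 * blCut (2 * R) x * ‖v‖ ^ 2) :=
            mul_le_mul_of_nonneg_left (hC R hR x v) (sq_nonneg _)
        _ ≤ f x ^ 2 * ((C / R) ^ 2 * blCut (2 * R) x * (a / κ)) := by
            apply mul_le_mul_of_nonneg_left _ (sq_nonneg _)
            exact mul_le_mul_of_nonneg_left hn (by positivity)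
        _ = (C / R) ^ 2 / κ * (blCut (2 * R) x * f x ^ 2) * a := by
            field_simp
    have t1' := mul_le_mul_of_nonneg_left t1 (by positivity : 0 ≤ 1 + δ)
    have t2' := mul_le_mul_of_nonneg_left t2 (by positivity : 0 ≤ 1 + 1 / δ)
    have e2 : JR x * a = (1 + δ) * (blCut R x ^ 2 * J x * a)
        + (1 + 1 / δ) * ((C / R) ^ 2 / κ * (blCut (2 * R) x * f x ^ 2) * a) := by
      simp only [hJR, hc]
      ring
    rw [e2]
    linarith
  have key := bl_var_cpt hν hκ hV h1 h2 h3 h4 hVκ h5 h6 hint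
  refine key.trans ?_
  rw [← integral_const_mul, ← integral_const_mul, ← integral_add (hJi.const_mul _) (hf2.const_mul _)]
  have hprob : IsProbabilityMeasure μ := isProbabilityMeasure_tilted hint
  refine integral_mono_of_nonneg (Eventually.of_forall h5) ((hJi.const_mul _).add (hf2.const_mul _))
    (Eventually.of_forall fun x => ?_)
  have b1 := bl_cut_nonneg R x
  have b2 := bl_cut_le_one R x
  have b3 := bl_cut_nonneg (2 * R) x
  have b4 := bl_cut_le_one (2 * R) x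
  have u1 : blCut R x ^ 2 * J x ≤ J x := by
    have : blCut R x ^ 2 ≤ 1 := by nlinarith
    nlinarith [hJ0 x]
  have u2 : blCut (2 * R) x * f x ^ 2 ≤ f x ^ 2 := by nlinarith [sq_nonneg (f x)]
  have u1' := mul_le_mul_of_nonneg_left u1 (by positivity : 0 ≤ 1 + δ)
  have u2' := mul_le_mul_of_nonneg_left u2 hc0
  simp only [hJR]
  linarith

theorem bl_cut_tendsto (x : E) :
    Tendsto (fun n : ℕ => blCut ((n : ℝ) + 1) x) atTop (𝓝 1) := by
  refine tendsto_const_nhds.congr' ?_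
  filter_upwards [eventually_ge_atTop ⌈‖x‖⌉₊] with n hn
  refine (bl_cut_eq_one (by positivity) ?_).symm
  have h1 : ‖x‖ ≤ (⌈‖x‖⌉₊ : ℝ) := Nat.le_ceil _
  have h2 : (⌈‖x‖⌉₊ : ℝ) ≤ (n : ℝ) := by exact_mod_cast hn
  linarith

/-- **The Brascamp–Lieb variance inequality** (inverse Hessian form, stated without the inverse):
if `(Df v)² ≤ J · D²V(v,v)` then `Var_μ f ≤ E_μ J`, `dμ = e^{-V} dν / Z`. -/
theorem bl_var {ν : Measure E} (hν : PL.PLProp E ν) [NeZero ν] {V f J : E → ℝ} {κ : ℝ}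
    (hκ : 0 < κ) (hV : ContDiff ℝ 2 V) (hf : ContDiff ℝ 2 f) (hJ : ContDiff ℝ 2 J)
    (hVκ : ∀ x v, κ * ‖v‖ ^ 2 ≤ fderiv ℝ (fderiv ℝ V) x v v)
    (hJ0 : ∀ x, 0 ≤ J x)
    (hdom : ∀ x v, (fderiv ℝ f x v) ^ 2 ≤ J x * fderiv ℝ (fderiv ℝ V) x v v)
    (hint : Integrable (fun x => Real.exp (- V x)) ν)
    (hf2 : Integrable (fun x => f x ^ 2) (ν.tilted fun x => - V x))
    (hJi : Integrable J (ν.tilted fun x => - V x)) :
    (∫ x, f x ^ 2 ∂(ν.tilted fun x => - V x)) - (∫ x, f x ∂(ν.tilted fun x => - V x)) ^ 2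
      ≤ ∫ x, J x ∂(ν.tilted fun x => - V x) := by
  obtain ⟨C, -, hC⟩ := bl_cut_deriv (E := E)
  set μ : Measure E := ν.tilted fun x => - V x with hμ
  have hprob : IsProbabilityMeasure μ := isProbabilityMeasure_tilted hint
  have hfm : Measurable f := hf.continuous.measurable
  have hcm : ∀ R : ℝ, Measurable (blCut R : E → ℝ) := fun R =>
    (bl_cut_contDiff R).continuous.measurable
  have hf1 : Integrable f μ := by
    refine Integrable.mono' ((integrable_const (1 : ℝ)).add hf2) hfm.aestronglyMeasurable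
      (Eventually.of_forall fun x => ?_)
    rw [Real.norm_eq_abs]
    simp only [Pi.add_apply]
    nlinarith [sq_abs (f x), sq_nonneg (|f x| - 1), abs_nonneg (f x)]
  set u : ℕ → ℝ := fun n => 1 / ((n : ℝ) + 1) with hu
  have hu0 : Tendsto u atTop (𝓝 0) := tendsto_one_div_add_atTop_nhds_zero_nat
  have hstep : ∀ n : ℕ, (∫ x, (blCut ((n : ℝ) + 1) x * f x) ^ 2 ∂μ)
        - (∫ x, blCut ((n : ℝ) + 1) x * f x ∂μ) ^ 2
      ≤ (1 + u n) * (∫ x, J x ∂μ) + (u n + u n ^ 2) * (C ^ 2 / κ) * ∫ x, f x ^ 2 ∂μ := by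
    intro n
    have hn : (0 : ℝ) < (n : ℝ) + 1 := by positivity
    have := bl_var_step hν hκ hV hf hJ hVκ hJ0 hdom hint hf2 hJi hC (R := (n : ℝ) + 1)
      (δ := u n) hn (by positivity)
    refine this.trans (le_of_eq ?_)
    congr 2
    simp only [hu]
    field_simp
    ring
  have hL1 : Tendsto (fun n : ℕ => ∫ x, (blCut ((n : ℝ) + 1) x * f x) ^ 2 ∂μ) atTop
      (𝓝 (∫ x, f x ^ 2 ∂μ)) := by
    refine tendsto_integral_of_dominated_convergence (fun x => f x ^ 2)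
      (fun n => (((hcm _).mul hfm).pow_const 2).aestronglyMeasurable) hf2 ?_ ?_
    · intro n
      refine Eventually.of_forall fun x => ?_
      rw [Real.norm_eq_abs, abs_of_nonneg (sq_nonneg _), mul_pow]
      have b1 := bl_cut_nonneg ((n : ℝ) + 1) x
      have b2 := bl_cut_le_one ((n : ℝ) + 1) x
      have : blCut ((n : ℝ) + 1) x ^ 2 ≤ 1 := by nlinarith
      nlinarith [sq_nonneg (f x)]
    · refine Eventually.of_forall fun x => ?_
      have := ((bl_cut_tendsto x).mul_const (f x)).pow 2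
      simpa using this
  have hL2 : Tendsto (fun n : ℕ => ∫ x, blCut ((n : ℝ) + 1) x * f x ∂μ) atTop
      (𝓝 (∫ x, f x ∂μ)) := by
    refine tendsto_integral_of_dominated_convergence (fun x => |f x|)
      (fun n => ((hcm _).mul hfm).aestronglyMeasurable) hf1.abs ?_ ?_
    · intro n
      refine Eventually.of_forall fun x => ?_
      rw [Real.norm_eq_abs, abs_mul, abs_of_nonneg (bl_cut_nonneg _ x)]
      have b2 := bl_cut_le_one ((n : ℝ) + 1) x
      nlinarith [abs_nonneg (f x)]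
    · refine Eventually.of_forall fun x => ?_
      have := (bl_cut_tendsto x).mul_const (f x)
      simpa using this
  have hR : Tendsto (fun n : ℕ => (1 + u n) * (∫ x, J x ∂μ)
      + (u n + u n ^ 2) * (C ^ 2 / κ) * ∫ x, f x ^ 2 ∂μ) atTop (𝓝 (∫ x, J x ∂μ)) := by
    have := ((tendsto_const_nhds (x := (1 : ℝ))).add hu0).mul_const (∫ x, J x ∂μ)
    have h2 := ((hu0.add (hu0.pow 2)).mul_const (C ^ 2 / κ)).mul_const (∫ x, f x ^ 2 ∂μ)
    have h3 := this.add h2
    simpa using h3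
  exact le_of_tendsto_of_tendsto' (hL1.sub (hL2.pow 2)) hR hstep

/-- Brascamp–Lieb for a Haar measure on a finite dimensional space. -/
theorem bl_var_haar (ν : Measure E) [ν.IsAddHaarMeasure] {V f J : E → ℝ} {κ : ℝ}
    (hκ : 0 < κ) (hV : ContDiff ℝ 2 V) (hf : ContDiff ℝ 2 f) (hJ : ContDiff ℝ 2 J)
    (hVκ : ∀ x v, κ * ‖v‖ ^ 2 ≤ fderiv ℝ (fderiv ℝ V) x v v)
    (hJ0 : ∀ x, 0 ≤ J x)
    (hdom : ∀ x v, (fderiv ℝ f x v) ^ 2 ≤ J x * fderiv ℝ (fderiv ℝ V) x v v)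
    (hint : Integrable (fun x => Real.exp (- V x)) ν)
    (hf2 : Integrable (fun x => f x ^ 2) (ν.tilted fun x => - V x))
    (hJi : Integrable J (ν.tilted fun x => - V x)) :
    (∫ x, f x ^ 2 ∂(ν.tilted fun x => - V x)) - (∫ x, f x ∂(ν.tilted fun x => - V x)) ^ 2
      ≤ ∫ x, J x ∂(ν.tilted fun x => - V x) :=
  bl_var (PL.plProp_addHaar ν) hκ hV hf hJ hVκ hJ0 hdom hint hf2 hJi

end main

end Claimed.Agent.BL
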