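import Mathlib

/-!
# Brouwer fixed point theorem, part 2: nearest point projection onto a closed convex set

Shared library (owner helper217).  Prefix `bfp`.
-/

set_option autoImplicit false

namespace Claimed.Agent.Lib

open scoped RealInnerProductSpace

variable {F : Type*} [NormedAddCommGroup F] [InnerProductSpace ℝ F]

/-- Nearest point projection onto `K` (junk value `x` if there is no nearest point). -/
noncomputable def bfpProj (K : Set F) (x : F) : F :=
  open Classical in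
  if h : ∃ v ∈ K, ∀ w ∈ K, ⟪x - v, w - v⟫ ≤ 0 then h.choose else x

theorem bfpProj_exists {K : Set F} (ne : K.Nonempty) (hc : IsComplete K) (hK : Convex ℝ K)
    (x : F) : ∃ v ∈ K, ∀ w ∈ K, ⟪x - v, w - v⟫ ≤ 0 := by
  obtain ⟨v, hv, h⟩ := exists_norm_eq_iInf_of_complete_convex ne hc hK x
  exact ⟨v, hv, (norm_eq_iInf_iff_real_inner_le_zero hK hv).1 h⟩

theorem bfpProj_mem {K : Set F} (ne : K.Nonempty) (hc : IsComplete K) (hK : Convex ℝ K)
    (x : F) : bfpProj K x ∈ K := by
  have h := bfpProj_exists ne hc hK x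
  unfold bfpProj
  rw [dif_pos h]
  exact h.choose_spec.1

theorem bfpProj_inner_le {K : Set F} (ne : K.Nonempty) (hc : IsComplete K) (hK : Convex ℝ K)
    (x : F) {w : F} (hw : w ∈ K) : ⟪x - bfpProj K x, w - bfpProj K x⟫ ≤ 0 := by
  have h := bfpProj_exists ne hc hK x
  unfold bfpProj
  rw [dif_pos h]
  exact h.choose_spec.2 w hw

theorem bfpProj_norm_sub_le {K : Set F} (ne : K.Nonempty) (hc : IsComplete K) (hK : Convex ℝ K)
    (x y : F) : ‖bfpProj K x - bfpProj K y‖ ≤ ‖x - y‖ := by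
  set p := bfpProj K x with hp
  set q := bfpProj K y with hq
  have h1 : ⟪x - p, q - p⟫ ≤ 0 := bfpProj_inner_le ne hc hK x (bfpProj_mem ne hc hK y)
  have h2 : ⟪y - q, p - q⟫ ≤ 0 := bfpProj_inner_le ne hc hK y (bfpProj_mem ne hc hK x)
  have h3 : ⟪p - q, p - q⟫ ≤ ⟪x - y, p - q⟫ := by
    have e1 : ⟪x - p, q - p⟫ = -⟪x - p, p - q⟫ := by
      rw [← inner_neg_right]; congr 1; abel
    have e2 : ⟪x - y, p - q⟫ - ⟪p - q, p - q⟫ = ⟪x - p, p - q⟫ - ⟪y - q, p - q⟫ := by
      rw [← inner_sub_left, ← inner_sub_left]; congr 1; abel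
    linarith
  have h4 : ⟪x - y, p - q⟫ ≤ ‖x - y‖ * ‖p - q‖ := real_inner_le_norm _ _
  have h5 : ⟪p - q, p - q⟫ = ‖p - q‖ * ‖p - q‖ := real_inner_self_eq_norm_mul_norm _
  by_cases h0 : ‖p - q‖ = 0
  · rw [h0]; exact norm_nonneg _
  · have hpos : 0 < ‖p - q‖ := lt_of_le_of_ne (norm_nonneg _) (Ne.symm h0)
    have : ‖p - q‖ * ‖p - q‖ ≤ ‖x - y‖ * ‖p - q‖ := by linarith
    exact le_of_mul_le_mul_right this hpos

theorem bfpProj_lipschitz {K : Set F} (ne : K.Nonempty) (hc : IsComplete K) (hK : Convex ℝ K) :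
    LipschitzWith 1 (bfpProj K) := by
  refine LipschitzWith.of_dist_le_mul ?_
  intro x y
  rw [dist_eq_norm, dist_eq_norm]
  simpa using bfpProj_norm_sub_le ne hc hK x y

theorem bfpProj_continuous {K : Set F} (ne : K.Nonempty) (hc : IsComplete K) (hK : Convex ℝ K) :
    Continuous (bfpProj K) := (bfpProj_lipschitz ne hc hK).continuous

theorem bfpProj_of_mem {K : Set F} (ne : K.Nonempty) (hc : IsComplete K) (hK : Convex ℝ K)
    {x : F} (hx : x ∈ K) : bfpProj K x = x := by
  have h := bfpProj_inner_le ne hc hK x hx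
  rw [real_inner_self_eq_norm_mul_norm] at h
  have : ‖x - bfpProj K x‖ = 0 := by nlinarith [norm_nonneg (x - bfpProj K x)]
  have := norm_eq_zero.1 this
  exact (sub_eq_zero.1 this).symm

/-- Outside the closed ball the projection onto the ball lands on the sphere. -/
theorem bfpProj_closedBall_norm [CompleteSpace F] {R : ℝ} (hR : 0 ≤ R) {x : F}
    (hx : R < ‖x‖) : ‖bfpProj (Metric.closedBall (0:F) R) x‖ = R := by
  set K := Metric.closedBall (0:F) R with hKdef
  have ne : K.Nonempty := ⟨0, by simp [hKdef, hR]⟩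
  have hc : IsComplete K := Metric.isClosed_closedBall.isComplete
  have hK : Convex ℝ K := convex_closedBall 0 R
  set p := bfpProj K x with hp
  have hpK : p ∈ K := bfpProj_mem ne hc hK x
  have hpR : ‖p‖ ≤ R := by simpa [hKdef] using hpK
  by_contra hne
  have hlt : ‖p‖ < R := lt_of_le_of_ne hpR hne
  have hxp : x - p ≠ 0 := by
    intro h
    have : x = p := sub_eq_zero.1 h
    rw [this] at hx
    linarith
  have hnpos : 0 < ‖x - p‖ := norm_pos_iff.mpr hxp
  set δ := (R - ‖p‖) / ‖x - p‖ with hδ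
  have hδpos : 0 < δ := div_pos (by linarith) hnpos
  have hw : p + δ • (x - p) ∈ K := by
    have : ‖p + δ • (x - p)‖ ≤ R := by
      calc ‖p + δ • (x - p)‖ ≤ ‖p‖ + ‖δ • (x - p)‖ := norm_add_le _ _
        _ = ‖p‖ + δ * ‖x - p‖ := by rw [norm_smul, Real.norm_of_nonneg hδpos.le]
        _ = ‖p‖ + (R - ‖p‖) := by rw [hδ]; field_simp
        _ = R := by ring
    simpa [hKdef] using this
  have h := bfpProj_inner_le ne hc hK x hw
  have e : p + δ • (x - p) - p = δ • (x - p) := by abel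
  rw [← hp, e, inner_smul_right, real_inner_self_eq_norm_mul_norm] at h
  have : 0 < δ * (‖x - p‖ * ‖x - p‖) := by positivity
  linarith

end Claimed.Agent.Lib
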