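/-
Shared library (helper250): the Milnor--Rogers volume argument.
There is no `C^1` map of the closed unit ball of a finite dimensional real inner product space
into the unit sphere which fixes the sphere pointwise.
-/
import Mathlib

namespace Claimed.Agent.Lib

open MeasureTheory Set Metric Polynomial
open scoped RealInnerProductSpace

set_option linter.unusedSectionVars false

variable {E : Type*} [NormedAddCommGroup E] [InnerProductSpace ℝ E] [FiniteDimensional ℝ E]

/-- `t ↦ det (1 + t A)` is a polynomial of degree at most the dimension. -/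
theorem bfp_det_poly (A : E →L[ℝ] E) :
    ∃ p : ℝ[X], p.natDegree ≤ Module.finrank ℝ E ∧
      ∀ t : ℝ, p.eval t = ((1 : E →L[ℝ] E) + t • A).det := by
  classical
  set b := Module.finBasis ℝ E with hb
  set M : Matrix (Fin (Module.finrank ℝ E)) (Fin (Module.finrank ℝ E)) ℝ :=
    LinearMap.toMatrix b b (A : E →ₗ[ℝ] E) with hM
  refine ⟨Matrix.det ((X : ℝ[X]) • M.map C + (1 : Matrix _ _ ℝ).map C), ?_, ?_⟩
  · simpa using Polynomial.natDegree_det_X_add_C_le M (1 : Matrix _ _ ℝ)
  · intro t
    have h1 : ((1 : E →L[ℝ] E) + t • A).det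
        = Matrix.det (LinearMap.toMatrix b b (((1 : E →L[ℝ] E) + t • A : E →L[ℝ] E) : E →ₗ[ℝ] E)) := by
      rw [LinearMap.det_toMatrix]
    have h2 : LinearMap.toMatrix b b (((1 : E →L[ℝ] E) + t • A : E →L[ℝ] E) : E →ₗ[ℝ] E)
        = 1 + t • M := by
      have : (((1 : E →L[ℝ] E) + t • A : E →L[ℝ] E) : E →ₗ[ℝ] E)
          = LinearMap.id + t • (A : E →ₗ[ℝ] E) := by
        ext x; simp
      rw [this, map_add, map_smul, LinearMap.toMatrix_id]
    rw [h1, h2]
    have h3 : (Matrix.det ((X : ℝ[X]) • M.map C + (1 : Matrix _ _ ℝ).map C)).eval t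
        = Matrix.det ((Polynomial.evalRingHom t).mapMatrix
            ((X : ℝ[X]) • M.map C + (1 : Matrix _ _ ℝ).map C)) := by
      rw [← RingHom.map_det]; rfl
    rw [h3]
    congr 1
    ext i j
    by_cases hij : i = j
    · subst hij; simp [Matrix.add_apply, add_comm]; ring
    · simp [Matrix.add_apply, hij]; ring

/-- Interpolation constants: evaluation at `1` of polynomials of degree `≤ n`
from `n+1` distinct nodes. -/
theorem bfp_interp (n : ℕ) (v : Fin (n + 1) → ℝ) (hv : Function.Injective v) :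
    ∃ c : Fin (n + 1) → ℝ, ∑ i, c i = 1 ∧
      ∀ p : ℝ[X], p.natDegree ≤ n → p.eval 1 = ∑ i, c i * p.eval (v i) := by
  classical
  refine ⟨fun i => (Lagrange.basis Finset.univ v i).eval 1, ?_, ?_⟩
  · have h := Lagrange.sum_basis (s := (Finset.univ : Finset (Fin (n + 1)))) (v := v)
      (hv.injOn) Finset.univ_nonempty
    have h' := congrArg (Polynomial.eval 1) h
    simpa [Polynomial.eval_finsetSum] using h'
  · intro p hp
    have hdeg : p.degree < (Finset.univ : Finset (Fin (n + 1))).card := by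
      have : p.degree ≤ (n : WithBot ℕ) := Polynomial.degree_le_of_natDegree_le hp
      refine lt_of_le_of_lt this ?_
      simp
      exact_mod_cast Nat.lt_succ_self n
    have h := Lagrange.eq_interpolate (s := (Finset.univ : Finset (Fin (n + 1)))) (v := v)
      (f := p) (hv.injOn) hdeg
    have h' := congrArg (Polynomial.eval 1) h
    rw [Lagrange.interpolate_apply, Polynomial.eval_finsetSum] at h'
    rw [h']
    refine Finset.sum_congr rfl fun i _ => ?_
    simp [mul_comm]

/-- `det (1 + t A) > 0` as long as `t ‖A‖ < 1`. -/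
theorem bfp_det_pos (A : E →L[ℝ] E) {L t : ℝ} (hA : ‖A‖ ≤ L) (ht : 0 ≤ t) (htL : t * L < 1) :
    0 < ((1 : E →L[ℝ] E) + t • A).det := by
  obtain ⟨p, -, hp⟩ := bfp_det_poly A
  have hne : ∀ s ∈ Icc (0 : ℝ) t, p.eval s ≠ 0 := by
    intro s hs h0
    rw [hp s] at h0
    have hker := LinearMap.bot_lt_ker_of_det_eq_zero (f := (((1 : E →L[ℝ] E) + s • A : E →L[ℝ] E) : E →ₗ[ℝ] E)) h0
    obtain ⟨x, hx, hx0⟩ := SetLike.exists_of_lt hker
    have hx0' : x ≠ 0 := by simpa using hx0
    have hx' : x + s • A x = 0 := by simpa using hx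
    have h1 : ‖x‖ = ‖s • A x‖ := by
      have : x = -(s • A x) := eq_neg_of_add_eq_zero_left hx'
      calc ‖x‖ = ‖-(s • A x)‖ := by rw [← this]
        _ = ‖s • A x‖ := norm_neg _
    have hL : 0 ≤ L := le_trans (norm_nonneg _) hA
    have h2 : ‖s • A x‖ ≤ (t * L) * ‖x‖ := by
      rw [norm_smul, Real.norm_eq_abs, abs_of_nonneg hs.1]
      calc s * ‖A x‖ ≤ t * (L * ‖x‖) := by
            apply mul_le_mul hs.2 _ (norm_nonneg _) ht
            exact (A.le_opNorm x).trans (mul_le_mul_of_nonneg_right hA (norm_nonneg _))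
        _ = (t * L) * ‖x‖ := by ring
    have hxpos : 0 < ‖x‖ := norm_pos_iff.mpr hx0'
    nlinarith
  by_contra hneg
  rw [not_lt] at hneg
  rw [← hp t] at hneg
  have h0 : p.eval 0 = 1 := by
    rw [hp 0]
    simp only [zero_smul, add_zero]
    exact LinearMap.det_id
  have hcont : ContinuousOn (fun s => p.eval s) (Icc 0 t) := p.continuous.continuousOn
  have hmem : (0 : ℝ) ∈ Icc (p.eval t) (p.eval 0) := ⟨hneg, by rw [h0]; norm_num⟩
  obtain ⟨s, hs, hs0⟩ := intermediate_value_Icc' ht hcont hmem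
  exact hne s hs hs0

/-- A segment from the closed unit ball to its exterior crosses the unit sphere. -/
theorem bfp_cross (x y : E) (hx : ‖x‖ ≤ 1) (hy : 1 < ‖y‖) :
    ∃ z : E, ‖z‖ = 1 ∧ ‖x - z‖ ≤ ‖x - y‖ := by
  have hcont : ContinuousOn (fun s : ℝ => ‖x + s • (y - x)‖) (Icc 0 1) := by fun_prop
  have hmem : (1 : ℝ) ∈ Icc (‖x + (0 : ℝ) • (y - x)‖) (‖x + (1 : ℝ) • (y - x)‖) := by
    simp only [zero_smul, add_zero, one_smul, add_sub_cancel]
    exact ⟨hx, hy.le⟩
  obtain ⟨s, hs, hs1⟩ := intermediate_value_Icc zero_le_one hcont hmem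
  refine ⟨x + s • (y - x), hs1, ?_⟩
  have : x - (x + s • (y - x)) = s • (x - y) := by module
  rw [this, norm_smul, Real.norm_eq_abs, abs_of_nonneg hs.1]
  exact mul_le_of_le_one_left (norm_nonneg _) hs.2

/-- Extension by zero of a map which is Lipschitz on the closed unit ball and vanishes on the
unit sphere. -/
theorem bfp_ext_lipschitz (g : E → E) {L : ℝ} (hL : 0 ≤ L)
    (hg : ∀ x ∈ closedBall (0 : E) 1, ∀ y ∈ closedBall (0 : E) 1, ‖g x - g y‖ ≤ L * ‖x - y‖)
    (h0 : ∀ x, ‖x‖ = 1 → g x = 0) (x y : E) :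
    ‖(if ‖x‖ ≤ 1 then g x else 0) - (if ‖y‖ ≤ 1 then g y else 0)‖ ≤ L * ‖x - y‖ := by
  have key : ∀ x y : E, ‖x‖ ≤ 1 → 1 < ‖y‖ → ‖g x‖ ≤ L * ‖x - y‖ := by
    intro x y hx hy
    obtain ⟨z, hz, hxz⟩ := bfp_cross x y hx hy
    have h1 := hg x (by simpa using hx) z (by simpa using hz.le)
    rw [h0 z hz, sub_zero] at h1
    exact h1.trans (mul_le_mul_of_nonneg_left hxz hL)
  by_cases hx : ‖x‖ ≤ 1 <;> by_cases hy : ‖y‖ ≤ 1
  · simp only [hx, hy, if_true]
    exact hg x (by simpa using hx) y (by simpa using hy)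
  · simp only [hx, hy, if_true, if_false, sub_zero]
    exact key x y hx (not_le.mp hy)
  · simp only [hx, hy, if_true, if_false, zero_sub, norm_neg]
    rw [norm_sub_rev]
    exact key y x hy (not_le.mp hx)
  · simp only [hx, hy, if_false, sub_zero, norm_zero]
    positivity

/-- A strict Lipschitz perturbation of the identity is a bijection. -/
theorem bfp_bijective (G : E → E) {c : ℝ} (hc0 : 0 ≤ c) (hc : c < 1)
    (hG : ∀ x y, ‖G x - G y‖ ≤ c * ‖x - y‖) : Function.Bijective (fun x => x + G x) := by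
  constructor
  · intro x y hxy
    have hxy' : x + G x = y + G y := hxy
    have h1 : x - y = G y - G x := by
      have : x - y = (x + G x) - (y + G y) + (G y - G x) := by abel
      rw [this, hxy']; abel
    have h2 : ‖x - y‖ ≤ c * ‖x - y‖ := by
      calc ‖x - y‖ = ‖G y - G x‖ := by rw [h1]
        _ ≤ c * ‖y - x‖ := hG y x
        _ = c * ‖x - y‖ := by rw [norm_sub_rev]
    have h3 : ‖x - y‖ = 0 := by
      have := norm_nonneg (x - y)
      nlinarith
    exact sub_eq_zero.mp (norm_eq_zero.mp h3)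
  · intro y
    have hlip : LipschitzWith ⟨c, hc0⟩ (fun x => y - G x) := by
      refine LipschitzWith.of_dist_le_mul fun a b => ?_
      rw [dist_eq_norm, dist_eq_norm]
      have : y - G a - (y - G b) = G b - G a := by abel
      rw [this, norm_sub_rev a b]
      exact hG b a
    have hcw : ContractingWith ⟨c, hc0⟩ (fun x => y - G x) := ⟨by exact_mod_cast hc, hlip⟩
    obtain ⟨z, hz⟩ : ∃ z, y - G z = z := ⟨hcw.fixedPoint, hcw.fixedPoint_isFixedPt⟩
    refine ⟨z, ?_⟩
    show z + G z = y
    exact (sub_eq_iff_eq_add.mp hz).symm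

/-- **No `C^1` retraction** (Milnor--Rogers). -/
theorem bfp_no_retraction [MeasurableSpace E] [BorelSpace E]
    (r : E → E) (r' : E → E →L[ℝ] E)
    (hd : ∀ x ∈ closedBall (0 : E) 1, HasFDerivAt r (r' x) x)
    (hc : ContinuousOn r' (closedBall (0 : E) 1))
    (hn : ∀ x ∈ closedBall (0 : E) 1, ‖r x‖ = 1)
    (hs : ∀ x, ‖x‖ = 1 → r x = x) : False := by
  classical
  set B : Set E := closedBall (0 : E) 1 with hB
  set U : Set E := ball (0 : E) 1 with hU
  have hUB : U ⊆ B := ball_subset_closedBall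
  have hBc : IsCompact B := isCompact_closedBall 0 1
  set A : E → E →L[ℝ] E := fun x => r' x - 1 with hA
  have hAc : ContinuousOn A B := hc.sub continuousOn_const
  obtain ⟨L, hLb⟩ := hBc.exists_bound_of_continuousOn hAc
  have hL0 : 0 ≤ L := le_trans (norm_nonneg _) (hLb 0 (by simp [hB]))
  set g : E → E := fun x => r x - x with hg
  have hgd : ∀ x ∈ B, HasFDerivAt g (A x) x := fun x hx => (hd x hx).sub (hasFDerivAt_id x)
  have hglip : ∀ x ∈ B, ∀ y ∈ B, ‖g x - g y‖ ≤ L * ‖x - y‖ := by
    intro x hx y hy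
    exact Convex.norm_image_sub_le_of_norm_hasFDerivWithin_le
      (fun z hz => (hgd z hz).hasFDerivWithinAt) hLb (convex_closedBall 0 1) hy hx
  have hg0 : ∀ x, ‖x‖ = 1 → g x = 0 := fun x hx => by simp [hg, hs x hx]
  set gt : E → E := fun x => if ‖x‖ ≤ 1 then g x else 0 with hgt
  have hgtlip : ∀ x y, ‖gt x - gt y‖ ≤ L * ‖x - y‖ := bfp_ext_lipschitz g hL0 hglip hg0
  have hgt0 : ∀ x, 1 ≤ ‖x‖ → gt x = 0 := by
    intro x hx
    rcases hx.eq_or_lt with h | h
    · simp [hgt, h.symm, hg0 x h.symm]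
    · simp [hgt, not_le.mpr h]
  have hgtU : ∀ x ∈ U, gt x = g x := by
    intro x hx
    have : ‖x‖ ≤ 1 := by simpa [hB] using hUB hx
    simp [hgt, this]
  set V : ℝ := (volume : Measure E).real U with hV
  have hVpos : 0 < V := by
    have h1 : 0 < (volume : Measure E) U := measure_ball_pos _ _ one_pos
    have h2 : (volume : Measure E) U ≠ ⊤ := measure_ball_lt_top.ne
    exact ENNReal.toReal_pos h1.ne' h2
  -- the volume identity for small `t`
  have hvol : ∀ t : ℝ, 0 ≤ t → t * L < 1 →
      ∫ x in U, ((1 : E →L[ℝ] E) + t • A x).det = V := by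
    intro t ht htL
    have hbij : Function.Bijective (fun x => x + t • gt x) := by
      refine bfp_bijective (fun x => t • gt x) (mul_nonneg ht hL0) htL ?_
      intro x y
      rw [← smul_sub, norm_smul, Real.norm_eq_abs, abs_of_nonneg ht, mul_assoc]
      exact mul_le_mul_of_nonneg_left (hgtlip x y) ht
    have hfix : ∀ x, 1 ≤ ‖x‖ → x + t • gt x = x := by
      intro x hx; simp [hgt0 x hx]
    set F : E → E := fun x => x + t • g x with hF
    have hFeq : ∀ x ∈ U, F x = x + t • gt x := fun x hx => by simp [hF, hgtU x hx]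
    have hinj : InjOn F U := by
      intro x hx y hy hxy
      rw [hFeq x hx, hFeq y hy] at hxy
      exact hbij.1 hxy
    have himg : F '' U = U := by
      apply Subset.antisymm
      · rintro _ ⟨x, hx, rfl⟩
        by_contra hnot
        have h1 : 1 ≤ ‖F x‖ := by
          have : ¬ ‖F x‖ < 1 := by simpa [hU] using hnot
          exact not_lt.mp this
        have h2 : F x + t • gt (F x) = x + t • gt x := by rw [hfix _ h1, hFeq x hx]
        have h3 : F x = x := hbij.1 h2
        rw [h3] at h1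
        have : ‖x‖ < 1 := by simpa [hU] using hx
        linarith
      · intro y hy
        obtain ⟨x, hx⟩ := hbij.2 y
        have hx' : x + t • gt x = y := hx
        have hxU : x ∈ U := by
          by_contra hnot
          have h1 : 1 ≤ ‖x‖ := by
            have : ¬ ‖x‖ < 1 := by simpa [hU] using hnot
            exact not_lt.mp this
          rw [hfix x h1] at hx'
          exact hnot (hx' ▸ hy)
        exact ⟨x, hxU, by rw [hFeq x hxU, hx']⟩
    have hFd : ∀ x ∈ U, HasFDerivWithinAt F ((1 : E →L[ℝ] E) + t • A x) U x := by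
      intro x hx
      exact ((hasFDerivAt_id x).add ((hgd x (hUB hx)).const_smul t)).hasFDerivWithinAt
    have hcv := integral_image_eq_integral_abs_det_fderiv_smul (volume : Measure E)
      measurableSet_ball hFd hinj (fun _ => (1 : ℝ))
    rw [himg] at hcv
    have h1 : ∫ _x in U, (1 : ℝ) = V := by
      simp [hV]
    rw [h1] at hcv
    rw [hcv]
    refine setIntegral_congr_fun measurableSet_ball fun x hx => ?_
    have hpos := bfp_det_pos (A x) (hLb x (hUB hx)) ht htL
    simp [abs_of_pos hpos]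
  -- the Jacobian of `r` vanishes
  have hdet0 : ∀ x ∈ U, (r' x).det = 0 := by
    intro x hx
    by_contra hne
    have hsq : HasFDerivAt (fun y => ‖r y‖ ^ 2) (2 • (innerSL ℝ (r x)).comp (r' x)) x :=
      (hd x (hUB hx)).norm_sq
    have hconst : (fun y => ‖r y‖ ^ 2) =ᶠ[nhds x] fun _ => (1 : ℝ) := by
      filter_upwards [isOpen_ball.mem_nhds hx] with y hy
      rw [hn y (hUB hy)]; norm_num
    have hzero : HasFDerivAt (fun y => ‖r y‖ ^ 2) (0 : E →L[ℝ] ℝ) x :=
      (hasFDerivAt_const (1 : ℝ) x).congr_of_eventuallyEq hconst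
    have heq := hsq.unique hzero
    let e := LinearMap.equivOfDetNeZero ((r' x : E →L[ℝ] E) : E →ₗ[ℝ] E) hne
    obtain ⟨v, hv⟩ := e.surjective (r x)
    have hv' : r' x v = r x := hv
    have h2 := congrArg (fun T : E →L[ℝ] ℝ => T v) heq
    simp only [_root_.smul_apply, ContinuousLinearMap.comp_apply, hv',
      innerSL_apply_apply, _root_.zero_apply, real_inner_self_eq_norm_sq,
      hn x (hUB hx)] at h2
    norm_num at h2
  -- interpolation
  set n := Module.finrank ℝ E with hnE
  set v : Fin (n + 1) → ℝ := fun i => (i : ℝ) / ((n + 1) * (L + 1)) with hv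
  have hden : (0 : ℝ) < (n + 1) * (L + 1) := by positivity
  have hvinj : Function.Injective v := by
    intro i j hij
    have : (i : ℝ) = (j : ℝ) := by
      have := (div_left_inj' hden.ne').mp hij
      exact this
    exact Fin.ext (by exact_mod_cast this)
  have hv0 : ∀ i, 0 ≤ v i := fun i => by positivity
  have hv1 : ∀ i, v i * L < 1 := by
    intro i
    have hi : (i : ℝ) < n + 1 := by exact_mod_cast i.2
    rw [hv]
    simp only
    rw [div_mul_eq_mul_div, div_lt_one hden]
    have : (i : ℝ) * L ≤ (n + 1) * L := mul_le_mul_of_nonneg_right hi.le hL0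
    nlinarith
  obtain ⟨c, hcsum, hcint⟩ := bfp_interp n v hvinj
  have hpt : ∀ x, (r' x).det = ∑ i, c i * ((1 : E →L[ℝ] E) + v i • A x).det := by
    intro x
    obtain ⟨p, hpdeg, hp⟩ := bfp_det_poly (A x)
    have h1 := hcint p hpdeg
    rw [hp 1] at h1
    have h2 : (1 : E →L[ℝ] E) + (1 : ℝ) • A x = r' x := by simp [hA]
    rw [h2] at h1
    rw [h1]
    exact Finset.sum_congr rfl fun i _ => by rw [hp]
  have hintg : ∀ t : ℝ, IntegrableOn (fun x => ((1 : E →L[ℝ] E) + t • A x).det) U := by
    intro t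
    have hcont : ContinuousOn (fun x => ((1 : E →L[ℝ] E) + t • A x).det) B :=
      ContinuousLinearMap.continuous_det.comp_continuousOn
        (continuousOn_const.add (hAc.const_smul t))
    exact (hcont.integrableOn_compact hBc).mono_set hUB
  have hfinal : ∫ x in U, (r' x).det = V := by
    calc ∫ x in U, (r' x).det
        = ∫ x in U, ∑ i, c i * ((1 : E →L[ℝ] E) + v i • A x).det := by
          simp only [hpt]
      _ = ∑ i, ∫ x in U, c i * ((1 : E →L[ℝ] E) + v i • A x).det :=
          integral_finsetSum _ fun i _ => (hintg (v i)).const_mul (c i)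
      _ = ∑ i, c i * V := by
          refine Finset.sum_congr rfl fun i _ => ?_
          rw [integral_const_mul, hvol (v i) (hv0 i) (hv1 i)]
      _ = V := by rw [← Finset.sum_mul, hcsum, one_mul]
  have hzero : ∫ x in U, (r' x).det = 0 := by
    rw [setIntegral_congr_fun measurableSet_ball hdet0]
    simp
  rw [hzero] at hfinal
  exact hVpos.ne hfinal

end Claimed.Agent.Lib
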