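/-
Shared library (helper250): Brouwer's fixed point theorem for the closed unit ball of a
finite dimensional real inner product space.
-/
import Claimed.Agent.Lib.BrouwerVol

namespace Claimed.Agent.Lib

open Set Metric
open scoped RealInnerProductSpace

set_option linter.unusedSectionVars false

variable {E : Type*} [NormedAddCommGroup E] [InnerProductSpace ℝ E] [FiniteDimensional ℝ E]

/-- Brouwer for `C^1` self maps of the closed unit ball. -/
theorem bfp_brouwer_ball_smooth (p : E → E) (hp : ContDiff ℝ 1 p)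
    (hmaps : ∀ x ∈ closedBall (0 : E) 1, ‖p x‖ ≤ 1) :
    ∃ x ∈ closedBall (0 : E) 1, p x = x := by
  classical
  by_contra hno
  have hno' : ∀ x ∈ closedBall (0 : E) 1, p x ≠ x := fun x hx h => hno ⟨x, hx, h⟩
  set u : E → E := fun x => x - p x with hu
  set a : E → ℝ := fun x => ⟪x, u x⟫ with ha
  set q : E → ℝ := fun x => ‖u x‖ ^ 2 with hq
  set D : E → ℝ := fun x => a x ^ 2 + q x * (1 - ‖x‖ ^ 2) with hD
  set lam : E → ℝ := fun x => (-a x + Real.sqrt (D x)) / q x with hlam
  set r : E → E := fun x => x + lam x • u x with hr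
  have hqpos : ∀ x ∈ closedBall (0 : E) 1, 0 < q x := by
    intro x hx
    have : u x ≠ 0 := sub_ne_zero.mpr (hno' x hx).symm
    have := norm_pos_iff.mpr this
    positivity
  have hnx : ∀ x ∈ closedBall (0 : E) 1, ‖x‖ ≤ 1 := fun x hx => by simpa using hx
  have h2a : ∀ x, 2 * a x = ‖x‖ ^ 2 + q x - ‖p x‖ ^ 2 := by
    intro x
    have h1 : p x = x - u x := by simp [hu]
    have h2 : ‖p x‖ ^ 2 = ‖x‖ ^ 2 - 2 * ⟪x, u x⟫ + ‖u x‖ ^ 2 := by
      rw [h1]; exact norm_sub_sq_real x (u x)
    simp only [ha, hq]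
    linarith
  have hDpos : ∀ x ∈ closedBall (0 : E) 1, 0 < D x := by
    intro x hx
    have hq0 := hqpos x hx
    have hx1 := hnx x hx
    have hx0 := norm_nonneg x
    rcases hx1.eq_or_lt with h | h
    · have hpx := hmaps x hx
      have hpx0 := norm_nonneg (p x)
      have h3 := h2a x
      have hapos : 0 < a x := by
        rw [h] at h3
        nlinarith
      simp only [hD]
      rw [h]
      nlinarith
    · have : 0 < 1 - ‖x‖ ^ 2 := by nlinarith
      simp only [hD]
      have := mul_pos hq0 this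
      nlinarith [sq_nonneg (a x)]
  have hucd : ContDiff ℝ 1 u := contDiff_id.sub hp
  have hacd : ContDiff ℝ 1 a := contDiff_id.inner ℝ hucd
  have hqcd : ContDiff ℝ 1 q := hucd.norm_sq ℝ
  have hDcd : ContDiff ℝ 1 D :=
    (hacd.pow 2).add (hqcd.mul (contDiff_const.sub (contDiff_id.norm_sq ℝ)))
  have hrcd : ∀ x ∈ closedBall (0 : E) 1, ContDiffAt ℝ 1 r x := by
    intro x hx
    have h1 : ContDiffAt ℝ 1 (fun y => Real.sqrt (D y)) x :=
      hDcd.contDiffAt.sqrt (hDpos x hx).ne'
    have h2 : ContDiffAt ℝ 1 lam x :=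
      ((hacd.contDiffAt.neg).add h1).div hqcd.contDiffAt (hqpos x hx).ne'
    exact contDiffAt_id.add (h2.smul hucd.contDiffAt)
  have hnorm : ∀ x ∈ closedBall (0 : E) 1, ‖r x‖ = 1 := by
    intro x hx
    have hq0 := hqpos x hx
    have hD0 := hDpos x hx
    have hs : Real.sqrt (D x) ^ 2 = D x := Real.sq_sqrt hD0.le
    have h1 : ‖r x‖ ^ 2 = ‖x‖ ^ 2 + 2 * (lam x * a x) + lam x ^ 2 * q x := by
      simp only [hr]
      rw [norm_add_sq_real, inner_smul_right, norm_smul, mul_pow, Real.norm_eq_abs, sq_abs]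
    have h2 : lam x * q x = -a x + Real.sqrt (D x) := by
      simp only [hlam]; field_simp
    have h3 : ‖r x‖ ^ 2 = 1 := by
      have h4 : (2 * (lam x * a x) + lam x ^ 2 * q x) * q x = D x - a x ^ 2 := by
        have : (2 * (lam x * a x) + lam x ^ 2 * q x) * q x
            = 2 * a x * (lam x * q x) + (lam x * q x) ^ 2 := by ring
        rw [this, h2]
        nlinarith
      have h5 : D x - a x ^ 2 = q x * (1 - ‖x‖ ^ 2) := by simp only [hD]; ring
      have h6 : 2 * (lam x * a x) + lam x ^ 2 * q x = 1 - ‖x‖ ^ 2 := by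
        have : (2 * (lam x * a x) + lam x ^ 2 * q x) * q x = (1 - ‖x‖ ^ 2) * q x := by
          rw [h4, h5]; ring
        exact mul_right_cancel₀ hq0.ne' this
      rw [h1]; linarith
    have h0 := norm_nonneg (r x)
    nlinarith
  have hsph : ∀ x, ‖x‖ = 1 → r x = x := by
    intro x hx
    have hxB : x ∈ closedBall (0 : E) 1 := by simp [hx]
    have hq0 := hqpos x hxB
    have hpx := hmaps x hxB
    have hpx0 := norm_nonneg (p x)
    have h3 := h2a x
    have hapos : 0 < a x := by
      rw [hx] at h3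
      nlinarith
    have hDx : D x = a x ^ 2 := by simp only [hD]; rw [hx]; ring
    have hsq : Real.sqrt (D x) = a x := by rw [hDx]; exact Real.sqrt_sq hapos.le
    have hl : lam x = 0 := by simp only [hlam]; rw [hsq]; simp
    simp only [hr]; rw [hl]; simp
  let _ : MeasurableSpace E := borel E
  have _ : BorelSpace E := ⟨rfl⟩
  refine bfp_no_retraction r (fderiv ℝ r) ?_ ?_ hnorm hsph
  · intro x hx
    exact ((hrcd x hx).differentiableAt (by norm_num)).hasFDerivAt
  · intro x hx
    have : ContDiffAt ℝ 0 (fderiv ℝ r) x := (hrcd x hx).fderiv_right (by norm_num)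
    exact this.continuousAt.continuousWithinAt

/-- **Brouwer's fixed point theorem** for the closed unit ball (globally continuous map). -/
theorem bfp_brouwer_ball (f : E → E) (hf : Continuous f)
    (hmaps : ∀ x ∈ closedBall (0 : E) 1, f x ∈ closedBall (0 : E) 1) :
    ∃ x ∈ closedBall (0 : E) 1, f x = x := by
  by_contra hno
  have hno' : ∀ x ∈ closedBall (0 : E) 1, f x ≠ x := fun x hx h => hno ⟨x, hx, h⟩
  have hBc : IsCompact (closedBall (0 : E) 1) := isCompact_closedBall 0 1
  have hBne : (closedBall (0 : E) 1).Nonempty := ⟨0, by simp⟩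
  have hcont : ContinuousOn (fun x => ‖f x - x‖) (closedBall (0 : E) 1) :=
    (hf.sub continuous_id).norm.continuousOn
  obtain ⟨x0, hx0, hmin⟩ := hBc.exists_isMinOn hBne hcont
  set δ : ℝ := ‖f x0 - x0‖ with hδ
  have hδpos : 0 < δ := norm_pos_iff.mpr (sub_ne_zero.mpr (hno' x0 hx0))
  have hδle : ∀ x ∈ closedBall (0 : E) 1, δ ≤ ‖f x - x‖ := fun x hx => hmin hx
  set ε : ℝ := δ / 4 with hε
  have hεpos : 0 < ε := by positivity
  obtain ⟨g, hgcd, hgapprox, -⟩ :=
    hf.exists_contDiff_approx 1 (ε := fun _ => ε) continuous_const (fun _ => hεpos)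
  set p : E → E := fun x => (1 + ε)⁻¹ • g x with hp
  have hpcd : ContDiff ℝ 1 p := by
    have : ContDiff ℝ 1 g := by exact_mod_cast hgcd
    exact contDiff_const.smul this
  have hgn : ∀ x ∈ closedBall (0 : E) 1, ‖g x‖ ≤ 1 + ε := by
    intro x hx
    have h1 : ‖g x - f x‖ < ε := by simpa [dist_eq_norm] using hgapprox x
    have h2 : ‖f x‖ ≤ 1 := by simpa using hmaps x hx
    calc ‖g x‖ = ‖(g x - f x) + f x‖ := by congr 1; abel
      _ ≤ ‖g x - f x‖ + ‖f x‖ := norm_add_le _ _
      _ ≤ 1 + ε := by linarith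
  have h1ε : (0 : ℝ) < 1 + ε := by positivity
  have hpn : ∀ x ∈ closedBall (0 : E) 1, ‖p x‖ ≤ 1 := by
    intro x hx
    simp only [hp]
    rw [norm_smul, Real.norm_eq_abs, abs_of_pos (inv_pos.mpr h1ε), inv_mul_le_iff₀ h1ε, mul_one]
    exact hgn x hx
  obtain ⟨x, hx, hpx⟩ := bfp_brouwer_ball_smooth p hpcd hpn
  have h1 : ‖g x - f x‖ < ε := by simpa [dist_eq_norm] using hgapprox x
  have h2 : ‖g x - p x‖ ≤ ε := by
    have : g x - p x = (ε * (1 + ε)⁻¹) • g x := by
      simp only [hp]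
      have : (1 : ℝ) - (1 + ε)⁻¹ = ε * (1 + ε)⁻¹ := by field_simp; ring
      rw [← this, sub_smul, one_smul]
    rw [this, norm_smul, Real.norm_eq_abs, abs_of_pos (by positivity)]
    calc ε * (1 + ε)⁻¹ * ‖g x‖ ≤ ε * (1 + ε)⁻¹ * (1 + ε) :=
          mul_le_mul_of_nonneg_left (hgn x hx) (by positivity)
      _ = ε := by field_simp
  have h3 : ‖f x - x‖ < δ := by
    calc ‖f x - x‖ = ‖(f x - g x) + (g x - p x)‖ := by rw [← hpx]; congr 1; simp [hpx]
      _ ≤ ‖f x - g x‖ + ‖g x - p x‖ := norm_add_le _ _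
      _ < ε + ε := by rw [norm_sub_rev]; linarith
      _ < δ := by simp only [hε]; linarith
  exact absurd (hδle x hx) (not_le.mpr h3)

end Claimed.Agent.Lib
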