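/-
Shared library (helper250): Brouwer's fixed point theorem for nonempty compact convex subsets
of finite dimensional real (Hausdorff topological) vector spaces.
-/
import Claimed.Agent.Lib.BrouwerBall

namespace Claimed.Agent.Lib

open Set Metric
open scoped RealInnerProductSpace

set_option linter.unusedSectionVars false

section Inner

variable {E : Type*} [NormedAddCommGroup E] [InnerProductSpace ℝ E] [FiniteDimensional ℝ E]

/-- The metric projection onto a nonempty closed convex set: existence, variational inequality,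
`1`-Lipschitz, identity on the set. -/
theorem bfp_exists_proj {K : Set E} (hK : IsClosed K) (hc : Convex ℝ K) (hne : K.Nonempty) :
    ∃ P : E → E, (∀ x, P x ∈ K) ∧ (∀ x, ∀ w ∈ K, ⟪x - P x, w - P x⟫ ≤ 0) ∧
      LipschitzWith 1 P ∧ ∀ x ∈ K, P x = x := by
  have hex : ∀ x : E, ∃ v ∈ K, ∀ w ∈ K, ⟪x - v, w - v⟫ ≤ 0 := by
    intro x
    obtain ⟨v, hv, hmin⟩ := exists_norm_eq_iInf_of_complete_convex hne hK.isComplete hc x
    exact ⟨v, hv, (norm_eq_iInf_iff_real_inner_le_zero hc hv).mp hmin⟩
  choose P hPK hPvar using hex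
  refine ⟨P, hPK, hPvar, ?_, ?_⟩
  · refine LipschitzWith.of_dist_le_mul fun x y => ?_
    rw [dist_eq_norm, dist_eq_norm]
    simp only [NNReal.coe_one, one_mul]
    have h1 := hPvar x (P y) (hPK y)
    have h2 := hPvar y (P x) (hPK x)
    have h3 : ‖P x - P y‖ ^ 2 ≤ ⟪x - y, P x - P y⟫ := by
      have e1 : ⟪x - P x, P y - P x⟫ = -⟪x, P x - P y⟫ + ⟪P x, P x - P y⟫ := by
        rw [← neg_sub (P x) (P y), inner_neg_right, inner_sub_left]; ring
      have e2 : ⟪y - P y, P x - P y⟫ = ⟪y, P x - P y⟫ - ⟪P y, P x - P y⟫ := by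
        rw [inner_sub_left]
      have e3 : ‖P x - P y‖ ^ 2 = ⟪P x, P x - P y⟫ - ⟪P y, P x - P y⟫ := by
        rw [← real_inner_self_eq_norm_sq, inner_sub_left]
      have e4 : ⟪x - y, P x - P y⟫ = ⟪x, P x - P y⟫ - ⟪y, P x - P y⟫ := by
        rw [inner_sub_left]
      rw [e3, e4]; linarith
    have h4 : ⟪x - y, P x - P y⟫ ≤ ‖x - y‖ * ‖P x - P y‖ := real_inner_le_norm _ _
    have h5 := norm_nonneg (P x - P y)
    by_cases h0 : ‖P x - P y‖ = 0
    · rw [h0]; exact norm_nonneg _
    · have hpos : 0 < ‖P x - P y‖ := lt_of_le_of_ne h5 (Ne.symm h0)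
      have : ‖P x - P y‖ * ‖P x - P y‖ ≤ ‖x - y‖ * ‖P x - P y‖ := by nlinarith
      exact le_of_mul_le_mul_right this hpos
  · intro x hx
    have h := hPvar x x hx
    rw [real_inner_self_eq_norm_sq] at h
    have h0 : ‖x - P x‖ = 0 := by
      have := norm_nonneg (x - P x)
      nlinarith
    exact (sub_eq_zero.mp (norm_eq_zero.mp h0)).symm

/-- Brouwer's theorem for compact convex subsets of a finite dimensional inner product space. -/
theorem bfp_brouwer_inner {K : Set E} (hK : IsCompact K) (hc : Convex ℝ K) (hne : K.Nonempty)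
    (f : E → E) (hf : ContinuousOn f K) (hmaps : MapsTo f K K) : ∃ x ∈ K, f x = x := by
  obtain ⟨P, hPK, -, hPlip, hPid⟩ := bfp_exists_proj hK.isClosed hc hne
  obtain ⟨R, hRpos, hR⟩ : ∃ R : ℝ, 0 < R ∧ K ⊆ closedBall (0 : E) R := by
    obtain ⟨R, hR⟩ := hK.isBounded.subset_closedBall (0 : E)
    exact ⟨max R 1, by positivity, hR.trans (closedBall_subset_closedBall (le_max_left _ _))⟩
  have hfP : Continuous fun x => f (P x) := hf.comp_continuous hPlip.continuous hPK
  set h : E → E := fun x => R⁻¹ • f (P (R • x)) with hh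
  have hcont : Continuous h :=
    continuous_const.smul (hfP.comp (continuous_const.smul continuous_id))
  have hball : ∀ x ∈ closedBall (0 : E) 1, h x ∈ closedBall (0 : E) 1 := by
    intro x _
    have h1 : f (P (R • x)) ∈ closedBall (0 : E) R := hR (hmaps (hPK _))
    have h2 : ‖f (P (R • x))‖ ≤ R := by simpa using h1
    simp only [hh, mem_closedBall, dist_zero_right]
    rw [norm_smul, Real.norm_eq_abs, abs_of_pos (inv_pos.mpr hRpos), inv_mul_le_iff₀ hRpos, mul_one]
    exact h2
  obtain ⟨x, -, hx⟩ := bfp_brouwer_ball h hcont hball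
  have hy : f (P (R • x)) = R • x := by
    have := congrArg (fun z => R • z) hx
    simpa [hh, smul_smul, hRpos.ne'] using this
  have hyK : R • x ∈ K := hy ▸ hmaps (hPK _)
  refine ⟨R • x, hyK, ?_⟩
  rw [hPid _ hyK] at hy
  exact hy

end Inner

/-- **Brouwer's fixed point theorem**: a continuous self map of a nonempty compact convex subset
of a finite dimensional real Hausdorff topological vector space has a fixed point. -/
theorem bfp_brouwer {V : Type*} [AddCommGroup V] [Module ℝ V] [TopologicalSpace V]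
    [IsTopologicalAddGroup V] [ContinuousSMul ℝ V] [T2Space V] [FiniteDimensional ℝ V]
    {K : Set V} (hK : IsCompact K) (hc : Convex ℝ K) (hne : K.Nonempty)
    (f : V → V) (hf : ContinuousOn f K) (hmaps : MapsTo f K K) : ∃ x ∈ K, f x = x := by
  set e : V ≃L[ℝ] EuclideanSpace ℝ (Fin (Module.finrank ℝ V)) := toEuclidean with he
  have hK' : IsCompact (e '' K) := hK.image e.continuous
  have hc' : Convex ℝ (e '' K) := by
    have := hc.linear_image (e.toLinearEquiv.toLinearMap)
    exact this
  have hne' : (e '' K).Nonempty := hne.image e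
  have hsymm : MapsTo e.symm (e '' K) K := by
    rintro _ ⟨x, hx, rfl⟩; simpa using hx
  have hf' : ContinuousOn (fun y => e (f (e.symm y))) (e '' K) :=
    e.continuous.comp_continuousOn (hf.comp e.symm.continuous.continuousOn hsymm)
  have hmaps' : MapsTo (fun y => e (f (e.symm y))) (e '' K) (e '' K) :=
    fun y hy => ⟨_, hmaps (hsymm hy), rfl⟩
  obtain ⟨y, hy, hfix⟩ := bfp_brouwer_inner hK' hc' hne' _ hf' hmaps'
  refine ⟨e.symm y, hsymm hy, ?_⟩
  have := congrArg e.symm hfix
  simpa using this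

end Claimed.Agent.Lib
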