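/-
Shared library (helper250): Kakutani's fixed point theorem in finite dimension.
-/
import Claimed.Agent.Lib.BrouwerConvex

namespace Claimed.Agent.Lib

open Set Metric Filter Topology

variable {V : Type*} [NormedAddCommGroup V] [NormedSpace ℝ V] [FiniteDimensional ℝ V]

/-- Approximate fixed points of a convex valued correspondence (no closedness needed). -/
theorem bfp_kakutani_approx {K : Set V} (hK : IsCompact K) (hc : Convex ℝ K) (hne : K.Nonempty)
    (F : V → Set V) (hFne : ∀ x ∈ K, (F x).Nonempty) (hFK : ∀ x ∈ K, F x ⊆ K)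
    {ε : ℝ} (hε : 0 < ε) :
    ∃ x ∈ K, x ∈ convexHull ℝ (⋃ z ∈ K ∩ ball x ε, F z) := by
  classical
  set t : K → Set V := fun x => convexHull ℝ (⋃ z ∈ K ∩ ball (x : V) ε, F z) with ht
  have htc : ∀ x, Convex ℝ (t x) := fun x => convex_convexHull ℝ _
  have hloc : ∀ x : K, ∃ c : V, ∀ᶠ y in 𝓝 x, c ∈ t y := by
    intro x
    obtain ⟨c, hcx⟩ := hFne x x.2
    refine ⟨c, ?_⟩
    have hnear : ∀ᶠ y : K in 𝓝 x, dist y x < ε := Metric.ball_mem_nhds x hε
    filter_upwards [hnear] with y hy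
    apply subset_convexHull
    refine mem_iUnion₂.mpr ⟨(x : V), ⟨x.2, ?_⟩, hcx⟩
    rw [mem_ball, dist_comm]
    exact hy
  obtain ⟨g, hg⟩ := exists_continuous_forall_mem_convex_of_local_const htc hloc
  have htK : ∀ x : K, t x ⊆ K := by
    intro x
    refine convexHull_min ?_ hc
    exact iUnion₂_subset fun z hz => hFK z hz.1
  set f : V → V := fun v => if h : v ∈ K then g ⟨v, h⟩ else v with hf
  have hfK : ∀ v (h : v ∈ K), f v = g ⟨v, h⟩ := fun v h => by simp [hf, h]
  have hfc : ContinuousOn f K := by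
    rw [continuousOn_iff_continuous_domRestrict]
    have : K.domRestrict f = g := by
      funext x
      simp [Set.domRestrict, hfK x.1 x.2]
    rw [this]
    exact g.continuous
  have hmaps : MapsTo f K K := by
    intro v hv
    rw [hfK v hv]
    exact htK _ (hg _)
  obtain ⟨x, hx, hfix⟩ := bfp_brouwer hK hc hne f hfc hmaps
  refine ⟨x, hx, ?_⟩
  have := hg ⟨x, hx⟩
  rw [← hfK x hx, hfix] at this
  exact this

/-- **Kakutani's fixed point theorem.** -/
theorem bfp_kakutani {K : Set V} (hK : IsCompact K) (hc : Convex ℝ K) (hne : K.Nonempty)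
    (F : V → Set V)
    (hF : ∀ x ∈ K, (F x).Nonempty ∧ Convex ℝ (F x) ∧ F x ⊆ K)
    (hgraph : IsClosed {p : V × V | p.1 ∈ K ∧ p.2 ∈ F p.1}) :
    ∃ x ∈ K, x ∈ F x := by
  classical
  set G : Set (V × V) := {p : V × V | p.1 ∈ K ∧ p.2 ∈ F p.1} with hG
  have hGsub : G ⊆ K ×ˢ K := fun p hp => ⟨hp.1, (hF p.1 hp.1).2.2 hp.2⟩
  have hGc : IsCompact G := (hK.prod hK).of_isClosed_subset hgraph hGsub
  -- approximate fixed points
  have happ : ∀ n : ℕ, ∃ x ∈ K, x ∈ convexHull ℝ (⋃ z ∈ K ∩ ball x (1 / ((n : ℝ) + 1)), F z) :=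
    fun n => bfp_kakutani_approx hK hc hne F (fun x hx => (hF x hx).1)
      (fun x hx => (hF x hx).2.2) (by positivity)
  choose x hxK hx using happ
  obtain ⟨xs, hxsK, hcl⟩ : ∃ xs ∈ K, MapClusterPt xs atTop x :=
    hK.exists_mapClusterPt_of_frequently (Eventually.of_forall hxK).frequently
  refine ⟨xs, hxsK, ?_⟩
  have hFclosed : IsClosed (F xs) := by
    have : F xs = (fun y => (xs, y)) ⁻¹' G := by
      ext y; simp [hG, hxsK]
    rw [this]
    exact hgraph.preimage (by fun_prop)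
  rw [← hFclosed.closure_eq, Metric.mem_closure_iff]
  intro δ hδ
  -- upper hemicontinuity at `xs`
  set W : Set V := thickening (δ / 2) (F xs) with hW
  have hWo : IsOpen W := isOpen_thickening
  have hWc : Convex ℝ W := (hF xs hxsK).2.1.thickening _
  have hCc : IsCompact (G ∩ (univ ×ˢ Wᶜ)) :=
    hGc.inter_right (isClosed_univ.prod hWo.isClosed_compl)
  have hpc : IsClosed (Prod.fst '' (G ∩ (univ ×ˢ Wᶜ))) := (hCc.image continuous_fst).isClosed
  have hnot : xs ∉ Prod.fst '' (G ∩ (univ ×ˢ Wᶜ)) := by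
    rintro ⟨⟨a, b⟩, ⟨hab, -, hb⟩, rfl⟩
    exact hb (self_subset_thickening (by positivity) _ hab.2)
  obtain ⟨η, hη, hball⟩ := Metric.isOpen_iff.mp hpc.isOpen_compl xs hnot
  have huhc : ∀ z ∈ K, dist z xs < η → F z ⊆ W := by
    intro z hz hzd y hy
    by_contra hyW
    exact hball (mem_ball.mpr hzd) ⟨(z, y), ⟨⟨hz, hy⟩, mem_univ _, hyW⟩, rfl⟩
  -- choose a good index
  have hev : ∀ᶠ n : ℕ in atTop, 1 / ((n : ℝ) + 1) < η / 2 := by
    have : Tendsto (fun n : ℕ => 1 / ((n : ℝ) + 1)) atTop (𝓝 0) :=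
      tendsto_one_div_add_atTop_nhds_zero_nat
    exact this.eventually (gt_mem_nhds (by positivity))
  have hfreq : ∃ᶠ n in atTop, x n ∈ ball xs (min (η / 2) (δ / 2)) :=
    hcl.frequently (ball_mem_nhds xs (by positivity))
  obtain ⟨n, hn1, hn2⟩ := (hfreq.and_eventually hev).exists
  have hd1 : dist (x n) xs < η / 2 := lt_of_lt_of_le (mem_ball.mp hn1) (min_le_left _ _)
  have hd2 : dist (x n) xs < δ / 2 := lt_of_lt_of_le (mem_ball.mp hn1) (min_le_right _ _)
  have hsub : (⋃ z ∈ K ∩ ball (x n) (1 / ((n : ℝ) + 1)), F z) ⊆ W := by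
    refine iUnion₂_subset fun z hz => huhc z hz.1 ?_
    calc dist z xs ≤ dist z (x n) + dist (x n) xs := dist_triangle _ _ _
      _ < η / 2 + η / 2 := add_lt_add (lt_trans (mem_ball.mp hz.2) hn2) hd1
      _ = η := by ring
  have hxW : x n ∈ W := convexHull_min hsub hWc (hx n)
  obtain ⟨w, hw, hwd⟩ := mem_thickening_iff.mp hxW
  refine ⟨w, hw, ?_⟩
  calc dist xs w ≤ dist xs (x n) + dist (x n) w := dist_triangle _ _ _
    _ < δ / 2 + δ / 2 := add_lt_add (by rwa [dist_comm]) hwd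
    _ = δ := by ring

end Claimed.Agent.Lib
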