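import Mathlib
import Claimed.Agent.Lib.Kakutani
import Claimed.Agent.Lib.BfpProj

/-!
# Corollaries of Brouwer's fixed point theorem

Shared library (owner helper217).  Prefix `bfp`.

* `bfp_hartman_stampacchia` : variational inequality on a compact convex set;
* `bfp_no_continuous_retraction` : no continuous retraction of a closed ball onto its sphere;
* `bfp_zero_of_inner_nonneg`, `bfp_zero_of_inner_nonpos` : a continuous field on a closed ball
  pointing outward (inward) on the sphere has a zero;
* `bfp_poincare_miranda` : Poincaré--Miranda theorem on a box.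
-/

set_option autoImplicit false

namespace Claimed.Agent.Lib

open scoped RealInnerProductSpace
open Metric Set

section inner

variable {E : Type*} [NormedAddCommGroup E] [InnerProductSpace ℝ E] [FiniteDimensional ℝ E]

/-- **Hartman--Stampacchia**: a continuous field `F` on a nonempty compact convex set `K` admits
`x ∈ K` with `⟪F x, y - x⟫ ≥ 0` for all `y ∈ K`. -/
theorem bfp_hartman_stampacchia {K : Set E} (hK : IsCompact K) (hc : Convex ℝ K)
    (hne : K.Nonempty) (F : E → E) (hF : ContinuousOn F K) :
    ∃ x ∈ K, ∀ y ∈ K, 0 ≤ ⟪F x, y - x⟫ := by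
  have hcomp : IsComplete K := hK.isComplete
  set g : E → E := fun x => bfpProj K (x - F x) with hg
  have hgc : ContinuousOn g K :=
    (bfpProj_continuous hne hcomp hc).comp_continuousOn (continuousOn_id.sub hF)
  have hgm : MapsTo g K K := fun x _ => bfpProj_mem hne hcomp hc _
  obtain ⟨x, hx, hfix⟩ := bfp_brouwer hK hc hne g hgc hgm
  refine ⟨x, hx, ?_⟩
  intro y hy
  have h := bfpProj_inner_le hne hcomp hc (x - F x) hy
  have hfix' : bfpProj K (x - F x) = x := hfix
  rw [hfix'] at h
  have e : x - F x - x = -F x := by abel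
  rw [e, inner_neg_left] at h
  linarith

/-- A continuous field on a closed ball with `⟪F x, x⟫ ≥ 0` on the sphere has a zero. -/
theorem bfp_zero_of_inner_nonneg {R : ℝ} (hR : 0 < R) (F : E → E)
    (hF : ContinuousOn F (closedBall (0:E) R))
    (hb : ∀ x : E, ‖x‖ = R → 0 ≤ ⟪F x, x⟫) : ∃ x ∈ closedBall (0:E) R, F x = 0 := by
  obtain ⟨x, hx, hvi⟩ := bfp_hartman_stampacchia (isCompact_closedBall (0:E) R)
    (convex_closedBall 0 R) ⟨0, by simp [hR.le]⟩ F hF
  refine ⟨x, hx, ?_⟩
  have hxR : ‖x‖ ≤ R := by simpa using hx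
  by_contra hne
  have hpos : 0 < ‖F x‖ := norm_pos_iff.mpr hne
  rcases lt_or_eq_of_le hxR with hlt | heq
  · -- interior point: move against `F x`
    set δ := (R - ‖x‖) / ‖F x‖ with hδ
    have hδpos : 0 < δ := div_pos (by linarith) hpos
    have hy : x - δ • F x ∈ closedBall (0:E) R := by
      have : ‖x - δ • F x‖ ≤ R := by
        calc ‖x - δ • F x‖ ≤ ‖x‖ + ‖δ • F x‖ := norm_sub_le _ _
          _ = ‖x‖ + δ * ‖F x‖ := by rw [norm_smul, Real.norm_of_nonneg hδpos.le]
          _ = ‖x‖ + (R - ‖x‖) := by rw [hδ]; field_simp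
          _ = R := by ring
      simpa using this
    have h := hvi _ hy
    have e : x - δ • F x - x = -(δ • F x) := by abel
    rw [e, inner_neg_right, inner_smul_right, real_inner_self_eq_norm_mul_norm] at h
    have : 0 < δ * (‖F x‖ * ‖F x‖) := by positivity
    linarith
  · -- boundary point
    have h1 := hb x heq
    have hy : -((R / ‖F x‖) • F x) ∈ closedBall (0:E) R := by
      have : ‖-((R / ‖F x‖) • F x)‖ ≤ R := by
        rw [norm_neg, norm_smul, Real.norm_of_nonneg (div_nonneg hR.le hpos.le)]
        have : R / ‖F x‖ * ‖F x‖ = R := by field_simp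
        rw [this]
      simpa using this
    have h := hvi _ hy
    rw [inner_sub_right, inner_neg_right, inner_smul_right, real_inner_self_eq_norm_mul_norm] at h
    have e : R / ‖F x‖ * (‖F x‖ * ‖F x‖) = R * ‖F x‖ := by field_simp
    rw [e] at h
    have : 0 < R * ‖F x‖ := mul_pos hR hpos
    linarith

/-- A continuous field on a closed ball with `⟪F x, x⟫ ≤ 0` on the sphere has a zero. -/
theorem bfp_zero_of_inner_nonpos {R : ℝ} (hR : 0 < R) (F : E → E)
    (hF : ContinuousOn F (closedBall (0:E) R))
    (hb : ∀ x : E, ‖x‖ = R → ⟪F x, x⟫ ≤ 0) : ∃ x ∈ closedBall (0:E) R, F x = 0 := by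
  obtain ⟨x, hx, h0⟩ := bfp_zero_of_inner_nonneg hR (fun x => -F x) hF.neg
    (fun x hx => by rw [inner_neg_left]; linarith [hb x hx])
  exact ⟨x, hx, neg_eq_zero.1 h0⟩

/-- **No continuous retraction** of a closed ball onto its boundary sphere. -/
theorem bfp_no_continuous_retraction {R : ℝ} (hR : 0 < R) (r : E → E)
    (hr : ContinuousOn r (closedBall (0:E) R))
    (hsph : ∀ x ∈ closedBall (0:E) R, ‖r x‖ = R) (hfix : ∀ x : E, ‖x‖ = R → r x = x) : False := by
  obtain ⟨x, hx, h0⟩ := bfp_zero_of_inner_nonneg hR r hr (fun x hx => by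
    rw [hfix x hx]; exact real_inner_self_nonneg)
  have := hsph x hx
  rw [h0, norm_zero] at this
  linarith

end inner

section box

variable {ι : Type*} [Fintype ι]

/-- **Poincaré--Miranda theorem** on a box `∏ [a i, b i]`. -/
theorem bfp_poincare_miranda (a b : ι → ℝ) (hab : ∀ i, a i ≤ b i) (F : (ι → ℝ) → ι → ℝ)
    (hF : ContinuousOn F (Set.Icc a b))
    (hlo : ∀ x ∈ Set.Icc a b, ∀ i, x i = a i → F x i ≤ 0)
    (hhi : ∀ x ∈ Set.Icc a b, ∀ i, x i = b i → 0 ≤ F x i) :
    ∃ x ∈ Set.Icc a b, F x = 0 := by
  set K := Set.Icc a b with hK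
  have hKc : IsCompact K := isCompact_Icc
  have hKconv : Convex ℝ K := convex_Icc a b
  have hKne : K.Nonempty := ⟨a, ⟨le_refl a, hab⟩⟩
  set g : (ι → ℝ) → ι → ℝ := fun x i => max (a i) (min (b i) (x i - F x i)) with hg
  have hgc : ContinuousOn g K := by
    refine continuousOn_pi.2 (fun i => ?_)
    have h1 : ContinuousOn (fun x : ι → ℝ => x i - F x i) K :=
      ((continuous_apply i).continuousOn).sub ((continuous_apply i).comp_continuousOn hF)
    exact ContinuousOn.sup continuousOn_const (ContinuousOn.inf continuousOn_const h1)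
  have hgm : MapsTo g K K := by
    intro x _
    refine ⟨fun i => le_max_left _ _, fun i => ?_⟩
    exact max_le (hab i) (min_le_left _ _)
  obtain ⟨x, hx, hfix⟩ := bfp_brouwer hKc hKconv hKne g hgc hgm
  refine ⟨x, hx, ?_⟩
  funext i
  have hi : max (a i) (min (b i) (x i - F x i)) = x i := congrFun hfix i
  have hxa : a i ≤ x i := hx.1 i
  have hxb : x i ≤ b i := hx.2 i
  show F x i = 0
  by_contra hne
  rcases lt_or_gt_of_ne hne with hneg | hpos
  · -- `F x i < 0`, so `x i - F x i > x i`
    have h1 : x i < x i - F x i := by linarith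
    by_cases hb' : x i = b i
    · have := hhi x hx i hb'
      linarith
    · have hlt : x i < b i := lt_of_le_of_ne hxb hb'
      have h2 : x i < min (b i) (x i - F x i) := lt_min hlt h1
      have h3 : x i < max (a i) (min (b i) (x i - F x i)) := lt_max_of_lt_right h2
      linarith
  · have h1 : x i - F x i < x i := by linarith
    by_cases ha' : x i = a i
    · have := hlo x hx i ha'
      linarith
    · have hlt : a i < x i := lt_of_le_of_ne hxa (Ne.symm ha')
      have h2 : min (b i) (x i - F x i) < x i := lt_of_le_of_lt (min_le_right _ _) h1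
      have h3 : max (a i) (min (b i) (x i - F x i)) < x i := max_lt hlt h2
      linarith

end box

end Claimed.Agent.Lib
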