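import Mathlib

/-!
# Kuhn mesh: explicit barycentric weights of the Freudenthal--Kuhn triangulation

Shared library (owner helper217).  Prefix `kuhn`.

For `y : ι → ℝ` and a lattice point `z : ι → ℤ` put
`kuhnW z y = length {u ∈ [0,1) | ∀ i, ⌊y i + u⌋ = z i}`.
These are the barycentric coordinates of `y` in the Freudenthal--Kuhn triangulation of `ℝ^ι`:
continuous in `y`, nonnegative, summing to one, at most `card ι + 1` of them nonzero, and
`|z i - y i| < 1` whenever `kuhnW z y ≠ 0`.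

`kuhn_mesh` packages this as a replacement for "take a fine triangulation of a compact set and use
barycentric coordinates".
-/

set_option autoImplicit false

namespace Claimed.Agent.Lib

open MeasureTheory Set

variable {ι : Type*} [Fintype ι]

/-- lower end of the cell of `z` -/
noncomputable def kuhnLo (z : ι → ℤ) (y : ι → ℝ) : ℝ :=
  (Finset.univ : Finset (Option ι)).sup' Finset.univ_nonempty
    (fun o => o.elim 0 (fun i => (z i : ℝ) - y i))

/-- upper end of the cell of `z` -/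
noncomputable def kuhnHi (z : ι → ℤ) (y : ι → ℝ) : ℝ :=
  (Finset.univ : Finset (Option ι)).inf' Finset.univ_nonempty
    (fun o => o.elim 1 (fun i => (z i : ℝ) + 1 - y i))

/-- the Kuhn weight of the lattice point `z` at `y` -/
noncomputable def kuhnW (z : ι → ℤ) (y : ι → ℝ) : ℝ := max (kuhnHi z y - kuhnLo z y) 0

/-- the set of shifts `u` that round `y` to `z` -/
def kuhnCell (z : ι → ℤ) (y : ι → ℝ) : Set ℝ := {u | u ∈ Ico (0:ℝ) 1 ∧ ∀ i, ⌊y i + u⌋ = z i}

theorem kuhnLo_le_iff (z : ι → ℤ) (y : ι → ℝ) (u : ℝ) :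
    kuhnLo z y ≤ u ↔ 0 ≤ u ∧ ∀ i, (z i : ℝ) - y i ≤ u := by
  unfold kuhnLo
  rw [Finset.sup'_le_iff]
  constructor
  · intro h
    exact ⟨h none (Finset.mem_univ _), fun i => h (some i) (Finset.mem_univ _)⟩
  · rintro ⟨h0, h⟩ o _
    cases o with
    | none => exact h0
    | some i => exact h i

theorem lt_kuhnHi_iff (z : ι → ℤ) (y : ι → ℝ) (u : ℝ) :
    u < kuhnHi z y ↔ u < 1 ∧ ∀ i, u < (z i : ℝ) + 1 - y i := by
  unfold kuhnHi
  rw [Finset.lt_inf'_iff]
  constructor
  · intro h
    exact ⟨h none (Finset.mem_univ _), fun i => h (some i) (Finset.mem_univ _)⟩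
  · rintro ⟨h0, h⟩ o _
    cases o with
    | none => exact h0
    | some i => exact h i

theorem kuhnCell_eq (z : ι → ℤ) (y : ι → ℝ) : kuhnCell z y = Ico (kuhnLo z y) (kuhnHi z y) := by
  ext u
  rw [mem_Ico, kuhnLo_le_iff, lt_kuhnHi_iff]
  show (u ∈ Ico (0:ℝ) 1 ∧ ∀ i, ⌊y i + u⌋ = z i) ↔ _
  simp only [mem_Ico, Int.floor_eq_iff]
  constructor
  · rintro ⟨⟨h0, h1⟩, h⟩
    exact ⟨⟨h0, fun i => by linarith [(h i).1]⟩, ⟨h1, fun i => by linarith [(h i).2]⟩⟩
  · rintro ⟨⟨h0, h⟩, ⟨h1, h'⟩⟩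
    exact ⟨⟨h0, h1⟩, fun i => ⟨by linarith [h i], by linarith [h' i]⟩⟩

theorem kuhnW_eq (z : ι → ℤ) (y : ι → ℝ) : kuhnW z y = volume.real (kuhnCell z y) := by
  rw [kuhnCell_eq, Real.volume_real_Ico, kuhnW]

theorem kuhnW_nonneg (z : ι → ℤ) (y : ι → ℝ) : 0 ≤ kuhnW z y := le_max_right _ _

theorem kuhnW_continuous (z : ι → ℤ) : Continuous (kuhnW z) := by
  unfold kuhnW kuhnHi kuhnLo
  refine Continuous.max (Continuous.sub ?_ ?_) continuous_const
  · refine Continuous.finset_inf'_apply _ (fun o _ => ?_)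
    cases o with
    | none => exact continuous_const
    | some i => exact continuous_const.sub (continuous_apply i)
  · refine Continuous.finset_sup'_apply _ (fun o _ => ?_)
    cases o with
    | none => exact continuous_const
    | some i => exact continuous_const.sub (continuous_apply i)

theorem kuhnCell_measurable (z : ι → ℤ) (y : ι → ℝ) : MeasurableSet (kuhnCell z y) := by
  rw [kuhnCell_eq]; exact measurableSet_Ico

theorem kuhnCell_nonempty_of_ne {z : ι → ℤ} {y : ι → ℝ} (h : kuhnW z y ≠ 0) :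
    (kuhnCell z y).Nonempty := by
  by_contra hne
  rw [Set.not_nonempty_iff_eq_empty] at hne
  rw [kuhnW_eq, hne] at h
  simp at h

omit [Fintype ι] in
theorem kuhnCell_disjoint (y : ι → ℝ) {z z' : ι → ℤ} (h : z ≠ z') :
    Disjoint (kuhnCell z y) (kuhnCell z' y) := by
  rw [Set.disjoint_left]
  intro u hu hu'
  apply h
  funext i
  rw [← hu.2 i, ← hu'.2 i]

/-- closeness: an active lattice point is within sup-distance `1` of `y`. -/
theorem kuhnW_close {z : ι → ℤ} {y : ι → ℝ} (h : kuhnW z y ≠ 0) (i : ι) :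
    |(z i : ℝ) - y i| < 1 := by
  obtain ⟨u, hu, hz⟩ := kuhnCell_nonempty_of_ne h
  have := Int.floor_eq_iff.1 (hz i)
  rw [abs_lt]
  constructor <;> linarith [this.1, this.2, hu.1, hu.2]

/-- the weights sum to one over any finite set containing all roundings of `y`. -/
theorem kuhnW_sum (y : ι → ℝ) (J : Finset (ι → ℤ))
    (hJ : ∀ u ∈ Ico (0:ℝ) 1, (fun i => ⌊y i + u⌋) ∈ J) : ∑ z ∈ J, kuhnW z y = 1 := by
  have h1 : ∑ z ∈ J, kuhnW z y = volume.real (⋃ z ∈ J, kuhnCell z y) := by
    rw [measureReal_biUnion_finset (fun z _ z' _ hne => kuhnCell_disjoint y hne)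
      (fun z _ => kuhnCell_measurable z y) (fun z _ => by rw [kuhnCell_eq]; simp)]
    exact Finset.sum_congr rfl (fun z _ => kuhnW_eq z y)
  have h2 : (⋃ z ∈ J, kuhnCell z y) = Ico (0:ℝ) 1 := by
    ext u
    simp only [mem_iUnion, exists_prop]
    constructor
    · rintro ⟨z, -, hu⟩
      exact hu.1
    · intro hu
      exact ⟨_, hJ u hu, hu, fun i => rfl⟩
  rw [h1, h2, Real.volume_real_Ico]
  norm_num

/-- at most `card ι + 1` weights are nonzero. -/
theorem kuhnW_card (y : ι → ℝ) (J : Finset (ι → ℤ)) :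
    (J.filter (fun z => kuhnW z y ≠ 0)).card ≤ Fintype.card ι + 1 := by
  classical
  set A := J.filter (fun z => kuhnW z y ≠ 0) with hA
  set ρ : (ι → ℤ) → ℤ := fun z => ∑ i, (z i - ⌊y i⌋) with hρ
  have hact : ∀ z ∈ A, ∃ u ∈ Ico (0:ℝ) 1, ∀ i, ⌊y i + u⌋ = z i := by
    intro z hz
    obtain ⟨u, hu⟩ := kuhnCell_nonempty_of_ne (Finset.mem_filter.1 hz).2
    exact ⟨u, hu.1, hu.2⟩
  have hrange : ∀ z ∈ A, ∀ i, 0 ≤ z i - ⌊y i⌋ ∧ z i - ⌊y i⌋ ≤ 1 := by
    intro z hz i
    obtain ⟨u, hu, h⟩ := hact z hz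
    rw [← h i]
    constructor
    · have : ⌊y i⌋ ≤ ⌊y i + u⌋ := Int.floor_le_floor (by linarith [hu.1])
      linarith
    · have : ⌊y i + u⌋ ≤ ⌊y i + 1⌋ := Int.floor_le_floor (by linarith [hu.2])
      rw [Int.floor_add_one] at this
      linarith
  have hmaps : ∀ z ∈ A, ρ z ∈ Finset.Icc (0:ℤ) (Fintype.card ι) := by
    intro z hz
    rw [Finset.mem_Icc]
    constructor
    · exact Finset.sum_nonneg (fun i _ => (hrange z hz i).1)
    · calc ρ z ≤ ∑ _i : ι, (1:ℤ) := Finset.sum_le_sum (fun i _ => (hrange z hz i).2)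
        _ = Fintype.card ι := by simp
  have hle_eq : ∀ z ∈ A, ∀ z' ∈ A, (∀ i, z i ≤ z' i) → ρ z = ρ z' → z = z' := by
    intro z _ z' _ hle hρeq
    have h0 : ∑ i, (z' i - z i) = 0 := by
      have : ∑ i, (z' i - z i) = ρ z' - ρ z := by
        simp only [hρ, ← Finset.sum_sub_distrib]
        exact Finset.sum_congr rfl (fun i _ => by ring)
      rw [this, hρeq]; ring
    have h1 := (Finset.sum_eq_zero_iff_of_nonneg (fun i _ => by linarith [hle i])).1 h0
    funext i
    have := h1 i (Finset.mem_univ i)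
    linarith
  have hinj : Set.InjOn ρ (A : Set (ι → ℤ)) := by
    intro z hz z' hz' hρeq
    obtain ⟨u, _, h⟩ := hact z hz
    obtain ⟨u', _, h'⟩ := hact z' hz'
    rcases le_total u u' with hle | hle
    · refine hle_eq z hz z' hz' (fun i => ?_) hρeq
      rw [← h i, ← h' i]
      exact Int.floor_le_floor (by linarith)
    · refine (hle_eq z' hz' z hz (fun i => ?_) hρeq.symm).symm
      rw [← h i, ← h' i]
      exact Int.floor_le_floor (by linarith)
  have := Finset.card_le_card_of_injOn ρ hmaps hinj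
  simpa using this

/-- barycentre property: the weighted average of the active lattice points is `y`. -/
theorem kuhnW_barycenter (y : ι → ℝ) (J : Finset (ι → ℤ))
    (hJ : ∀ u ∈ Ico (0:ℝ) 1, (fun i => ⌊y i + u⌋) ∈ J) (i : ι) :
    ∑ z ∈ J, kuhnW z y * (z i : ℝ) = y i := by
  classical
  set n := ⌊y i⌋ with hn
  set J1 := J.filter (fun z => z i = n + 1) with hJ1
  -- each term
  have hterm : ∀ z ∈ J, kuhnW z y * ((z i : ℝ) - n) = if z i = n + 1 then kuhnW z y else 0 := by
    intro z _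
    by_cases h0 : kuhnW z y = 0
    · simp [h0]
    · obtain ⟨u, hu, hz⟩ := kuhnCell_nonempty_of_ne h0
      have h1 : n ≤ z i := by
        rw [← hz i]; exact Int.floor_le_floor (by linarith [hu.1])
      have h2 : z i ≤ n + 1 := by
        rw [← hz i, hn, ← Int.floor_add_one]; exact Int.floor_le_floor (by linarith [hu.2])
      by_cases h3 : z i = n + 1
      · rw [if_pos h3, h3]; push_cast; ring
      · have h4 : z i = n := by omega
        rw [if_neg h3, h4]; ring
  have hsum1 : ∑ z ∈ J, kuhnW z y * ((z i : ℝ) - n) = ∑ z ∈ J1, kuhnW z y := by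
    rw [Finset.sum_congr rfl hterm, hJ1, Finset.sum_filter]
  have hvol : ∑ z ∈ J1, kuhnW z y = volume.real (⋃ z ∈ J1, kuhnCell z y) := by
    rw [measureReal_biUnion_finset (fun z _ z' _ hne => kuhnCell_disjoint y hne)
      (fun z _ => kuhnCell_measurable z y) (fun z _ => by rw [kuhnCell_eq]; simp)]
    exact Finset.sum_congr rfl (fun z _ => kuhnW_eq z y)
  have hset : (⋃ z ∈ J1, kuhnCell z y) = Ico (1 - Int.fract (y i)) 1 := by
    ext u
    simp only [mem_iUnion, exists_prop, mem_Ico]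
    have hfr : y i = n + Int.fract (y i) := by rw [hn]; exact (Int.floor_add_fract (y i)).symm
    have hf0 := Int.fract_nonneg (y i)
    have hf1 := Int.fract_lt_one (y i)
    constructor
    · rintro ⟨z, hz, hu, hzz⟩
      have hzi : z i = n + 1 := (Finset.mem_filter.1 hz).2
      have := Int.floor_eq_iff.1 (hzz i)
      rw [hzi] at this
      push_cast at this
      exact ⟨by linarith [this.1], hu.2⟩
    · rintro ⟨h1, h2⟩
      have hu : u ∈ Ico (0:ℝ) 1 := ⟨by linarith, h2⟩
      refine ⟨fun j => ⌊y j + u⌋, ?_, hu, fun j => rfl⟩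
      rw [hJ1, Finset.mem_filter]
      refine ⟨hJ u hu, ?_⟩
      show ⌊y i + u⌋ = n + 1
      rw [Int.floor_eq_iff]
      push_cast
      constructor <;> linarith
  have hfr : volume.real (Ico (1 - Int.fract (y i)) 1) = Int.fract (y i) := by
    rw [Real.volume_real_Ico]
    have := Int.fract_nonneg (y i)
    rw [max_eq_left (by linarith)]; ring
  have htot := kuhnW_sum y J hJ
  have hsplit : ∑ z ∈ J, kuhnW z y * (z i : ℝ)
      = ∑ z ∈ J, kuhnW z y * ((z i : ℝ) - n) + n * ∑ z ∈ J, kuhnW z y := by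
    rw [Finset.mul_sum, ← Finset.sum_add_distrib]
    exact Finset.sum_congr rfl (fun z _ => by ring)
  rw [hsplit, hsum1, hvol, hset, hfr, htot, hn]
  have := Int.floor_add_fract (y i)
  linarith

/-- **Kuhn mesh.**  Replacement for "triangulate a compact set finely and use barycentric
coordinates": finitely many mesh vertices `vtx z ∈ K`, continuous nonnegative weights summing to
one on `K`, a vertex being active at `x` only if it is `ε`-close to `x`, and at most
`card ι + 1` active vertices at every point. -/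
theorem kuhn_mesh {K : Set (ι → ℝ)} (hK : Bornology.IsBounded K) (hne : K.Nonempty) {ε : ℝ}
    (hε : 0 < ε) :
    ∃ (J : Finset (ι → ℤ)) (vtx : (ι → ℤ) → ι → ℝ) (w : (ι → ℤ) → (ι → ℝ) → ℝ),
      (∀ z, vtx z ∈ K) ∧ (∀ z, Continuous (w z)) ∧ (∀ z x, 0 ≤ w z x) ∧
      (∀ x ∈ K, ∑ z ∈ J, w z x = 1) ∧
      (∀ x ∈ K, ∀ z, w z x ≠ 0 → dist (vtx z) x ≤ ε) ∧
      (∀ x, (J.filter (fun z => w z x ≠ 0)).card ≤ Fintype.card ι + 1) := by
  classical
  obtain ⟨p₀, hp₀⟩ := hne
  set η := ε / 2 with hη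
  have hηpos : 0 < η := by positivity
  obtain ⟨M, hM⟩ := hK.subset_closedBall (0 : ι → ℝ)
  have hMi : ∀ x ∈ K, ∀ i, |x i| ≤ M := by
    intro x hx i
    have h1 : ‖x‖ ≤ M := by simpa using hM hx
    exact le_trans (by simpa using norm_le_pi_norm x i) h1
  set N : ℤ := ⌈M / η⌉ + 1 with hN
  set J : Finset (ι → ℤ) := Fintype.piFinset (fun _ => Finset.Icc (-N) N) with hJ
  set lat : (ι → ℤ) → ι → ℝ := fun z i => η * (z i : ℝ) with hlat
  set vtx : (ι → ℤ) → ι → ℝ := fun z =>
    if h : ∃ p ∈ K, dist p (lat z) ≤ η then h.choose else p₀ with hvtx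
  set w : (ι → ℤ) → (ι → ℝ) → ℝ := fun z x => kuhnW z (fun i => x i / η) with hw
  refine ⟨J, vtx, w, ?_, ?_, ?_, ?_, ?_, ?_⟩
  · intro z
    simp only [hvtx]
    split_ifs with h
    · exact h.choose_spec.1
    · exact hp₀
  · intro z
    refine (kuhnW_continuous z).comp ?_
    refine continuous_pi (fun i => ?_)
    have h1 : Continuous (fun a : ι → ℝ => a i) := continuous_apply i
    exact h1.div_const η
  · intro z x
    exact kuhnW_nonneg _ _
  · intro x hx
    refine kuhnW_sum _ J ?_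
    intro u hu
    rw [hJ, Fintype.mem_piFinset]
    intro i
    rw [Finset.mem_Icc]
    have h1 := abs_le.1 (hMi x hx i)
    have h2 : M / η ≤ ⌈M / η⌉ := Int.le_ceil _
    have h3 : x i / η ≤ M / η := div_le_div_of_nonneg_right h1.2 hηpos.le
    have h4 : -(M / η) ≤ x i / η := by
      rw [← neg_div]; exact div_le_div_of_nonneg_right h1.1 hηpos.le
    constructor
    · rw [Int.le_floor, hN]
      push_cast
      linarith [hu.1]
    · have : (⌊x i / η + u⌋ : ℝ) ≤ x i / η + u := Int.floor_le _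
      have h5 : (⌊x i / η + u⌋ : ℝ) < (N : ℝ) := by
        rw [hN]; push_cast; linarith [hu.2]
      exact le_of_lt (by exact_mod_cast h5)
  · intro x hx z hz
    have hclose : dist x (lat z) ≤ η := by
      rw [dist_pi_le_iff hηpos.le]
      intro i
      have := kuhnW_close hz i
      rw [Real.dist_eq, abs_sub_comm]
      simp only [hlat]
      have e : η * (z i : ℝ) - x i = η * ((z i : ℝ) - x i / η) := by field_simp
      rw [e, abs_mul, abs_of_pos hηpos]
      nlinarith [abs_nonneg ((z i : ℝ) - x i / η)]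
    have hex : ∃ p ∈ K, dist p (lat z) ≤ η := ⟨x, hx, hclose⟩
    have hv : dist (vtx z) (lat z) ≤ η := by
      simp only [hvtx]
      rw [dif_pos hex]
      exact hex.choose_spec.2
    calc dist (vtx z) x ≤ dist (vtx z) (lat z) + dist (lat z) x := dist_triangle _ _ _
      _ ≤ η + η := by rw [dist_comm (lat z) x]; linarith
      _ = ε := by rw [hη]; ring
  · intro x
    exact kuhnW_card _ J

end Claimed.Agent.Lib
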