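/-
Shared library (helper250): the finite "prices versus mixtures" duality (a form of Farkas' lemma /
von Neumann minimax): if for every nonnegative price vector some menu item is at most as
expensive as the bound, then some mixture of the menu is coordinatewise below the bound.
-/
import Mathlib

namespace Claimed.Agent.Lib

open Set

/-- **Prices versus mixtures.** -/
theorem bfp_lp_mixture {I D : Type*} [Fintype I] [Nonempty I] [Fintype D]
    (v : I → D → ℝ) (β : D → ℝ)
    (h : ∀ π : D → ℝ, (∀ d, 0 ≤ π d) → ∃ i, ∑ d, π d * v i d ≤ ∑ d, π d * β d) :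
    ∃ w ∈ stdSimplex ℝ I, ∀ d, ∑ i, w i * v i d ≤ β d := by
  classical
  by_contra hno
  set Φ : (I → ℝ) → (D → ℝ) := fun w d => ∑ i, w i * v i d with hΦ
  have hΦc : Continuous Φ := by
    simp only [hΦ]; fun_prop
  set S : Set (D → ℝ) := Φ '' stdSimplex ℝ I with hS
  set T : Set (D → ℝ) := {y | ∀ d, y d ≤ β d} with hT
  have hSc : IsCompact S := (isCompact_stdSimplex ℝ I).image hΦc
  have hSconv : Convex ℝ S := by
    rintro _ ⟨w1, hw1, rfl⟩ _ ⟨w2, hw2, rfl⟩ s t hs ht hst
    refine ⟨s • w1 + t • w2, convex_stdSimplex ℝ I hw1 hw2 hs ht hst, ?_⟩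
    funext d
    simp only [hΦ, Pi.add_apply, Pi.smul_apply, smul_eq_mul, Finset.mul_sum,
      ← Finset.sum_add_distrib]
    exact Finset.sum_congr rfl fun i _ => by ring
  have hTcl : IsClosed T := by
    have : T = ⋂ d, {y : D → ℝ | y d ≤ β d} := by ext y; simp [hT]
    rw [this]
    exact isClosed_iInter fun d => isClosed_le (continuous_apply d) continuous_const
  have hTconv : Convex ℝ T := by
    intro y1 h1 y2 h2 s t hs ht hst d
    simp only [Pi.add_apply, Pi.smul_apply, smul_eq_mul]
    calc s * y1 d + t * y2 d ≤ s * β d + t * β d :=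
          add_le_add (mul_le_mul_of_nonneg_left (h1 d) hs) (mul_le_mul_of_nonneg_left (h2 d) ht)
      _ = β d := by rw [← add_mul, hst, one_mul]
  have hdisj : Disjoint S T := by
    rw [Set.disjoint_left]
    rintro _ ⟨w, hw, rfl⟩ hwT
    exact hno ⟨w, hw, hwT⟩
  obtain ⟨f, a, b, hfS, hab, hfT⟩ := geometric_hahn_banach_compact_closed hSconv hSc hTconv hTcl hdisj
  set c : D → ℝ := fun d => f (Pi.single d 1) with hc
  have hf : ∀ y : D → ℝ, f y = ∑ d, c d * y d := by
    intro y
    have : y = ∑ d, y d • (Pi.single d (1 : ℝ) : D → ℝ) := by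
      funext e
      simp [Finset.sum_apply, Pi.single_apply]
    conv_lhs => rw [this]
    rw [map_sum]
    exact Finset.sum_congr rfl fun d _ => by rw [map_smul, smul_eq_mul, mul_comm]
  have hcneg : ∀ d, c d ≤ 0 := by
    intro d
    by_contra hpos
    rw [not_le] at hpos
    -- move far down in direction `d`
    set t : ℝ := (f β - b) / c d + 1 with ht
    have ht0 : 0 ≤ t := by
      have : b < f β := hfT β (fun d => le_rfl)
      have : 0 < (f β - b) / c d := div_pos (by linarith) hpos
      linarith
    have hmem : β - t • (Pi.single d (1 : ℝ) : D → ℝ) ∈ T := by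
      intro e
      simp only [Pi.sub_apply, Pi.smul_apply, smul_eq_mul, Pi.single_apply]
      split_ifs <;> nlinarith
    have h1 := hfT _ hmem
    rw [map_sub, map_smul, smul_eq_mul] at h1
    have h2 : t * c d = (f β - b) + c d := by
      simp only [ht]; field_simp
    have h3 : f (Pi.single d (1 : ℝ)) = c d := rfl
    rw [h3, h2] at h1
    linarith
  obtain ⟨i, hi⟩ := h (fun d => -c d) (fun d => by have := hcneg d; linarith)
  have hviS : v i ∈ S := by
    refine ⟨Pi.single i 1, single_mem_stdSimplex ℝ i, ?_⟩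
    funext d
    simp [hΦ, Pi.single_apply]
  have h1 := hfS _ hviS
  have h2 := hfT β (fun d => le_rfl)
  rw [hf] at h1 h2
  have h3 : ∑ d, -c d * v i d = -∑ d, c d * v i d := by
    rw [← Finset.sum_neg_distrib]; exact Finset.sum_congr rfl fun d _ => by ring
  have h4 : ∑ d, -c d * β d = -∑ d, c d * β d := by
    rw [← Finset.sum_neg_distrib]; exact Finset.sum_congr rfl fun d _ => by ring
  rw [h3, h4] at hi
  linarith

end Claimed.Agent.Lib
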