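import Claimed.Agent.Lib.PLLogCc

/-! Row 286, BOX-A, leaf P5 (helper31): the law of `X + Exp(lam)` has the density `z ↦ ∫ lam e^{-lam (z - X)} 1{X ≤ z} dμ`. -/

open MeasureTheory Set Filter Topology ProbabilityTheory
open scoped ENNReal NNReal

namespace Claimed.Agent.PL

theorem pl_expMeasure_eq (lam : ℝ) :
    expMeasure lam = volume.withDensity (fun y : ℝ => ENNReal.ofReal (lam * Real.exp (-(lam * y))) *
      (if 0 ≤ y then 1 else 0)) := by
  have : expMeasure lam = volume.withDensity (exponentialPDF lam) := rfl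
  rw [this]
  congr 1
  ext y
  rw [exponentialPDF_eq]
  split_ifs <;> simp

/-- P5. law of `X + Exp(lam)`. -/
theorem map_add_exp_eq_withDensity {Ω : Type*} [MeasurableSpace Ω] {μ : Measure Ω}
    [IsProbabilityMeasure μ] {X : Ω → ℝ} (hX : Measurable X) {lam : ℝ} (hl : 0 < lam) :
    (μ.prod (expMeasure lam)).map (fun p => X p.1 + p.2) =
      volume.withDensity (fun z => ∫⁻ ω, ENNReal.ofReal (lam * Real.exp (-(lam * (z - X ω)))) *
        (if X ω ≤ z then 1 else 0) ∂μ) := by
  have : IsProbabilityMeasure (expMeasure lam) := isProbabilityMeasure_expMeasure hl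
  set d : ℝ → ℝ≥0∞ := fun y : ℝ => ENNReal.ofReal (lam * Real.exp (-(lam * y))) *
      (if 0 ≤ y then 1 else 0) with hd
  have hdm : Measurable d := by
    apply Measurable.mul (by fun_prop)
    exact Measurable.ite measurableSet_Ici measurable_const measurable_const
  have hmap : Measurable fun p : Ω × ℝ => X p.1 + p.2 := by fun_prop
  have hdz : ∀ (z : ℝ) (ω : Ω), ENNReal.ofReal (lam * Real.exp (-(lam * (z - X ω)))) *
        (if X ω ≤ z then 1 else 0) = d (z - X ω) := by
    intro z ω
    simp only [hd, sub_nonneg]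
  simp_rw [hdz]
  ext s hs
  rw [Measure.map_apply hmap hs, Measure.prod_apply (hmap hs), withDensity_apply _ hs]
  have h1 : ∀ ω : Ω, expMeasure lam (Prod.mk ω ⁻¹' ((fun p : Ω × ℝ => X p.1 + p.2) ⁻¹' s)) =
      ∫⁻ z, s.indicator (fun z => d (z - X ω)) z := by
    intro ω
    have hms : MeasurableSet (Prod.mk ω ⁻¹' ((fun p : Ω × ℝ => X p.1 + p.2) ⁻¹' s)) :=
      measurable_prodMk_left (hmap hs)
    rw [pl_expMeasure_eq, withDensity_apply _ hms, ← lintegral_indicator hms]
    rw [← lintegral_add_left_eq_self (fun z => s.indicator (fun z => d (z - X ω)) z) (X ω)]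
    congr 1
    ext y
    by_cases hy : X ω + y ∈ s
    · rw [indicator_of_mem hy, indicator_of_mem (by exact hy)]
      simp [hd]
    · rw [indicator_of_notMem hy, indicator_of_notMem (by exact hy)]
  simp_rw [h1]
  rw [← lintegral_indicator hs, lintegral_lintegral_swap]
  · congr 1
    ext z
    by_cases hz : z ∈ s
    · simp [indicator_of_mem hz]
    · simp [indicator_of_notMem hz]
  · apply Measurable.aemeasurable
    have : (Function.uncurry fun (ω : Ω) (z : ℝ) => s.indicator (fun z => d (z - X ω)) z) =
        (Prod.snd ⁻¹' s).indicator (fun p : Ω × ℝ => d (p.2 - X p.1)) := by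
      ext p
      by_cases hp : p.2 ∈ s
      · rw [indicator_of_mem (by exact hp)]
        simp [Function.uncurry, indicator_of_mem hp]
      · rw [indicator_of_notMem (by exact hp)]
        simp [Function.uncurry, indicator_of_notMem hp]
    rw [this]
    exact (hdm.comp (by fun_prop)).indicator (measurable_snd hs)

end Claimed.Agent.PL
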