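import Claimed.Agent.Lib.PLLogCc

/-!
# Prékopa–Leindler, part 6: the Anderson property of a measure on `ℝ`
(row 286, box B01 of helper224, leaves P8, P9; statements = origin/helper224:notes/R286/B01_skeleton.lean; OWNER of this file: helper77)

* `Anderson w` : `w [y - a, y + a] ≤ w [-a, a]` (replaces "even and unimodal density")
* P8 `anderson_of_even_logCc` (even log-concave density), `Anderson.of_tendsto` (weak limits of finite measures, no condition on atoms)
* P9 `Anderson.measure_shift_le`, `Anderson.lintegral_conv_le` : `∫ φ d(w ∗ G) ≤ ∫ φ dw` for `φ` even, nonincreasing in `|z|`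
* tool: `pl_weak_closed_transfer` (a multiplicative inequality between closed sets passes to weak limits of finite measures)
-/

open MeasureTheory Set Filter Topology ProbabilityTheory
open scoped ENNReal NNReal

namespace Claimed.Agent.PL

/-- P8. Anderson property of a (finite) measure on `ℝ` (replaces "even and unimodal density"). -/
def Anderson (w : Measure ℝ) : Prop :=
  ∀ y a : ℝ, 0 ≤ a → w (Icc (y - a) (y + a)) ≤ w (Icc (-a) a)

theorem anderson_of_even_logCc {q : ℝ → ℝ≥0∞} (hq : Measurable q) (hlc : LogCc q)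
    (hev : ∀ z, q (-z) = q z) : Anderson (volume.withDensity q) := by
  intro y a ha
  have hI : ∀ c d : ℝ, (volume.withDensity q) (Icc c d) = ∫⁻ z, (Icc c d).indicator q z := by
    intro c d
    rw [withDensity_apply _ measurableSet_Icc, lintegral_indicator measurableSet_Icc]
  have hsymm : ∫⁻ z, (Icc (-y - a) (-y + a)).indicator q z
      = ∫⁻ z, (Icc (y - a) (y + a)).indicator q z := by
    rw [← lintegral_neg_eq_self]
    refine lintegral_congr fun z => ?_
    by_cases hz : z ∈ Icc (y - a) (y + a)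
    · have : -z ∈ Icc (-y - a) (-y + a) := ⟨by linarith [hz.2], by linarith [hz.1]⟩
      rw [indicator_of_mem this, indicator_of_mem hz, hev]
    · have : -z ∉ Icc (-y - a) (-y + a) := fun h => hz ⟨by linarith [h.2], by linarith [h.1]⟩
      rw [indicator_of_notMem this, indicator_of_notMem hz]
  have key := plProp_real (1/2) (by norm_num) (by norm_num) ((Icc (y - a) (y + a)).indicator q)
    ((Icc (-y - a) (-y + a)).indicator q) ((Icc (-a) a).indicator q)
    (hq.indicator measurableSet_Icc) (hq.indicator measurableSet_Icc)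
    (hq.indicator measurableSet_Icc) ?_
  · rw [hsymm, pl_rpow_mul_rpow_self _ (by norm_num) (by norm_num)] at key
    rw [hI, hI]
    exact key
  · intro u v
    by_cases hu : u ∈ Icc (y - a) (y + a)
    · by_cases hv : v ∈ Icc (-y - a) (-y + a)
      · have huv : (1 - (1/2:ℝ)) • u + (1/2:ℝ) • v ∈ Icc (-a) a := by
          simp only [smul_eq_mul]
          constructor <;> linarith [hu.1, hu.2, hv.1, hv.2]
        rw [indicator_of_mem hu, indicator_of_mem hv, indicator_of_mem huv]
        exact hlc u v (1/2) (by norm_num) (by norm_num)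
      · rw [indicator_of_notMem hv, ENNReal.zero_rpow_of_pos (by norm_num)]; simp
    · rw [indicator_of_notMem hu, ENNReal.zero_rpow_of_pos (by norm_num)]; simp

/-- transfer of a multiplicative inequality between closed sets to a weak limit -/
theorem pl_weak_closed_transfer {Ω : Type*} [PseudoEMetricSpace Ω] [MeasurableSpace Ω] [OpensMeasurableSpace Ω]
    {w : ℕ → FiniteMeasure Ω} {w' : FiniteMeasure Ω} (h : Tendsto w atTop (𝓝 w'))
    {t : ℝ} (ht0 : 0 < t) (ht1 : t < 1) {A B C : Set Ω} (hA : IsClosed A) (hB : IsClosed B) (hC : IsClosed C)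
    (H : ∀ ε : ℝ, 0 < ε → ∀ n, (w n : Measure Ω) (Metric.cthickening ε A) ^ (1 - t) * (w n : Measure Ω) (Metric.cthickening ε B) ^ t
      ≤ (w n : Measure Ω) (Metric.cthickening ε C)) :
    (w' : Measure Ω) A ^ (1 - t) * (w' : Measure Ω) B ^ t ≤ (w' : Measure Ω) C := by
  have h1t : 0 < 1 - t := by linarith
  have low : ∀ (μ : Measure Ω) (S : Set Ω) (hS : IsClosed S) (ε : ℝ) (hε : 0 < ε), μ S ≤ ∫⁻ x, thickenedIndicator hε S x ∂μ := by
    intro μ S hS ε hε
    rw [← lintegral_indicator_one hS.measurableSet]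
    refine lintegral_mono fun x => ?_
    have := indicator_le_thickenedIndicator hε S x
    by_cases hx : x ∈ S
    · simp only [indicator_of_mem hx] at this ⊢
      simpa using (ENNReal.coe_le_coe.2 this)
    · simp [indicator_of_notMem hx]
  have upp : ∀ (μ : Measure Ω) (S : Set Ω) (ε : ℝ) (hε : 0 < ε), ∫⁻ x, thickenedIndicator hε S x ∂μ ≤ μ (Metric.cthickening ε S) := by
    intro μ S ε hε
    rw [← lintegral_indicator_one Metric.isClosed_cthickening.measurableSet]
    refine lintegral_mono fun x => ?_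
    by_cases hx : x ∈ Metric.cthickening ε S
    · simp only [indicator_of_mem hx, Pi.one_apply]
      exact_mod_cast thickenedIndicator_le_one hε S x
    · have hx' : x ∉ Metric.thickening ε S := fun h => hx (Metric.thickening_subset_cthickening _ _ h)
      simp [thickenedIndicator_zero hε S hx']
  have step : ∀ ε : ℝ, 0 < ε → (w' : Measure Ω) A ^ (1 - t) * (w' : Measure Ω) B ^ t ≤ (w' : Measure Ω) (Metric.cthickening ε C) := by
    intro ε hε
    have hT := FiniteMeasure.tendsto_iff_forall_lintegral_tendsto.1 h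
    have ha := hT (thickenedIndicator hε A)
    have hb := hT (thickenedIndicator hε B)
    have hafin : ∫⁻ x, thickenedIndicator hε A x ∂(w' : Measure Ω) ≠ ∞ := (BoundedContinuousFunction.lintegral_lt_top_of_nnreal _ _).ne
    have hbfin : ∫⁻ x, thickenedIndicator hε B x ∂(w' : Measure Ω) ≠ ∞ := (BoundedContinuousFunction.lintegral_lt_top_of_nnreal _ _).ne
    have hprod := ENNReal.Tendsto.mul (((ENNReal.continuous_rpow_const (y := 1 - t)).tendsto _).comp ha)
      (Or.inr (ENNReal.rpow_ne_top_of_nonneg ht0.le hbfin))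
      (((ENNReal.continuous_rpow_const (y := t)).tendsto _).comp hb)
      (Or.inr (ENNReal.rpow_ne_top_of_nonneg h1t.le hafin))
    calc (w' : Measure Ω) A ^ (1 - t) * (w' : Measure Ω) B ^ t
        ≤ (∫⁻ x, thickenedIndicator hε A x ∂(w' : Measure Ω)) ^ (1 - t) * (∫⁻ x, thickenedIndicator hε B x ∂(w' : Measure Ω)) ^ t := by
          gcongr
          · exact low _ _ hA _ _
          · exact low _ _ hB _ _
      _ = limsup (fun n => (∫⁻ x, thickenedIndicator hε A x ∂(w n : Measure Ω)) ^ (1 - t) * (∫⁻ x, thickenedIndicator hε B x ∂(w n : Measure Ω)) ^ t) atTop :=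
          hprod.limsup_eq.symm
      _ ≤ limsup (fun n => (w n : Measure Ω) (Metric.cthickening ε C)) atTop := by
          refine limsup_le_limsup (Eventually.of_forall fun n => ?_)
          exact le_trans (mul_le_mul' (ENNReal.rpow_le_rpow (upp _ _ _ _) h1t.le) (ENNReal.rpow_le_rpow (upp _ _ _ _) ht0.le)) (H ε hε n)
      _ ≤ (w' : Measure Ω) (Metric.cthickening ε C) :=
          FiniteMeasure.limsup_measure_closed_le_of_tendsto h Metric.isClosed_cthickening
  have hlim := tendsto_measure_cthickening_of_isClosed (μ := (w' : Measure Ω)) (s := C) ⟨1, one_pos, measure_ne_top _ _⟩ hC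
  exact ge_of_tendsto (hlim.mono_left (nhdsWithin_le_nhds (s := Ioi 0))) (eventually_mem_nhdsWithin.mono fun ε hε => step ε hε)

theorem Anderson.of_tendsto {w : ℕ → FiniteMeasure ℝ} {w' : FiniteMeasure ℝ}
    (h : Tendsto w atTop (𝓝 w')) (ha : ∀ n, Anderson (w n : Measure ℝ)) :
    Anderson (w' : Measure ℝ) := by
  intro y a ha0
  have hIcc : ∀ c r : ℝ, Icc (c - r) (c + r) = Metric.closedBall c r := fun c r => (Real.closedBall_eq_Icc).symm
  have hIcc0 : ∀ r : ℝ, Icc (-r) r = Metric.closedBall (0:ℝ) r := fun r => by rw [Real.closedBall_eq_Icc]; simp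
  have key := pl_weak_closed_transfer h (t := 1/2) (by norm_num) (by norm_num) (A := Icc (y - a) (y + a)) (B := Icc (y - a) (y + a))
    (C := Icc (-a) a) isClosed_Icc isClosed_Icc isClosed_Icc ?_
  · rwa [pl_rpow_mul_rpow_self _ (by norm_num) (by norm_num)] at key
  · intro ε hε n
    rw [pl_rpow_mul_rpow_self _ (by norm_num) (by norm_num), hIcc, hIcc0, cthickening_closedBall hε.le ha0, cthickening_closedBall hε.le ha0,
      ← hIcc, ← hIcc0]
    exact ha n y (ε + a) (by linarith)

theorem Anderson.measure_shift_le {w : Measure ℝ} [IsFiniteMeasure w] (ha : Anderson w) {S : Set ℝ} (hS : MeasurableSet S)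
    (hbal : ∀ x ∈ S, ∀ x', |x'| ≤ |x| → x' ∈ S) (y : ℝ) : w {x | x + y ∈ S} ≤ w S := by
  have hm : MeasurableSet {x | x + y ∈ S} := (measurable_add_const y) hS
  rw [hm.measure_eq_iSup_isCompact_of_ne_top (measure_ne_top _ _)]
  refine iSup₂_le fun K hK => iSup_le fun hKc => ?_
  rcases K.eq_empty_or_nonempty with rfl | hne
  · simp
  obtain ⟨x0, hx0, hmax⟩ := hKc.exists_isMaxOn hne (f := fun x => |x + y|) (by fun_prop)
  have hsub : K ⊆ Icc (-y - |x0 + y|) (-y + |x0 + y|) := fun x hx => by
    have h0 : |x + y| ≤ |x0 + y| := hmax hx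
    have := abs_le.1 h0
    constructor <;> linarith [this.1, this.2]
  calc w K ≤ w (Icc (-y - |x0 + y|) (-y + |x0 + y|)) := measure_mono hsub
    _ ≤ w (Icc (-|x0 + y|) |x0 + y|) := ha (-y) _ (abs_nonneg _)
    _ ≤ w S := measure_mono fun x hx => hbal (x0 + y) (hK hx0) x (abs_le.2 hx)

theorem Anderson.lintegral_conv_le {w G : Measure ℝ} [IsFiniteMeasure w] [IsProbabilityMeasure G]
    (ha : Anderson w) {φ : ℝ → ℝ≥0∞} (hφe : ∀ z, φ (-z) = φ z) (hφa : AntitoneOn φ (Ici 0)) :
    ∫⁻ p, φ (p.1 + p.2) ∂(w.prod G) ≤ ∫⁻ z, φ z ∂w := by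
  have habs : ∀ z, φ z = φ |z| := fun z => by
    rcases abs_choice z with h | h
    · rw [h]
    · rw [h, hφe]
  have hmono : ∀ x x', |x'| ≤ |x| → φ x ≤ φ x' := fun x x' h => by
    rw [habs x, habs x']; exact hφa (mem_Ici.2 (abs_nonneg _)) (mem_Ici.2 (abs_nonneg _)) h
  have hφm : Measurable φ := by
    have h1 : Antitone (fun r : ℝ => φ (max r 0)) := fun r s hrs =>
      hφa (mem_Ici.2 (le_max_right _ _)) (mem_Ici.2 (le_max_right _ _)) (max_le_max_right 0 hrs)
    have h2 : φ = (fun r : ℝ => φ (max r 0)) ∘ (fun z => |z|) := by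
      ext z; simp only [Function.comp, max_eq_left (abs_nonneg z)]; exact habs z
    rw [h2]; exact h1.measurable.comp measurable_id.abs
  have hshift : ∀ y, ∫⁻ x, φ (x + y) ∂w ≤ ∫⁻ x, φ x ∂w := by
    intro y
    rw [pl_layercake w (f := fun x => φ (x + y)) (hφm.comp (measurable_add_const y)), pl_layercake w hφm]
    refine lintegral_mono fun s => ?_
    exact ha.measure_shift_le (measurableSet_lt measurable_const hφm)
      (fun x hx x' h => lt_of_lt_of_le hx (hmono x x' h)) y
  rw [lintegral_prod_symm (fun p : ℝ × ℝ => φ (p.1 + p.2)) (hφm.comp (measurable_fst.add measurable_snd)).aemeasurable]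
  calc ∫⁻ y, ∫⁻ x, φ (x + y) ∂w ∂G ≤ ∫⁻ _y, (∫⁻ x, φ x ∂w) ∂G := lintegral_mono fun y => hshift y
    _ = ∫⁻ x, φ x ∂w := by simp

end Claimed.Agent.PL
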