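import Claimed.Agent.Lib.PLProp

/-!
# Prékopa–Leindler, part 3: real-valued convexity forms

* `pl_prekopa_convexOn` : if `(x, y) ↦ W x y` is jointly convex then
  `x ↦ - log ∫ exp (- W x y) dν(y)` is convex (`ν` any measure with the PL property).
* `pl_log_integral_exp_convexOn` : if `x ↦ C x z` is convex for every `z` then
  `x ↦ log ∫ exp (C x z) dν(z)` is convex (Hölder), `ν` any measure.
-/

open MeasureTheory Set Filter Topology
open scoped ENNReal NNReal Pointwise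

namespace Claimed.Agent.PL

/-- multiplicative real form of Prékopa's theorem. -/
theorem pl_prekopa_mul {E F : Type*} [AddCommGroup E] [Module ℝ E]
    [AddCommGroup F] [Module ℝ F] [MeasurableSpace F]
    {ν : Measure F} (hν : PLProp F ν) {W : E → F → ℝ} {x₀ x₁ : E} {t : ℝ}
    (ht0 : 0 < t) (ht1 : t < 1)
    (hm0 : Measurable (W x₀)) (hm1 : Measurable (W x₁))
    (hmt : Measurable (W ((1 - t) • x₀ + t • x₁)))
    (hW : ∀ y₀ y₁, W ((1 - t) • x₀ + t • x₁) ((1 - t) • y₀ + t • y₁)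
      ≤ (1 - t) * W x₀ y₀ + t * W x₁ y₁)
    (hi0 : Integrable (fun y => Real.exp (- W x₀ y)) ν)
    (hi1 : Integrable (fun y => Real.exp (- W x₁ y)) ν)
    (hit : Integrable (fun y => Real.exp (- W ((1 - t) • x₀ + t • x₁) y)) ν) :
    (∫ y, Real.exp (- W x₀ y) ∂ν) ^ (1 - t) * (∫ y, Real.exp (- W x₁ y) ∂ν) ^ t
      ≤ ∫ y, Real.exp (- W ((1 - t) • x₀ + t • x₁) y) ∂ν := by
  have h1t : 0 < 1 - t := by linarith
  have key := hν t ht0 ht1 (fun y => ENNReal.ofReal (Real.exp (- W x₀ y)))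
    (fun y => ENNReal.ofReal (Real.exp (- W x₁ y)))
    (fun y => ENNReal.ofReal (Real.exp (- W ((1 - t) • x₀ + t • x₁) y)))
    (by fun_prop) (by fun_prop) (by fun_prop) ?_
  · rw [← ofReal_integral_eq_lintegral_ofReal hi0 (Eventually.of_forall fun _ => (Real.exp_pos _).le),
      ← ofReal_integral_eq_lintegral_ofReal hi1 (Eventually.of_forall fun _ => (Real.exp_pos _).le),
      ← ofReal_integral_eq_lintegral_ofReal hit (Eventually.of_forall fun _ => (Real.exp_pos _).le),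
      ENNReal.ofReal_rpow_of_nonneg (integral_nonneg fun _ => (Real.exp_pos _).le) h1t.le,
      ENNReal.ofReal_rpow_of_nonneg (integral_nonneg fun _ => (Real.exp_pos _).le) ht0.le,
      ← ENNReal.ofReal_mul (Real.rpow_nonneg (integral_nonneg fun _ => (Real.exp_pos _).le) _)]
      at key
    exact (ENNReal.ofReal_le_ofReal_iff (integral_nonneg fun _ => (Real.exp_pos _).le)).1 key
  · intro y₀ y₁
    rw [ENNReal.ofReal_rpow_of_nonneg (Real.exp_pos _).le h1t.le,
      ENNReal.ofReal_rpow_of_nonneg (Real.exp_pos _).le ht0.le,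
      ← ENNReal.ofReal_mul (Real.rpow_nonneg (Real.exp_pos _).le _)]
    apply ENNReal.ofReal_le_ofReal
    rw [← Real.exp_mul, ← Real.exp_mul, ← Real.exp_add]
    apply Real.exp_le_exp.2
    have := hW y₀ y₁
    linarith

/-- **Prékopa's theorem**, convexity form. -/
theorem pl_prekopa_convexOn {E F : Type*} [AddCommGroup E] [Module ℝ E]
    [AddCommGroup F] [Module ℝ F] [MeasurableSpace F]
    {ν : Measure F} (hν : PLProp F ν) (hν0 : ν ≠ 0) {s : Set E} (hs : Convex ℝ s) {W : E → F → ℝ}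
    (hWm : ∀ x ∈ s, Measurable (W x))
    (hW : ∀ x₀ ∈ s, ∀ x₁ ∈ s, ∀ y₀ y₁ : F, ∀ a b : ℝ, 0 < a → 0 < b → a + b = 1 →
      W (a • x₀ + b • x₁) (a • y₀ + b • y₁) ≤ a * W x₀ y₀ + b * W x₁ y₁)
    (hint : ∀ x ∈ s, Integrable (fun y => Real.exp (- W x y)) ν) :
    ConvexOn ℝ s (fun x => - Real.log (∫ y, Real.exp (- W x y) ∂ν)) := by
  refine ⟨hs, ?_⟩
  intro x₀ hx₀ x₁ hx₁ a b ha hb hab
  have hpos : ∀ x ∈ s, 0 < ∫ y, Real.exp (- W x y) ∂ν := by
    intro x hx
    have : NeZero ν := ⟨hν0⟩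
    exact integral_exp_pos (hint x hx)
  rcases ha.eq_or_lt with ha0 | ha0
  · have hb1 : b = 1 := by linarith
    subst ha0; subst hb1; simp
  rcases hb.eq_or_lt with hb0 | hb0
  · have ha1 : a = 1 := by linarith
    subst hb0; subst ha1; simp
  have ha' : a = 1 - b := by linarith
  subst ha'
  have hb1 : b < 1 := by linarith
  have hxt : (1 - b) • x₀ + b • x₁ ∈ s := hs hx₀ hx₁ ha hb hab
  have key := pl_prekopa_mul hν (W := W) (x₀ := x₀) (x₁ := x₁) hb0 hb1 (hWm _ hx₀) (hWm _ hx₁)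
    (hWm _ hxt) (fun y₀ y₁ => hW x₀ hx₀ x₁ hx₁ y₀ y₁ (1 - b) b ha0 hb0 hab)
    (hint _ hx₀) (hint _ hx₁) (hint _ hxt)
  have hlog := Real.log_le_log (mul_pos (Real.rpow_pos_of_pos (hpos _ hx₀) _)
    (Real.rpow_pos_of_pos (hpos _ hx₁) _)) key
  rw [Real.log_mul (Real.rpow_pos_of_pos (hpos _ hx₀) _).ne' (Real.rpow_pos_of_pos (hpos _ hx₁) _).ne',
    Real.log_rpow (hpos _ hx₀), Real.log_rpow (hpos _ hx₁)] at hlog
  simp only [smul_eq_mul]
  linarith

/-- Hölder's inequality in the form `∫ u^a v^b ≤ (∫ u)^a (∫ v)^b`. -/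
theorem pl_holder_mul {α : Type*} [MeasurableSpace α] {ν : Measure α} {u v : α → ℝ}
    (hu : Integrable u ν) (hv : Integrable v ν) (hu0 : ∀ z, 0 ≤ u z) (hv0 : ∀ z, 0 ≤ v z)
    {a b : ℝ} (ha : 0 < a) (hb : 0 < b) (hab : a + b = 1) :
    Integrable (fun z => u z ^ a * v z ^ b) ν ∧
    ∫ z, u z ^ a * v z ^ b ∂ν ≤ (∫ z, u z ∂ν) ^ a * (∫ z, v z ∂ν) ^ b := by
  have hpq : (1 / a).HolderConjugate (1 / b) := by
    rw [Real.holderConjugate_iff]
    refine ⟨?_, ?_⟩
    · rw [lt_div_iff₀ ha]; linarith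
    · simp [hab]
  have hua : MemLp (fun z => u z ^ a) (ENNReal.ofReal (1 / a)) ν := by
    have := (memLp_one_iff_integrable.2 hu).norm_rpow_div (ENNReal.ofReal a)
    rw [ENNReal.toReal_ofReal ha.le] at this
    have e : (1 : ℝ≥0∞) / ENNReal.ofReal a = ENNReal.ofReal (1 / a) := by
      rw [ENNReal.ofReal_div_of_pos ha]; simp
    rw [e] at this
    refine this.congr_norm ?_ ?_
    · exact (hu.aestronglyMeasurable.aemeasurable.pow_const a).aestronglyMeasurable
    · refine Eventually.of_forall fun z => ?_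
      simp [abs_of_nonneg (hu0 z)]
  have hvb : MemLp (fun z => v z ^ b) (ENNReal.ofReal (1 / b)) ν := by
    have := (memLp_one_iff_integrable.2 hv).norm_rpow_div (ENNReal.ofReal b)
    rw [ENNReal.toReal_ofReal hb.le] at this
    have e : (1 : ℝ≥0∞) / ENNReal.ofReal b = ENNReal.ofReal (1 / b) := by
      rw [ENNReal.ofReal_div_of_pos hb]; simp
    rw [e] at this
    refine this.congr_norm ?_ ?_
    · exact (hv.aestronglyMeasurable.aemeasurable.pow_const b).aestronglyMeasurable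
    · refine Eventually.of_forall fun z => ?_
      simp [abs_of_nonneg (hv0 z)]
  refine ⟨?_, ?_⟩
  · refine Integrable.mono' ((hu.const_mul a).add (hv.const_mul b))
      (hua.aestronglyMeasurable.mul hvb.aestronglyMeasurable) ?_
    refine Eventually.of_forall fun z => ?_
    rw [Real.norm_of_nonneg (mul_nonneg (Real.rpow_nonneg (hu0 z) _) (Real.rpow_nonneg (hv0 z) _))]
    exact Real.geom_mean_le_arith_mean2_weighted ha.le hb.le (hu0 z) (hv0 z) hab
  · have := integral_mul_le_Lp_mul_Lq_of_nonneg hpq (μ := ν) (f := fun z => u z ^ a)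
      (g := fun z => v z ^ b) (Eventually.of_forall fun z => Real.rpow_nonneg (hu0 z) _)
      (Eventually.of_forall fun z => Real.rpow_nonneg (hv0 z) _) hua hvb
    have e1 : ∀ z, (u z ^ a) ^ (1 / a) = u z := by
      intro z
      rw [← Real.rpow_mul (hu0 z)]; field_simp; simp
    have e2 : ∀ z, (v z ^ b) ^ (1 / b) = v z := by
      intro z
      rw [← Real.rpow_mul (hv0 z)]; field_simp; simp
    simp only [e1, e2] at this
    simpa using this

/-- **Log-convexity of integrals of log-convex functions** (Hölder). -/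
theorem pl_log_integral_exp_convexOn {E α : Type*} [AddCommGroup E] [Module ℝ E]
    [MeasurableSpace α] {ν : Measure α} (hν0 : ν ≠ 0) {s : Set E} {C : E → α → ℝ}
    (hs : Convex ℝ s) (hC : ∀ z, ConvexOn ℝ s (fun x => C x z))
    (hint : ∀ x ∈ s, Integrable (fun z => Real.exp (C x z)) ν) :
    ConvexOn ℝ s (fun x => Real.log (∫ z, Real.exp (C x z) ∂ν)) := by
  refine ⟨hs, ?_⟩
  intro x₀ hx₀ x₁ hx₁ a b ha hb hab
  have hpos : ∀ x ∈ s, 0 < ∫ z, Real.exp (C x z) ∂ν := by
    intro x hx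
    have : NeZero ν := ⟨hν0⟩
    exact integral_exp_pos (hint x hx)
  rcases ha.eq_or_lt with ha0 | ha0
  · have hb1 : b = 1 := by linarith
    subst ha0; subst hb1; simp
  rcases hb.eq_or_lt with hb0 | hb0
  · have ha1 : a = 1 := by linarith
    subst hb0; subst ha1; simp
  have hxt : a • x₀ + b • x₁ ∈ s := hs hx₀ hx₁ ha hb hab
  obtain ⟨hI, hH⟩ := pl_holder_mul (hint _ hx₀) (hint _ hx₁) (fun z => (Real.exp_pos _).le)
    (fun z => (Real.exp_pos _).le) ha0 hb0 hab
  have h1 : ∫ z, Real.exp (C (a • x₀ + b • x₁) z) ∂ν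
      ≤ ∫ z, Real.exp (C x₀ z) ^ a * Real.exp (C x₁ z) ^ b ∂ν := by
    refine integral_mono (hint _ hxt) hI fun z => ?_
    show Real.exp (C (a • x₀ + b • x₁) z) ≤ Real.exp (C x₀ z) ^ a * Real.exp (C x₁ z) ^ b
    rw [← Real.exp_mul, ← Real.exp_mul, ← Real.exp_add]
    apply Real.exp_le_exp.2
    have := (hC z).2 hx₀ hx₁ ha hb hab
    simp only [smul_eq_mul] at this
    linarith
  have hlog := Real.log_le_log (hpos _ hxt) (h1.trans hH)
  rw [Real.log_mul (Real.rpow_pos_of_pos (hpos _ hx₀) _).ne' (Real.rpow_pos_of_pos (hpos _ hx₁) _).ne',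
    Real.log_rpow (hpos _ hx₀), Real.log_rpow (hpos _ hx₁)] at hlog
  simpa only [smul_eq_mul] using hlog

end Claimed.Agent.PL
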