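import Claimed.Agent.Lib.PLConvex

/-!
# Prékopa–Leindler, part 4: log-Laplace transforms of uniformly convex potentials

For `U : E → ℝ` with `U - κ/2 |y|²` convex and `K/2 |y|² - U` convex (`0 < κ`, `0 < K`), the
log-Laplace transform `Λ x = log ∫ exp (⟪x, y⟫ - U y) dy` satisfies:
`(1/κ)/2 |x|² - Λ` is convex (Prékopa) and `Λ - (1/K)/2 |x|²` is convex (Hölder).
-/

open MeasureTheory Set Filter Topology
open scoped ENNReal NNReal Pointwise RealInnerProductSpace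

namespace Claimed.Agent.PL

section lower

variable {E : Type*} [NormedAddCommGroup E] [NormedSpace ℝ E] [FiniteDimensional ℝ E]

/-- A finite convex function on a finite dimensional space has a linear lower bound. -/
theorem pl_convex_lower_linear {g : E → ℝ} (hg : ConvexOn ℝ univ g) :
    ∃ C : ℝ, 0 ≤ C ∧ ∀ y, g 0 - C * ‖y‖ ≤ g y := by
  have hcont : Continuous g := by
    rw [← continuousOn_univ]; exact hg.continuousOn isOpen_univ
  obtain ⟨M, hM⟩ := (isCompact_closedBall (0 : E) 1).bddAbove_image hcont.continuousOn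
  have hM' : ∀ u : E, ‖u‖ ≤ 1 → g u ≤ M := fun u hu =>
    hM ⟨u, by simpa using hu, rfl⟩
  have hM0 : g 0 ≤ M := hM' 0 (by simp)
  refine ⟨M - g 0, by linarith, fun y => ?_⟩
  by_cases hy : y = 0
  · subst hy; simp
  have hn : 0 < ‖y‖ := norm_pos_iff.2 hy
  set u : E := (-(1 / ‖y‖)) • y with hu
  have hun : ‖u‖ ≤ 1 := by
    rw [hu, norm_smul]; simp [hn.ne']
  have h1 : 0 < 1 + ‖y‖ := by linarith
  have hz : (1 / (1 + ‖y‖)) • y + (‖y‖ / (1 + ‖y‖)) • u = 0 := by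
    rw [hu, smul_smul, ← add_smul]
    have : 1 / (1 + ‖y‖) + ‖y‖ / (1 + ‖y‖) * -(1 / ‖y‖) = 0 := by
      field_simp; ring
    rw [this, zero_smul]
  have := hg.2 (mem_univ y) (mem_univ u) (show (0 : ℝ) ≤ 1 / (1 + ‖y‖) by positivity)
    (show (0 : ℝ) ≤ ‖y‖ / (1 + ‖y‖) by positivity) (by field_simp)
  rw [hz] at this
  simp only [smul_eq_mul] at this
  have h2 : ‖y‖ / (1 + ‖y‖) * g u ≤ ‖y‖ / (1 + ‖y‖) * M :=
    mul_le_mul_of_nonneg_left (hM' u hun) (by positivity)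
  have h3 : g 0 ≤ 1 / (1 + ‖y‖) * g y + ‖y‖ / (1 + ‖y‖) * M := by linarith
  have h4 : g 0 * (1 + ‖y‖) ≤ g y + ‖y‖ * M := by
    have := mul_le_mul_of_nonneg_right h3 h1.le
    have e : (1 / (1 + ‖y‖) * g y + ‖y‖ / (1 + ‖y‖) * M) * (1 + ‖y‖) = g y + ‖y‖ * M := by
      field_simp
    linarith
  nlinarith

end lower

section laplace

variable {E : Type*} [NormedAddCommGroup E] [InnerProductSpace ℝ E] [FiniteDimensional ℝ E]
  [MeasurableSpace E] [BorelSpace E]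

theorem pl_integrable_exp_neg_mul_sq {b : ℝ} (hb : 0 < b) :
    Integrable (fun v : E => Real.exp (-b * ‖v‖ ^ 2)) := by
  have := (GaussianFourier.integrable_cexp_neg_mul_sq_norm_add (V := E) (b := (b : ℂ))
    (by simpa using hb) 0 0).norm
  refine this.congr (Eventually.of_forall fun v => ?_)
  simp only [Complex.norm_exp]
  congr 1
  simp [← Complex.ofReal_pow, ← Complex.ofReal_mul, ← Complex.ofReal_neg]

omit [MeasurableSpace E] [BorelSpace E] in
theorem pl_continuous_of_strongly {κ : ℝ} {U : E → ℝ}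
    (hU : ConvexOn ℝ univ (fun y => U y - κ / 2 * ‖y‖ ^ 2)) : Continuous U := by
  have hcont : Continuous (fun y => U y - κ / 2 * ‖y‖ ^ 2) := by
    rw [← continuousOn_univ]; exact hU.continuousOn isOpen_univ
  have : U = fun y => (U y - κ / 2 * ‖y‖ ^ 2) + κ / 2 * ‖y‖ ^ 2 := by
    ext y; ring
  rw [this]
  exact hcont.add (by fun_prop)

omit [MeasurableSpace E] [BorelSpace E] in
/-- Gaussian upper bound for `exp (⟪x, y⟫ - U y)`. -/
theorem pl_exp_le_gaussian {κ : ℝ} (hκ : 0 < κ) {U : E → ℝ}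
    (hU : ConvexOn ℝ univ (fun y => U y - κ / 2 * ‖y‖ ^ 2)) :
    ∃ C : ℝ, 0 ≤ C ∧ ∀ x y : E, Real.exp (⟪x, y⟫ - U y)
      ≤ Real.exp ((‖x‖ + C) ^ 2 / κ - U 0) * Real.exp (-(κ / 4) * ‖y‖ ^ 2) := by
  obtain ⟨C, hC0, hC⟩ := pl_convex_lower_linear hU
  refine ⟨C, hC0, fun x y => ?_⟩
  rw [← Real.exp_add]
  apply Real.exp_le_exp.2
  have h1 := hC y
  simp only [norm_zero] at h1
  have h2 : ⟪x, y⟫ ≤ ‖x‖ * ‖y‖ := real_inner_le_norm x y
  have h3 : (‖x‖ + C) * ‖y‖ ≤ κ / 4 * ‖y‖ ^ 2 + (‖x‖ + C) ^ 2 / κ := by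
    have : 0 ≤ (κ / 2 * ‖y‖ - (‖x‖ + C)) ^ 2 / κ := by positivity
    have e : (κ / 2 * ‖y‖ - (‖x‖ + C)) ^ 2 / κ
        = κ / 4 * ‖y‖ ^ 2 + (‖x‖ + C) ^ 2 / κ - (‖x‖ + C) * ‖y‖ := by
      field_simp; ring
    linarith
  nlinarith

theorem pl_integrable_exp_inner_sub {κ : ℝ} (hκ : 0 < κ) {U : E → ℝ}
    (hU : ConvexOn ℝ univ (fun y => U y - κ / 2 * ‖y‖ ^ 2)) (x : E) :
    Integrable (fun y : E => Real.exp (⟪x, y⟫ - U y)) := by
  obtain ⟨C, -, hC⟩ := pl_exp_le_gaussian hκ hU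
  have hUc := pl_continuous_of_strongly hU
  refine Integrable.mono' ((pl_integrable_exp_neg_mul_sq (E := E) (b := κ / 4)
    (by positivity)).const_mul (Real.exp ((‖x‖ + C) ^ 2 / κ - U 0))) ?_ ?_
  · exact (by fun_prop : Continuous (fun y : E => Real.exp (⟪x, y⟫ - U y))).aestronglyMeasurable
  · refine Eventually.of_forall fun y => ?_
    rw [Real.norm_of_nonneg (Real.exp_pos _).le]
    exact hC x y

omit [FiniteDimensional ℝ E] [MeasurableSpace E] [BorelSpace E] in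
theorem pl_norm_sq_convex_comb (u v : E) {a b : ℝ} (ha : 0 ≤ a) (hb : 0 ≤ b) (hab : a + b = 1) :
    ‖a • u + b • v‖ ^ 2 ≤ a * ‖u‖ ^ 2 + b * ‖v‖ ^ 2 := by
  have h := ((convexOn_univ_norm (E := E)).pow (fun x _ => norm_nonneg x) 2).2
    (mem_univ u) (mem_univ v) ha hb hab
  simpa using h

/-- **Upper Hessian bound for the log-Laplace transform** (Prékopa):
if `U - κ/2 |y|²` is convex then `(1/κ)/2 |x|² - log ∫ exp (⟪x, y⟫ - U y) dy` is convex. -/
theorem pl_logLaplace_upper {κ : ℝ} (hκ : 0 < κ) {U : E → ℝ}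
    (hU : ConvexOn ℝ univ (fun y => U y - κ / 2 * ‖y‖ ^ 2)) :
    ConvexOn ℝ univ (fun x : E => (1 / κ) / 2 * ‖x‖ ^ 2
      - Real.log (∫ y : E, Real.exp (⟪x, y⟫ - U y))) := by
  have hUc := pl_continuous_of_strongly hU
  have hint := pl_integrable_exp_inner_sub hκ hU
  have hpos : ∀ x : E, 0 < ∫ y : E, Real.exp (⟪x, y⟫ - U y) := fun x => integral_exp_pos (hint x)
  have e : ∀ x y : E, Real.exp (-((1 / κ) / 2 * ‖x‖ ^ 2 - ⟪x, y⟫ + U y))
      = Real.exp (-((1 / κ) / 2 * ‖x‖ ^ 2)) * Real.exp (⟪x, y⟫ - U y) := by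
    intro x y
    rw [← Real.exp_add]; congr 1; ring
  have key := pl_prekopa_convexOn (E := E) (F := E) (ν := volume) (plProp_addHaar volume)
    (NeZero.ne _) convex_univ (W := fun x y => (1 / κ) / 2 * ‖x‖ ^ 2 - ⟪x, y⟫ + U y)
    (fun x _ => by
      have : Continuous (fun y : E => (1 / κ) / 2 * ‖x‖ ^ 2 - ⟪x, y⟫ + U y) := by fun_prop
      exact this.measurable) ?_ ?_
  · refine key.congr ?_
    intro x _
    show -Real.log (∫ y : E, Real.exp (-((1 / κ) / 2 * ‖x‖ ^ 2 - ⟪x, y⟫ + U y))) = _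
    simp_rw [e]
    rw [integral_const_mul, Real.log_mul (Real.exp_pos _).ne' (hpos x).ne', Real.log_exp]
    ring
  · intro x₀ _ x₁ _ y₀ y₁ a b ha hb hab
    -- `W x y = (1/(2κ)) |x - κ y|² + (U y - κ/2 |y|²)`
    have hW : ∀ x y : E, (1 / κ) / 2 * ‖x‖ ^ 2 - ⟪x, y⟫ + U y
        = (1 / κ) / 2 * ‖x - κ • y‖ ^ 2 + (U y - κ / 2 * ‖y‖ ^ 2) := by
      intro x y
      rw [norm_sub_sq_real, norm_smul, inner_smul_right, Real.norm_of_nonneg hκ.le]
      field_simp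
      ring
    rw [hW, hW, hW]
    have h1 := hU.2 (mem_univ y₀) (mem_univ y₁) ha.le hb.le hab
    simp only [smul_eq_mul] at h1
    have h2 := pl_norm_sq_convex_comb (x₀ - κ • y₀) (x₁ - κ • y₁) ha.le hb.le hab
    have h3 : a • x₀ + b • x₁ - κ • (a • y₀ + b • y₁)
        = a • (x₀ - κ • y₀) + b • (x₁ - κ • y₁) := by
      simp only [smul_sub, smul_add, smul_smul]
      rw [mul_comm κ a, mul_comm κ b]
      abel
    rw [h3]
    have h4 : (1 / κ) / 2 * ‖a • (x₀ - κ • y₀) + b • (x₁ - κ • y₁)‖ ^ 2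
        ≤ (1 / κ) / 2 * (a * ‖x₀ - κ • y₀‖ ^ 2 + b * ‖x₁ - κ • y₁‖ ^ 2) :=
      mul_le_mul_of_nonneg_left h2 (by positivity)
    nlinarith
  · intro x _
    simp_rw [e]
    exact (hint x).const_mul _

/-- **Lower Hessian bound for the log-Laplace transform** (Hölder):
if `K/2 |y|² - U` is convex (and `U - κ/2 |y|²` is convex for some `κ > 0`, for integrability)
then `log ∫ exp (⟪x, y⟫ - U y) dy - (1/K)/2 |x|²` is convex. -/
theorem pl_logLaplace_lower {κ K : ℝ} (hκ : 0 < κ) (hK : 0 < K) {U : E → ℝ}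
    (hU : ConvexOn ℝ univ (fun y => U y - κ / 2 * ‖y‖ ^ 2))
    (hU' : ConvexOn ℝ univ (fun y => K / 2 * ‖y‖ ^ 2 - U y)) :
    ConvexOn ℝ univ (fun x : E => Real.log (∫ y : E, Real.exp (⟪x, y⟫ - U y))
      - (1 / K) / 2 * ‖x‖ ^ 2) := by
  have hint := pl_integrable_exp_inner_sub hκ hU
  have hpos : ∀ x : E, 0 < ∫ y : E, Real.exp (⟪x, y⟫ - U y) := fun x => integral_exp_pos (hint x)
  -- the exponent after the translation `y = z + x / K`
  have e : ∀ x z : E, Real.exp (⟪x, z + (1 / K) • x⟫ - U (z + (1 / K) • x))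
      = Real.exp ((1 / K) / 2 * ‖x‖ ^ 2)
        * Real.exp (-(K / 2) * ‖z‖ ^ 2 + (K / 2 * ‖z + (1 / K) • x‖ ^ 2 - U (z + (1 / K) • x))) := by
    intro x z
    rw [← Real.exp_add]; congr 1
    rw [norm_add_sq_real, norm_smul, inner_smul_right, inner_add_right, inner_smul_right,
      real_inner_self_eq_norm_sq, Real.norm_of_nonneg (by positivity : (0:ℝ) ≤ 1 / K),
      real_inner_comm x z]
    field_simp
    ring
  have hint2 : ∀ x : E, Integrable (fun z : E =>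
      Real.exp (-(K / 2) * ‖z‖ ^ 2 + (K / 2 * ‖z + (1 / K) • x‖ ^ 2 - U (z + (1 / K) • x)))) := by
    intro x
    have h1 := (hint x).comp_add_right ((1 / K) • x)
    simp_rw [e] at h1
    have h2 := h1.const_mul (Real.exp (-((1 / K) / 2 * ‖x‖ ^ 2)))
    refine h2.congr (Eventually.of_forall fun z => ?_)
    show Real.exp (-((1 / K) / 2 * ‖x‖ ^ 2)) * (Real.exp ((1 / K) / 2 * ‖x‖ ^ 2) * _) = _
    rw [← mul_assoc, ← Real.exp_add]; simp
  have key := pl_log_integral_exp_convexOn (E := E) (α := E) (ν := volume) (NeZero.ne _)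
    (s := univ) (C := fun x z => -(K / 2) * ‖z‖ ^ 2
      + (K / 2 * ‖z + (1 / K) • x‖ ^ 2 - U (z + (1 / K) • x))) convex_univ ?_
    (fun x _ => hint2 x)
  · refine key.congr ?_
    intro x _
    show Real.log (∫ z : E, Real.exp (-(K / 2) * ‖z‖ ^ 2
      + (K / 2 * ‖z + (1 / K) • x‖ ^ 2 - U (z + (1 / K) • x))))
      = Real.log (∫ y : E, Real.exp (⟪x, y⟫ - U y)) - (1 / K) / 2 * ‖x‖ ^ 2
    have h1 : ∫ y : E, Real.exp (⟪x, y⟫ - U y)
        = ∫ z : E, Real.exp (⟪x, z + (1 / K) • x⟫ - U (z + (1 / K) • x)) :=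
      (integral_add_right_eq_self (fun y : E => Real.exp (⟪x, y⟫ - U y)) ((1 / K) • x)).symm
    rw [h1]
    simp_rw [e]
    rw [integral_const_mul, Real.log_mul (Real.exp_pos _).ne' (integral_exp_pos (hint2 x)).ne',
      Real.log_exp]
    ring
  · intro z
    refine ⟨convex_univ, ?_⟩
    intro x₀ _ x₁ _ a b ha hb hab
    have h1 := hU'.2 (mem_univ (z + (1 / K) • x₀)) (mem_univ (z + (1 / K) • x₁)) ha hb hab
    have h2 : a • (z + (1 / K) • x₀) + b • (z + (1 / K) • x₁)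
        = z + (1 / K) • (a • x₀ + b • x₁) := by
      have : z = a • z + b • z := by rw [← add_smul, hab, one_smul]
      conv_rhs => rw [this]
      simp only [smul_add, smul_smul]
      rw [mul_comm (1 / K) a, mul_comm (1 / K) b]
      abel
    rw [h2] at h1
    simp only [smul_eq_mul] at h1 ⊢
    have h3 : -(K / 2) * ‖z‖ ^ 2 = a * (-(K / 2) * ‖z‖ ^ 2) + b * (-(K / 2) * ‖z‖ ^ 2) := by
      rw [← add_mul, hab, one_mul]
    linarith

end laplace

end Claimed.Agent.PL
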