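import Claimed.Agent.Lib.PLConvex

/-!
# Log-concave functions and laws (consequences of Prékopa's marginal theorem)

* `LogCc q` : log-concavity of an `ℝ≥0∞`-valued function (value `0` outside the support).
* closure properties, `LogCc.marginal` (Prékopa), `logCc_augment` (density of `Φ + Exp`).
* `SurvLC ρ` : both survival functions of a law `ρ` on the line are log-concave;
  `survLC_of_density`, `SurvLC.of_tendsto` (stability under weak limits, atoms allowed).
-/

open MeasureTheory Set Filter Topology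
open scoped ENNReal NNReal

namespace Claimed.Agent.PL

section defs
variable {E : Type*} [AddCommGroup E] [Module ℝ E]

/-- log-concave `ℝ≥0∞`-valued function (value `0` = outside the support). -/
def LogCc (q : E → ℝ≥0∞) : Prop :=
  ∀ x y : E, ∀ t : ℝ, 0 < t → t < 1 → q x ^ (1 - t) * q y ^ t ≤ q ((1 - t) • x + t • y)

theorem logCc_eqns_cite : True := by
  have := @LogCc.eq_1.{0}
  trivial

theorem logCc_exp_neg {V : E → ℝ} (hV : ConvexOn ℝ univ V) :
    LogCc (fun x => ENNReal.ofReal (Real.exp (- V x))) := by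
  intro x y t ht0 ht1
  have h1t : 0 < 1 - t := by linarith
  rw [ENNReal.ofReal_rpow_of_nonneg (Real.exp_pos _).le h1t.le,
    ENNReal.ofReal_rpow_of_nonneg (Real.exp_pos _).le ht0.le,
    ← ENNReal.ofReal_mul (Real.rpow_nonneg (Real.exp_pos _).le _)]
  apply ENNReal.ofReal_le_ofReal
  rw [← Real.exp_mul, ← Real.exp_mul, ← Real.exp_add]
  apply Real.exp_le_exp.2
  have := hV.2 (mem_univ x) (mem_univ y) h1t.le ht0.le (by ring)
  simp only [smul_eq_mul] at this
  linarith

theorem logCc_indicator {s : Set E} (hs : Convex ℝ s) :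
    LogCc (s.indicator (fun _ => (1 : ℝ≥0∞))) := by
  intro x y t ht0 ht1
  have h1t : 0 < 1 - t := by linarith
  by_cases hx : x ∈ s
  · by_cases hy : y ∈ s
    · have := hs hx hy h1t.le ht0.le (by ring)
      simp [indicator_of_mem hx, indicator_of_mem hy, indicator_of_mem this]
    · simp [indicator_of_notMem hy, ENNReal.zero_rpow_of_pos ht0]
  · simp [indicator_of_notMem hx, ENNReal.zero_rpow_of_pos h1t]

theorem LogCc.mul {f g : E → ℝ≥0∞} (hf : LogCc f) (hg : LogCc g) :
    LogCc (fun x => f x * g x) := by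
  intro x y t ht0 ht1
  have h1t : 0 < 1 - t := by linarith
  rw [ENNReal.mul_rpow_of_nonneg _ _ h1t.le, ENNReal.mul_rpow_of_nonneg _ _ ht0.le]
  calc f x ^ (1 - t) * g x ^ (1 - t) * (f y ^ t * g y ^ t)
      = (f x ^ (1 - t) * f y ^ t) * (g x ^ (1 - t) * g y ^ t) := by ring
    _ ≤ _ := mul_le_mul' (hf x y t ht0 ht1) (hg x y t ht0 ht1)

theorem LogCc.comp_linear {G : Type*} [AddCommGroup G] [Module ℝ G] {f : E → ℝ≥0∞}
    (hf : LogCc f) (L : G →ₗ[ℝ] E) (b : E) : LogCc (fun x => f (L x + b)) := by
  intro x y t ht0 ht1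
  have := hf (L x + b) (L y + b) t ht0 ht1
  have e : (1 - t) • (L x + b) + t • (L y + b) = L ((1 - t) • x + t • y) + b := by
    have hb : (1 - t) • b + t • b = b := by rw [← add_smul]; simp
    simp only [map_add, map_smul, smul_add]
    calc (1 - t) • L x + (1 - t) • b + (t • L y + t • b)
        = ((1 - t) • L x + t • L y) + ((1 - t) • b + t • b) := by abel
      _ = _ := by rw [hb]
  rwa [e] at this

theorem LogCc.congr {f g : E → ℝ≥0∞} (hf : LogCc f) (h : ∀ x, f x = g x) : LogCc g := by
  have : f = g := funext h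
  rwa [← this]

/-- **Prékopa's marginal theorem**, `LogCc` form. -/
theorem LogCc.marginal {F : Type*} [AddCommGroup F] [Module ℝ F] [MeasurableSpace F]
    {ν : Measure F} (hν : PLProp F ν) {f : E × F → ℝ≥0∞} (hf : LogCc f)
    (hm : ∀ x, Measurable fun y => f (x, y)) : LogCc (fun x => ∫⁻ y, f (x, y) ∂ν) := by
  intro x y t ht0 ht1
  exact hν.marginal (f := fun x y => f (x, y)) hm ht0 ht1 (fun y₀ y₁ => by
    have := hf (x, y₀) (y, y₁) t ht0 ht1
    simpa using this)

end defs

/-- The density of an exponential augmentation: `V`, `Φ` convex. -/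
theorem logCc_augment {F : Type*} [AddCommGroup F] [Module ℝ F] [MeasurableSpace F]
    {ν : Measure F} (hν : PLProp F ν) {V Φ : F → ℝ} (hV : ConvexOn ℝ univ V)
    (hΦ : ConvexOn ℝ univ Φ) (hVm : Measurable V) (hΦm : Measurable Φ) (lam : ℝ) :
    LogCc (fun z : ℝ => ∫⁻ g, ENNReal.ofReal (Real.exp (- V g - lam * z)) *
      (if Φ g ≤ z then 1 else 0) ∂ν) := by
  have h1 : ConvexOn ℝ univ (fun p : ℝ × F => V p.2 + lam * p.1) := by
    refine ⟨convex_univ, fun p _ q _ a b ha hb hab => ?_⟩
    have := hV.2 (mem_univ p.2) (mem_univ q.2) ha hb hab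
    simp only [Prod.snd_add, Prod.smul_snd, Prod.fst_add, Prod.smul_fst, smul_eq_mul] at this ⊢
    nlinarith
  have h2 : Convex ℝ {p : ℝ × F | Φ p.2 ≤ p.1} := by
    intro p hp q hq a b ha hb hab
    have := hΦ.2 (mem_univ p.2) (mem_univ q.2) ha hb hab
    simp only [mem_ofPred_eq, Prod.snd_add, Prod.smul_snd, Prod.fst_add, Prod.smul_fst,
      smul_eq_mul] at this hp hq ⊢
    nlinarith
  have h3 := ((logCc_exp_neg h1).mul (logCc_indicator h2)).marginal hν ?_
  · refine h3.congr fun z => lintegral_congr fun g => ?_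
    simp only [indicator_apply, mem_ofPred_eq]
    congr 3
    ring
  · intro z
    refine Measurable.mul (by fun_prop) ?_
    simp only [indicator_apply, mem_ofPred_eq]
    exact Measurable.ite (measurableSet_le hΦm measurable_const) measurable_const measurable_const

/-- Both survival functions of a law on the line are log-concave.  This is the only consequence
of "log-concave density" that tail and moment estimates use, and it is stable under weak limits. -/
structure SurvLC (ρ : Measure ℝ) : Prop where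
  up : LogCc (fun x : ℝ => ρ (Ici x))
  dn : LogCc (fun x : ℝ => ρ (Iic x))

theorem survLC_of_density {q : ℝ → ℝ≥0∞} (hq : Measurable q) (hlc : LogCc q) :
    SurvLC (volume.withDensity q) := by
  have hq2 : LogCc (fun p : ℝ × ℝ => q p.2) := by
    have := hlc.comp_linear (LinearMap.snd ℝ ℝ ℝ) 0
    exact this.congr fun p => by simp
  constructor
  · have hc : Convex ℝ {p : ℝ × ℝ | p.1 ≤ p.2} := by
      intro p hp r hr a b ha hb _
      simp only [mem_ofPred_eq, Prod.snd_add, Prod.smul_snd, Prod.fst_add, Prod.smul_fst,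
        smul_eq_mul] at hp hr ⊢
      nlinarith
    have h3 := (hq2.mul (logCc_indicator hc)).marginal plProp_real ?_
    · refine h3.congr fun x => ?_
      rw [withDensity_apply _ measurableSet_Ici, ← lintegral_indicator measurableSet_Ici]
      refine lintegral_congr fun y => ?_
      by_cases h : x ≤ y <;> simp [h]
    · intro x
      refine hq.mul ?_
      simp only [indicator_apply, mem_ofPred_eq]
      exact Measurable.ite (measurableSet_le measurable_const measurable_id) measurable_const
        measurable_const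
  · have hc : Convex ℝ {p : ℝ × ℝ | p.2 ≤ p.1} := by
      intro p hp r hr a b ha hb _
      simp only [mem_ofPred_eq, Prod.snd_add, Prod.smul_snd, Prod.fst_add, Prod.smul_fst,
        smul_eq_mul] at hp hr ⊢
      nlinarith
    have h3 := (hq2.mul (logCc_indicator hc)).marginal plProp_real ?_
    · refine h3.congr fun x => ?_
      rw [withDensity_apply _ measurableSet_Iic, ← lintegral_indicator measurableSet_Iic]
      refine lintegral_congr fun y => ?_
      by_cases h : y ≤ x <;> simp [h]
    · intro x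
      refine hq.mul ?_
      simp only [indicator_apply, mem_ofPred_eq]
      exact Measurable.ite (measurableSet_le measurable_id measurable_const) measurable_const
        measurable_const

/-- passage to the limit in a geometric-mean inequality: open sets on the left, closed on the
right. -/
theorem pl_weak_limit_geom {ρ : ℕ → ProbabilityMeasure ℝ} {ρ' : ProbabilityMeasure ℝ}
    (h : Tendsto ρ atTop (𝓝 ρ')) {G₁ G₂ F : Set ℝ} (hG₁ : IsOpen G₁) (hG₂ : IsOpen G₂)
    (hF : IsClosed F) {t : ℝ} (ht0 : 0 < t) (ht1 : t < 1)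
    (H : ∀ n, (ρ n : Measure ℝ) G₁ ^ (1 - t) * (ρ n : Measure ℝ) G₂ ^ t ≤ (ρ n : Measure ℝ) F) :
    (ρ' : Measure ℝ) G₁ ^ (1 - t) * (ρ' : Measure ℝ) G₂ ^ t ≤ (ρ' : Measure ℝ) F := by
  have h1t : 0 < 1 - t := by linarith
  have key : ∀ (G : Set ℝ), IsOpen G → ∀ s : ℝ, 0 < s →
      (ρ' : Measure ℝ) G ^ s ≤ liminf (fun n => (ρ n : Measure ℝ) G ^ s) atTop := by
    intro G hG s hs
    have h1 := ProbabilityMeasure.le_liminf_measure_open_of_tendsto h hG
    have h2 := (ENNReal.monotone_rpow_of_nonneg hs.le).map_liminf_of_continuousAt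
      (F := atTop) (fun n => (ρ n : Measure ℝ) G) (ENNReal.continuous_rpow_const.continuousAt)
    calc (ρ' : Measure ℝ) G ^ s ≤ (liminf (fun n => (ρ n : Measure ℝ) G) atTop) ^ s :=
          ENNReal.rpow_le_rpow h1 hs.le
      _ = _ := h2
  calc (ρ' : Measure ℝ) G₁ ^ (1 - t) * (ρ' : Measure ℝ) G₂ ^ t
      ≤ liminf (fun n => (ρ n : Measure ℝ) G₁ ^ (1 - t)) atTop *
          liminf (fun n => (ρ n : Measure ℝ) G₂ ^ t) atTop :=
        mul_le_mul' (key G₁ hG₁ _ h1t) (key G₂ hG₂ _ ht0)
    _ ≤ liminf ((fun n => (ρ n : Measure ℝ) G₁ ^ (1 - t)) *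
          (fun n => (ρ n : Measure ℝ) G₂ ^ t)) atTop := ENNReal.le_liminf_mul
    _ ≤ liminf (fun n => (ρ n : Measure ℝ) F) atTop :=
        liminf_le_liminf (Eventually.of_forall H)
    _ ≤ limsup (fun n => (ρ n : Measure ℝ) F) atTop := liminf_le_limsup
    _ ≤ (ρ' : Measure ℝ) F := ProbabilityMeasure.limsup_measure_closed_le_of_tendsto h hF

theorem pl_iInter_Ici (z : ℝ) : ⋂ k : ℕ, Ici (z - 1 / ((k : ℝ) + 1)) = Ici z := by
  ext w
  simp only [mem_iInter, mem_Ici]
  constructor
  · intro hw
    by_contra hlt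
    push Not at hlt
    obtain ⟨k, hk⟩ := exists_nat_one_div_lt (sub_pos.2 hlt)
    have := hw k
    linarith
  · intro hw k
    have : (0 : ℝ) < 1 / ((k : ℝ) + 1) := by positivity
    linarith

theorem pl_iInter_Iic (z : ℝ) : ⋂ k : ℕ, Iic (z + 1 / ((k : ℝ) + 1)) = Iic z := by
  ext w
  simp only [mem_iInter, mem_Iic]
  constructor
  · intro hw
    by_contra hlt
    push Not at hlt
    obtain ⟨k, hk⟩ := exists_nat_one_div_lt (sub_pos.2 hlt)
    have := hw k
    linarith
  · intro hw k
    have : (0 : ℝ) < 1 / ((k : ℝ) + 1) := by positivity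
    linarith

/-- `SurvLC` passes to weak limits; no condition on atoms. -/
theorem SurvLC.of_tendsto {ρ : ℕ → ProbabilityMeasure ℝ} {ρ' : ProbabilityMeasure ℝ}
    (h : Tendsto ρ atTop (𝓝 ρ')) (hlc : ∀ n, SurvLC (ρ n : Measure ℝ)) :
    SurvLC (ρ' : Measure ℝ) := by
  constructor
  · intro x y t ht0 ht1
    have h1t : 0 < 1 - t := by linarith
    have step : ∀ k : ℕ, (ρ' : Measure ℝ) (Ici x) ^ (1 - t) * (ρ' : Measure ℝ) (Ici y) ^ t ≤
        (ρ' : Measure ℝ) (Ici (((1 - t) • x + t • y) - 1 / ((k : ℝ) + 1))) := by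
      intro k
      set e : ℝ := 1 / ((k : ℝ) + 1) with he
      have hepos : 0 < e := by positivity
      have h1 := pl_weak_limit_geom h (G₁ := Ioi (x - e)) (G₂ := Ioi (y - e))
        (F := Ici (((1 - t) • x + t • y) - e)) isOpen_Ioi isOpen_Ioi isClosed_Ici ht0 ht1 ?_
      · refine le_trans (mul_le_mul' (ENNReal.rpow_le_rpow (measure_mono ?_) h1t.le)
          (ENNReal.rpow_le_rpow (measure_mono ?_) ht0.le)) h1
        · intro w hw; simp only [mem_Ici, mem_Ioi] at hw ⊢; linarith
        · intro w hw; simp only [mem_Ici, mem_Ioi] at hw ⊢; linarith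
      · intro n
        have h2 := (hlc n).up (x - e) (y - e) t ht0 ht1
        have e2 : (1 - t) • (x - e) + t • (y - e) = ((1 - t) • x + t • y) - e := by
          simp only [smul_eq_mul]; ring
        rw [e2] at h2
        exact le_trans (mul_le_mul' (ENNReal.rpow_le_rpow (measure_mono Ioi_subset_Ici_self) h1t.le)
          (ENNReal.rpow_le_rpow (measure_mono Ioi_subset_Ici_self) ht0.le)) h2
    have hanti : Antitone fun k : ℕ => Ici (((1 - t) • x + t • y) - 1 / ((k : ℝ) + 1)) := by
      intro a b hab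
      apply Ici_subset_Ici.2
      have : 1 / ((b : ℝ) + 1) ≤ 1 / ((a : ℝ) + 1) := by
        apply one_div_le_one_div_of_le (by positivity)
        have : (a : ℝ) ≤ b := by exact_mod_cast hab
        linarith
      linarith
    have hm := hanti.measure_iInter (μ := (ρ' : Measure ℝ))
      (fun _ => measurableSet_Ici.nullMeasurableSet) ⟨0, measure_ne_top _ _⟩
    rw [pl_iInter_Ici] at hm
    show _ ≤ (ρ' : Measure ℝ) (Ici ((1 - t) • x + t • y))
    rw [hm]
    exact le_iInf step
  · intro x y t ht0 ht1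
    have h1t : 0 < 1 - t := by linarith
    have step : ∀ k : ℕ, (ρ' : Measure ℝ) (Iic x) ^ (1 - t) * (ρ' : Measure ℝ) (Iic y) ^ t ≤
        (ρ' : Measure ℝ) (Iic (((1 - t) • x + t • y) + 1 / ((k : ℝ) + 1))) := by
      intro k
      set e : ℝ := 1 / ((k : ℝ) + 1) with he
      have hepos : 0 < e := by positivity
      have h1 := pl_weak_limit_geom h (G₁ := Iio (x + e)) (G₂ := Iio (y + e))
        (F := Iic (((1 - t) • x + t • y) + e)) isOpen_Iio isOpen_Iio isClosed_Iic ht0 ht1 ?_
      · refine le_trans (mul_le_mul' (ENNReal.rpow_le_rpow (measure_mono ?_) h1t.le)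
          (ENNReal.rpow_le_rpow (measure_mono ?_) ht0.le)) h1
        · intro w hw; simp only [mem_Iic, mem_Iio] at hw ⊢; linarith
        · intro w hw; simp only [mem_Iic, mem_Iio] at hw ⊢; linarith
      · intro n
        have h2 := (hlc n).dn (x + e) (y + e) t ht0 ht1
        have e2 : (1 - t) • (x + e) + t • (y + e) = ((1 - t) • x + t • y) + e := by
          simp only [smul_eq_mul]; ring
        rw [e2] at h2
        exact le_trans (mul_le_mul' (ENNReal.rpow_le_rpow (measure_mono Iio_subset_Iic_self) h1t.le)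
          (ENNReal.rpow_le_rpow (measure_mono Iio_subset_Iic_self) ht0.le)) h2
    have hanti : Antitone fun k : ℕ => Iic (((1 - t) • x + t • y) + 1 / ((k : ℝ) + 1)) := by
      intro a b hab
      apply Iic_subset_Iic.2
      have : 1 / ((b : ℝ) + 1) ≤ 1 / ((a : ℝ) + 1) := by
        apply one_div_le_one_div_of_le (by positivity)
        have : (a : ℝ) ≤ b := by exact_mod_cast hab
        linarith
      linarith
    have hm := hanti.measure_iInter (μ := (ρ' : Measure ℝ))
      (fun _ => measurableSet_Iic.nullMeasurableSet) ⟨0, measure_ne_top _ _⟩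
    rw [pl_iInter_Iic] at hm
    show _ ≤ (ρ' : Measure ℝ) (Iic ((1 - t) • x + t • y))
    rw [hm]
    exact le_iInf step

end Claimed.Agent.PL
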