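import Claimed.Agent.Lib.PLLogCc

/-!
# Row 286, BOX-A, leaf P7 (helper31): PE Lemma 7.7 (lines 1-3) for laws on `ℝ` with log-concave survival functions

* `Sk1d μ σ` : centred probability law, second moment `σ² > 0`, both survival functions log-concave
* `Sk1d.tail`, `Sk1d.mom`, `Sk1d.mgf`, `Sk1d.log_mgf`, `Sk1d.abs_lower`, `Sk1d.pz`
* `SurvLC.toSk1d`, `SurvLC.one_dim` (the statement of the skeleton of helper224)
-/

open MeasureTheory Set Filter Topology
open scoped ENNReal NNReal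

namespace Claimed.Agent.PL

/-- the universal rate `h = (log 3)/4` of PE Lemma 7.7 -/
noncomputable def sk1dH : ℝ := Real.log 3 / 4

theorem sk1dH_pos : 0 < sk1dH := by
  unfold sk1dH
  have := Real.log_pos (by norm_num : (1:ℝ) < 3)
  positivity

/-- abstract hypotheses of PE Lemma 7.7: a centred law of variance `σ²` whose two survival functions are log-concave -/
structure Sk1d (μ : Measure ℝ) (σ : ℝ) : Prop where
  prob : IsProbabilityMeasure μ
  sig : 0 < σ
  int2 : Integrable (fun x : ℝ => x ^ 2) μ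
  mean : ∫ x, x ∂μ = 0
  var : ∫ x, x ^ 2 ∂μ = σ ^ 2
  right : ∀ a b θ : ℝ, 0 < θ → θ < 1 →
    μ (Ici a) ^ (1 - θ) * μ (Ici b) ^ θ ≤ μ (Ici ((1 - θ) * a + θ * b))
  left : ∀ a b θ : ℝ, 0 < θ → θ < 1 →
    μ (Iic a) ^ (1 - θ) * μ (Iic b) ^ θ ≤ μ (Iic ((1 - θ) * a + θ * b))

namespace Sk1d

variable {μ : Measure ℝ} {σ : ℝ}

theorem int1 (H : Sk1d μ σ) : Integrable (fun x : ℝ => x) μ := by
  have := H.prob
  have h1 : Integrable (fun x : ℝ => 1 + x ^ 2) μ := (integrable_const 1).add H.int2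
  refine h1.mono' measurable_id.aestronglyMeasurable (Eventually.of_forall fun x => ?_)
  rw [Real.norm_eq_abs]
  nlinarith [sq_abs x, sq_nonneg (|x| - 1), abs_nonneg x]

/-- Chebyshev at `2σ` -/
theorem cheb (H : Sk1d μ σ) : μ.real {x | 2 * σ ≤ |x|} ≤ 1 / 4 := by
  have := H.prob
  have h := mul_meas_ge_le_integral_of_nonneg (μ := μ) (f := fun x : ℝ => x ^ 2)
    (Eventually.of_forall fun x => sq_nonneg x) H.int2 (4 * σ ^ 2)
  rw [H.var] at h
  have hs := H.sig
  have hset : {x : ℝ | 2 * σ ≤ |x|} ⊆ {x : ℝ | 4 * σ ^ 2 ≤ x ^ 2} := by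
    intro x hx
    simp only [mem_ofPred_eq] at hx ⊢
    rw [← sq_abs x]
    nlinarith
  have h2 : μ.real {x | 2 * σ ≤ |x|} ≤ μ.real {x : ℝ | 4 * σ ^ 2 ≤ x ^ 2} :=
    measureReal_mono hset
  have h3 : 0 < σ ^ 2 := by positivity
  nlinarith

theorem right_real (H : Sk1d μ σ) (a b θ : ℝ) (h0 : 0 < θ) (h1 : θ < 1) :
    μ.real (Ici a) ^ (1 - θ) * μ.real (Ici b) ^ θ ≤ μ.real (Ici ((1 - θ) * a + θ * b)) := by
  have := H.prob
  have h := H.right a b θ h0 h1
  have := ENNReal.toReal_mono (measure_ne_top μ _) h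
  rwa [ENNReal.toReal_mul, ← ENNReal.toReal_rpow, ← ENNReal.toReal_rpow] at this

/-- the law of `-X` -/
theorem neg (H : Sk1d μ σ) : Sk1d (μ.map fun x : ℝ => -x) σ := by
  have := H.prob
  have hm : Measurable fun x : ℝ => -x := measurable_neg
  refine ⟨Measure.isProbabilityMeasure_map hm.aemeasurable, H.sig, ?_, ?_, ?_, ?_, ?_⟩
  · rw [integrable_map_measure (by fun_prop) hm.aemeasurable]
    simpa [Function.comp_def] using H.int2
  · rw [integral_map hm.aemeasurable (by fun_prop), integral_neg, H.mean, neg_zero]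
  · rw [integral_map hm.aemeasurable (by fun_prop)]
    simpa using H.var
  · intro a b θ h0 h1
    have e : ∀ c : ℝ, (μ.map fun x : ℝ => -x) (Ici c) = μ (Iic (-c)) := by
      intro c
      rw [Measure.map_apply hm measurableSet_Ici]
      congr 1
      ext x
      simp [neg_le, le_neg]
    rw [e, e, e]
    have := H.left (-a) (-b) θ h0 h1
    have e2 : (1 - θ) * -a + θ * -b = -((1 - θ) * a + θ * b) := by ring
    rwa [e2] at this
  · intro a b θ h0 h1
    have e : ∀ c : ℝ, (μ.map fun x : ℝ => -x) (Iic c) = μ (Ici (-c)) := by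
      intro c
      rw [Measure.map_apply hm measurableSet_Iic]
      congr 1
      ext x
      simp [neg_le, le_neg]
    rw [e, e, e]
    have := H.right (-a) (-b) θ h0 h1
    have e2 : (1 - θ) * -a + θ * -b = -((1 - θ) * a + θ * b) := by ring
    rwa [e2] at this

/-- right tail beyond `2σ` -/
theorem tail_right (H : Sk1d μ σ) {t : ℝ} (ht : 2 ≤ t) :
    μ.real (Ici (t * σ)) ≤ Real.exp (-(sk1dH * t)) := by
  have := H.prob
  have hs := H.sig
  have hc := H.cheb
  have hl3 : 0 < Real.log 3 := Real.log_pos (by norm_num)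
  have hl34 : Real.log 3 ≤ Real.log 4 := Real.log_le_log (by norm_num) (by norm_num)
  -- B ≤ 1/4
  have hB : μ.real (Ici (2 * σ)) ≤ 1 / 4 := by
    refine le_trans (measureReal_mono ?_) hc
    intro x hx
    exact le_trans hx (le_abs_self x)
  -- A ≥ 3/4
  have hA : 3 / 4 ≤ μ.real (Ici (-(2 * σ))) := by
    have h1 : μ.real (Ici (-(2 * σ)))ᶜ ≤ 1 / 4 := by
      refine le_trans (measureReal_mono ?_) hc
      intro x hx
      simp only [mem_compl_iff, mem_Ici, not_le] at hx
      simp only [mem_ofPred_eq]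
      rw [abs_of_neg (by linarith)]
      linarith
    rw [probReal_compl_eq_one_sub measurableSet_Ici] at h1
    linarith
  rcases eq_or_lt_of_le ht with rfl | ht2
  · refine hB.trans ?_
    rw [show (1:ℝ) / 4 = Real.exp (-Real.log 4) by
      rw [Real.exp_neg, Real.exp_log (by norm_num)]; norm_num]
    apply Real.exp_le_exp.2
    unfold sk1dH
    linarith
  set S := μ.real (Ici (t * σ)) with hS
  have hS0 : 0 ≤ S := measureReal_nonneg
  rcases eq_or_lt_of_le hS0 with h0 | hSpos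
  · rw [← h0]; positivity
  set θ : ℝ := 4 / (t + 2) with hθ
  have ht2' : 0 < t + 2 := by linarith
  have hθ0 : 0 < θ := by positivity
  have hθ1 : θ < 1 := by rw [hθ, div_lt_one ht2']; linarith
  have key := H.right_real (-(2 * σ)) (t * σ) θ hθ0 hθ1
  have epoint : (1 - θ) * -(2 * σ) + θ * (t * σ) = 2 * σ := by
    have : θ * (t + 2) = 4 := by rw [hθ]; field_simp
    nlinarith
  rw [epoint] at key
  have hApos : 0 < μ.real (Ici (-(2 * σ))) := by linarith
  have k2 : (3 / 4 : ℝ) ^ (1 - θ) * S ^ θ ≤ 1 / 4 := by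
    refine le_trans ?_ (key.trans hB)
    gcongr
  have k3 := Real.log_le_log (by positivity) k2
  rw [Real.log_mul (by positivity) (by positivity), Real.log_rpow (by norm_num),
    Real.log_rpow hSpos] at k3
  have e34 : Real.log (3 / 4) = Real.log 3 - Real.log 4 := by
    rw [Real.log_div (by norm_num) (by norm_num)]
  have e14 : Real.log (1 / 4) = -Real.log 4 := by
    rw [one_div, Real.log_inv]
  rw [e34, e14] at k3
  -- θ log S ≤ -log 4 - (1-θ)(log 3 - log 4)
  have k4 : Real.log S ≤ -(sk1dH * t) := by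
    have hmul : θ * (t + 2) = 4 := by rw [hθ]; field_simp
    -- multiply k3 by (t+2)/4 = 1/θ
    have k5 : θ * Real.log S ≤ θ * (-(sk1dH * t)) := by
      have : θ * (-(sk1dH * t)) = -(Real.log 3) * (θ * t) / 4 := by unfold sk1dH; ring
      rw [this]
      have e1 : θ * t = 4 - 2 * θ := by linarith
      rw [e1]
      nlinarith
    exact le_of_mul_le_mul_left k5 hθ0
  calc S = Real.exp (Real.log S) := (Real.exp_log hSpos).symm
    _ ≤ _ := Real.exp_le_exp.2 k4

/-- two-sided tail, all `s ≥ 0` -/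
theorem tail (H : Sk1d μ σ) {s : ℝ} (hs : 0 ≤ s) :
    μ.real {x | s ≤ |x|} ≤ 2 * Real.exp (-(sk1dH / σ * s)) := by
  have := H.prob
  have hσ := H.sig
  have hl3 : 0 < Real.log 3 := Real.log_pos (by norm_num)
  set t := s / σ with ht
  have hst : s = t * σ := by rw [ht]; field_simp
  have e1 : sk1dH / σ * s = sk1dH * t := by rw [ht]; ring
  rw [e1]
  rcases le_or_gt 2 t with h2 | h2
  · have hsub : {x : ℝ | s ≤ |x|} ⊆ Ici (t * σ) ∪ Iic (-(t * σ)) := by
      intro x hx
      simp only [mem_ofPred_eq] at hx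
      rw [hst] at hx
      rcases le_abs.1 hx with h | h
      · exact Or.inl h
      · exact Or.inr (by simp only [mem_Iic]; linarith)
    have h3 : μ.real (Iic (-(t * σ))) = (μ.map fun x : ℝ => -x).real (Ici (t * σ)) := by
      rw [measureReal_def, measureReal_def, Measure.map_apply measurable_neg measurableSet_Ici]
      congr 2
      ext x
      simp [le_neg]
    calc μ.real {x | s ≤ |x|} ≤ μ.real (Ici (t * σ) ∪ Iic (-(t * σ))) := measureReal_mono hsub
      _ ≤ μ.real (Ici (t * σ)) + μ.real (Iic (-(t * σ))) := measureReal_union_le _ _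
      _ ≤ Real.exp (-(sk1dH * t)) + Real.exp (-(sk1dH * t)) := by
          rw [h3]
          exact add_le_add (H.tail_right h2) (H.neg.tail_right h2)
      _ = _ := by ring
  · have h4 : μ.real {x | s ≤ |x|} ≤ 1 := measureReal_le_one
    refine h4.trans ?_
    have h5 : Real.exp (-(Real.log 3 / 2)) ≤ Real.exp (-(sk1dH * t)) := by
      apply Real.exp_le_exp.2
      unfold sk1dH
      nlinarith
    have h6 : (1:ℝ) / 2 ≤ Real.exp (-(Real.log 3 / 2)) := by
      have : Real.exp (-(Real.log 3 / 2)) * Real.exp (-(Real.log 3 / 2)) = 1 / 3 := by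
        rw [← Real.exp_add, show -(Real.log 3 / 2) + -(Real.log 3 / 2) = -Real.log 3 by ring,
          Real.exp_neg, Real.exp_log (by norm_num)]
        norm_num
      have hp : 0 < Real.exp (-(Real.log 3 / 2)) := Real.exp_pos _
      nlinarith
    linarith

/-- layer cake against the exponential tail -/
theorem layer (H : Sk1d μ σ) {g : ℝ → ℝ} (g_int : ∀ t > 0, IntervalIntegrable g volume 0 t)
    (g_nn : ∀ t, 0 < t → 0 ≤ g t)
    (hgi : IntegrableOn (fun s => 2 * Real.exp (-(sk1dH / σ * s)) * g s) (Ioi 0)) :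
    ∫⁻ x, ENNReal.ofReal (∫ t in (0:ℝ)..|x|, g t) ∂μ ≤
      ENNReal.ofReal (∫ s in Ioi (0:ℝ), 2 * Real.exp (-(sk1dH / σ * s)) * g s) := by
  have := H.prob
  have hnn : ∀ᵐ t ∂volume.restrict (Ioi (0:ℝ)), 0 ≤ g t := by
    filter_upwards [self_mem_ae_restrict (measurableSet_Ioi : MeasurableSet (Ioi (0 : ℝ)))] with t ht
    exact g_nn t ht
  rw [lintegral_comp_eq_lintegral_meas_le_mul μ (Eventually.of_forall fun x => abs_nonneg x)
    (by fun_prop) g_int hnn]
  rw [ofReal_integral_eq_lintegral_ofReal hgi ?_]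
  · refine setLIntegral_mono_ae' measurableSet_Ioi (Eventually.of_forall fun s hs => ?_)
    rw [ENNReal.ofReal_mul (by positivity)]
    gcongr
    have h1 := H.tail (le_of_lt hs)
    rw [measureReal_def] at h1
    exact (ENNReal.le_ofReal_iff_toReal_le (measure_ne_top μ _) (by positivity)).2 h1
  · filter_upwards [self_mem_ae_restrict (measurableSet_Ioi : MeasurableSet (Ioi (0 : ℝ)))] with t ht
    have := g_nn t ht
    positivity

/-- the basic exponential estimate: `E[e^{t|x|} - 1 - t|x|] ≤ 2 t² / (a (a - t))`, `a = h/σ` -/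
theorem expo (H : Sk1d μ σ) {t : ℝ} (ht0 : 0 ≤ t) (ht : t < sk1dH / σ) :
    ∫⁻ x, ENNReal.ofReal (Real.exp (t * |x|) - 1 - t * |x|) ∂μ ≤
      ENNReal.ofReal (2 * t ^ 2 / (sk1dH / σ * (sk1dH / σ - t))) := by
  have hσ := H.sig
  have hh := sk1dH_pos
  set a := sk1dH / σ with ha
  have ha0 : 0 < a := by positivity
  have hat : 0 < a - t := by linarith
  have hprim : ∀ y : ℝ, ∫ s in (0:ℝ)..y, t * (Real.exp (t * s) - 1) = Real.exp (t * y) - 1 - t * y := by
    intro y
    have hd : ∀ s ∈ uIcc (0:ℝ) y, HasDerivAt (fun s => Real.exp (t * s) - t * s)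
        (t * (Real.exp (t * s) - 1)) s := by
      intro s _
      have h1 : HasDerivAt (fun s : ℝ => t * s) t s := by simpa using (hasDerivAt_id s).const_mul t
      have h2 := h1.exp.sub h1
      have e : Real.exp (t * s) * t - t = t * (Real.exp (t * s) - 1) := by ring
      rw [e] at h2
      exact h2
    rw [intervalIntegral.integral_eq_sub_of_hasDerivAt hd (by
      apply Continuous.intervalIntegrable; fun_prop)]
    simp
    ring
  have e1 : ∀ s : ℝ, 2 * Real.exp (-(a * s)) * (t * (Real.exp (t * s) - 1)) =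
      2 * t * Real.exp (-(a - t) * s) - 2 * t * Real.exp (-a * s) := by
    intro s
    have : Real.exp (-(a - t) * s) = Real.exp (-(a * s)) * Real.exp (t * s) := by
      rw [← Real.exp_add]; congr 1; ring
    rw [this, show -a * s = -(a * s) by ring]
    ring
  have i1 : IntegrableOn (fun s : ℝ => 2 * t * Real.exp (-(a - t) * s)) (Ioi 0) :=
    (integrableOn_exp_mul_Ioi (by linarith : -(a - t) < 0) 0).const_mul _
  have i2 : IntegrableOn (fun s : ℝ => 2 * t * Real.exp (-a * s)) (Ioi 0) :=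
    (integrableOn_exp_mul_Ioi (by linarith : -a < 0) 0).const_mul _
  have hgi : IntegrableOn (fun s => 2 * Real.exp (-(a * s)) * (t * (Real.exp (t * s) - 1))) (Ioi 0) := by
    simp_rw [e1]
    exact i1.sub i2
  have hL := H.layer (g := fun s => t * (Real.exp (t * s) - 1))
    (fun y _ => by apply Continuous.intervalIntegrable; fun_prop)
    (fun s hs => by
      have : 1 ≤ Real.exp (t * s) := Real.one_le_exp (by positivity)
      exact mul_nonneg ht0 (by linarith)) hgi
  simp_rw [hprim] at hL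
  simp only [← ha] at hL
  refine hL.trans (le_of_eq ?_)
  congr 1
  simp_rw [e1]
  rw [integral_sub i1 i2, integral_const_mul, integral_const_mul,
    integral_exp_mul_Ioi (by linarith : -(a - t) < 0) 0, integral_exp_mul_Ioi (by linarith : -a < 0) 0]
  simp only [mul_zero, Real.exp_zero]
  have h1 : a ≠ 0 := ha0.ne'
  have h2 : a - t ≠ 0 := hat.ne'
  rw [neg_div_neg_eq, neg_div_neg_eq]
  field_simp
  ring

/-- moments -/
theorem mom_lint (H : Sk1d μ σ) (n : ℕ) :
    ∫⁻ x, ENNReal.ofReal (|x| ^ (n + 1)) ∂μ ≤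
      ENNReal.ofReal (2 * (n + 1).factorial * (σ / sk1dH) ^ (n + 1)) := by
  have hσ := H.sig
  have hh := sk1dH_pos
  set a := sk1dH / σ with ha
  have ha0 : 0 < a := by positivity
  have hprim : ∀ y : ℝ, ∫ s in (0:ℝ)..y, ((n:ℝ) + 1) * s ^ n = y ^ (n + 1) := by
    intro y
    rw [intervalIntegral.integral_const_mul, integral_pow]
    field_simp
    simp
  have hG := Real.integral_rpow_mul_exp_neg_mul_Ioi (a := (n:ℝ) + 1) (r := a) (by positivity) ha0
  have hGe : ∫ s in Ioi (0:ℝ), s ^ n * Real.exp (-(a * s)) = (1 / a) ^ (n + 1) * n.factorial := by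
    rw [← Real.Gamma_nat_eq_factorial, ← Real.rpow_natCast (1 / a) (n + 1), ← (by push_cast; rfl : ((n:ℝ) + 1) = ((n + 1 : ℕ) : ℝ)), ← hG]
    refine setIntegral_congr_fun measurableSet_Ioi fun s _ => ?_
    simp only [add_sub_cancel_right, Real.rpow_natCast]
  have hpos : 0 < (1 / a) ^ (n + 1) * (n.factorial : ℝ) := by positivity
  have hI0 : IntegrableOn (fun s : ℝ => s ^ n * Real.exp (-(a * s))) (Ioi 0) := by
    by_contra hc
    have := integral_undef hc
    rw [hGe] at this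
    exact hpos.ne' this
  have e1 : ∀ s : ℝ, 2 * Real.exp (-(a * s)) * (((n:ℝ) + 1) * s ^ n) =
      (2 * ((n:ℝ) + 1)) * (s ^ n * Real.exp (-(a * s))) := by intro s; ring
  have hgi : IntegrableOn (fun s => 2 * Real.exp (-(a * s)) * (((n:ℝ) + 1) * s ^ n)) (Ioi 0) := by
    simp_rw [e1]
    exact hI0.const_mul _
  have hL := H.layer (g := fun s => ((n:ℝ) + 1) * s ^ n)
    (fun y _ => by apply Continuous.intervalIntegrable; fun_prop)
    (fun s hs => by positivity) hgi
  simp_rw [hprim] at hL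
  simp only [← ha] at hL
  refine hL.trans (le_of_eq ?_)
  congr 1
  simp_rw [e1]
  rw [integral_const_mul, hGe, Nat.factorial_succ, ha]
  push_cast
  field_simp

/-- from a bound on the lower integral of a nonnegative measurable function to the Bochner integral -/
theorem _root_.Claimed.Agent.PL.sk1d_of_lint {μ : Measure ℝ} {f : ℝ → ℝ} {B : ℝ} (hf : Measurable f)
    (h0 : ∀ x, 0 ≤ f x) (hB : ∫⁻ x, ENNReal.ofReal (f x) ∂μ ≤ ENNReal.ofReal B) :
    Integrable f μ ∧ ∫ x, f x ∂μ ≤ max B 0 := by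
  have hfin : ∫⁻ x, ENNReal.ofReal (f x) ∂μ < ∞ := lt_of_le_of_lt hB ENNReal.ofReal_lt_top
  refine ⟨⟨hf.aestronglyMeasurable, ?_⟩, ?_⟩
  · rw [hasFiniteIntegral_iff_ofReal (Eventually.of_forall h0)]
    exact hfin
  · rw [integral_eq_lintegral_of_nonneg_ae (Eventually.of_forall h0) hf.aestronglyMeasurable]
    have := ENNReal.toReal_mono ENNReal.ofReal_ne_top hB
    refine this.trans ?_
    rw [ENNReal.toReal_ofReal']

theorem mom (H : Sk1d μ σ) (n : ℕ) : Integrable (fun x : ℝ => |x| ^ (n + 1)) μ ∧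
    ∫ x, |x| ^ (n + 1) ∂μ ≤ 2 * (n + 1).factorial * (σ / sk1dH) ^ (n + 1) := by
  have hσ := H.sig
  have hh := sk1dH_pos
  have h := sk1d_of_lint (μ := μ) (f := fun x : ℝ => |x| ^ (n + 1)) (by fun_prop)
    (fun x => by positivity) (H.mom_lint n)
  refine ⟨h.1, h.2.trans (le_of_eq (max_eq_left (by positivity)))⟩

theorem phi (H : Sk1d μ σ) {t : ℝ} (ht0 : 0 ≤ t) (ht : t < sk1dH / σ) :
    Integrable (fun x : ℝ => Real.exp (t * |x|) - 1 - t * |x|) μ ∧
    ∫ x, (Real.exp (t * |x|) - 1 - t * |x|) ∂μ ≤ 2 * t ^ 2 / (sk1dH / σ * (sk1dH / σ - t)) := by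
  have hσ := H.sig
  have hh := sk1dH_pos
  have h := sk1d_of_lint (μ := μ) (f := fun x : ℝ => Real.exp (t * |x|) - 1 - t * |x|) (by fun_prop)
    (fun x => by have := Real.add_one_le_exp (t * |x|); linarith) (H.expo ht0 ht)
  refine ⟨h.1, h.2.trans (le_of_eq (max_eq_left ?_))⟩
  have : 0 < sk1dH / σ - t := by linarith
  positivity

theorem _root_.Claimed.Agent.PL.sk1d_exp_le (y : ℝ) :
    Real.exp y ≤ 1 + y + (Real.exp |y| - 1 - |y|) := by
  rcases le_or_gt 0 y with h | h
  · rw [abs_of_nonneg h]; linarith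
  · rw [abs_of_neg h]
    have h1 : -y ≤ Real.sinh (-y) := Real.self_le_sinh_iff.2 (by linarith)
    rw [Real.sinh_eq, neg_neg] at h1
    linarith

theorem absint (H : Sk1d μ σ) : Integrable (fun x : ℝ => |x|) μ := H.int1.abs

/-- the moment generating function for small `t ≥ 0` -/
theorem mgf (H : Sk1d μ σ) {t : ℝ} (ht0 : 0 ≤ t) (ht : t < sk1dH / σ) :
    Integrable (fun x : ℝ => Real.exp (t * x)) μ ∧
    ∫ x, Real.exp (t * x) ∂μ ≤ 1 + 2 * t ^ 2 / (sk1dH / σ * (sk1dH / σ - t)) := by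
  have := H.prob
  obtain ⟨hi, hb⟩ := H.phi ht0 ht
  have hmaj : Integrable (fun x : ℝ => 1 + t * x + (Real.exp (t * |x|) - 1 - t * |x|)) μ :=
    ((integrable_const 1).add (H.int1.const_mul t)).add hi
  have hle : ∀ x : ℝ, Real.exp (t * x) ≤ 1 + t * x + (Real.exp (t * |x|) - 1 - t * |x|) := by
    intro x
    have := sk1d_exp_le (t * x)
    rwa [abs_mul, abs_of_nonneg ht0] at this
  have hint : Integrable (fun x : ℝ => Real.exp (t * x)) μ := by
    refine hmaj.mono' (by fun_prop) (Eventually.of_forall fun x => ?_)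
    rw [Real.norm_eq_abs, abs_of_pos (Real.exp_pos _)]
    exact hle x
  refine ⟨hint, ?_⟩
  calc ∫ x, Real.exp (t * x) ∂μ ≤ ∫ x, (1 + t * x + (Real.exp (t * |x|) - 1 - t * |x|)) ∂μ :=
        integral_mono hint hmaj hle
    _ = 1 + t * 0 + ∫ x, (Real.exp (t * |x|) - 1 - t * |x|) ∂μ := by
        have hA : Integrable (fun x : ℝ => 1 + t * x) μ := (integrable_const 1).add (H.int1.const_mul t)
        rw [integral_add hA hi,
          integral_add (integrable_const 1) (H.int1.const_mul t), integral_const_mul, H.mean]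
        simp
    _ ≤ _ := by linarith

theorem log_mgf (H : Sk1d μ σ) {t : ℝ} (ht0 : 0 ≤ t) (ht : t * σ ≤ sk1dH / 2) :
    Integrable (fun x : ℝ => Real.exp (t * x)) μ ∧
    Real.log (∫ x, Real.exp (t * x) ∂μ) ≤ 4 * (t * σ / sk1dH) ^ 2 := by
  have := H.prob
  have hσ := H.sig
  have hh := sk1dH_pos
  have hta : t ≤ sk1dH / σ / 2 := by
    rw [div_div, le_div_iff₀ (by positivity)]
    linarith
  have ha0 : 0 < sk1dH / σ := by positivity
  obtain ⟨hi, hb⟩ := H.mgf ht0 (by linarith)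
  refine ⟨hi, ?_⟩
  have hpos : 0 < ∫ x, Real.exp (t * x) ∂μ := integral_exp_pos hi
  refine (Real.log_le_sub_one_of_pos hpos).trans ?_
  have h1 : 2 * t ^ 2 / (sk1dH / σ * (sk1dH / σ - t)) ≤ 4 * (t * σ / sk1dH) ^ 2 := by
    have e : 4 * (t * σ / sk1dH) ^ 2 = 2 * t ^ 2 / (sk1dH / σ * (sk1dH / σ / 2)) := by
      field_simp
      ring
    rw [e]
    gcongr
    linarith
  linarith

theorem _root_.Claimed.Agent.PL.sk1dH_lt_one : sk1dH < 1 := by
  unfold sk1dH
  have := Real.log_le_sub_one_of_pos (by norm_num : (0:ℝ) < 3)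
  linarith

/-- lower bound for the first absolute moment -/
theorem abs_lower (H : Sk1d μ σ) : sk1dH ^ 2 / 20 * σ ≤ ∫ x, |x| ∂μ := by
  have := H.prob
  have hσ := H.sig
  have hh := sk1dH_pos
  set K := 10 * σ / sk1dH ^ 2 with hK
  have hK0 : 0 < K := by positivity
  obtain ⟨i4, b4⟩ := H.mom 3
  have hpt : ∀ x : ℝ, x ^ 2 ≤ K * |x| + |x| ^ (3 + 1) / K ^ 2 := by
    intro x
    rw [← sq_abs x]
    set u := |x| with hu
    have hu0 : 0 ≤ u := abs_nonneg x
    rw [← sub_nonneg]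
    have e : K * u + u ^ (3 + 1) / K ^ 2 - u ^ 2 = (K ^ 3 * u + u ^ 4 - u ^ 2 * K ^ 2) / K ^ 2 := by
      field_simp
      ring
    rw [e]
    apply div_nonneg _ (by positivity)
    rcases le_or_gt u K with h | h
    · have : 0 ≤ u * K ^ 2 * (K - u) := by
        have : 0 ≤ K - u := by linarith
        positivity
      nlinarith [pow_nonneg hu0 4]
    · have : 0 ≤ u ^ 2 * (u ^ 2 - K ^ 2) := by
        have : 0 ≤ u ^ 2 - K ^ 2 := by nlinarith
        positivity
      nlinarith [mul_nonneg (pow_nonneg hK0.le 3) hu0]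
  have hmaj : Integrable (fun x : ℝ => K * |x| + |x| ^ (3 + 1) / K ^ 2) μ :=
    (H.absint.const_mul K).add (i4.div_const _)
  have h1 : σ ^ 2 ≤ K * ∫ x, |x| ∂μ + (∫ x, |x| ^ (3 + 1) ∂μ) / K ^ 2 := by
    rw [← H.var]
    calc ∫ x, x ^ 2 ∂μ ≤ ∫ x, (K * |x| + |x| ^ (3 + 1) / K ^ 2) ∂μ := integral_mono H.int2 hmaj hpt
      _ = _ := by
        rw [integral_add (H.absint.const_mul K) (i4.div_const _), integral_const_mul, integral_div]
  have h2 : (∫ x, |x| ^ (3 + 1) ∂μ) / K ^ 2 ≤ 48 / 100 * σ ^ 2 := by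
    rw [div_le_iff₀ (by positivity)]
    refine b4.trans (le_of_eq ?_)
    rw [hK]
    simp only [Nat.factorial]
    push_cast
    field_simp
    ring
  have h3 : 52 / 100 * σ ^ 2 ≤ K * ∫ x, |x| ∂μ := by linarith
  have h4 : K * (sk1dH ^ 2 / 20 * σ) = 50 / 100 * σ ^ 2 := by
    rw [hK]; field_simp; ring
  have h5 : K * (sk1dH ^ 2 / 20 * σ) ≤ K * ∫ x, |x| ∂μ := by
    rw [h4]
    have : 0 < σ ^ 2 := by positivity
    linarith
  exact le_of_mul_le_mul_left h5 hK0

/-- Paley-Zygmund -/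
theorem pz (H : Sk1d μ σ) :
    (sk1dH ^ 2 / 20) ^ 2 / 16 ≤ μ.real (Ici (sk1dH ^ 2 / 20 / 4 * σ)) := by
  have := H.prob
  have hσ := H.sig
  have hh := sk1dH_pos
  set c1 := sk1dH ^ 2 / 20 with hc1
  have hc10 : 0 < c1 := by positivity
  set m := (∫ x, |x| ∂μ) / 2 with hm
  have hmlow : c1 * σ / 2 ≤ m := by
    have := H.abs_lower
    rw [← hc1] at this
    rw [hm]; linarith
  have hm0 : 0 < m := lt_of_lt_of_le (by positivity) hmlow
  set lam := m / (2 * σ ^ 2) with hlam
  have hlam0 : 0 < lam := by positivity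
  set A : Set ℝ := Ici (m / 2) with hA
  have hpt : ∀ x : ℝ, (|x| + x) / 2 ≤
      m / 2 + lam / 2 * x ^ 2 + 1 / (2 * lam) * A.indicator 1 x := by
    intro x
    by_cases hx : x ∈ A
    · rw [indicator_of_mem hx]
      have hx' : m / 2 ≤ x := hx
      rw [abs_of_nonneg (by linarith)]
      have e : lam / 2 * x ^ 2 + 1 / (2 * lam) * (1 : ℝ → ℝ) x - x = (lam * x - 1) ^ 2 / (2 * lam) := by
        simp only [Pi.one_apply]
        field_simp
        ring
      have : 0 ≤ (lam * x - 1) ^ 2 / (2 * lam) := by positivity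
      linarith
    · rw [indicator_of_notMem hx]
      have hx' : x < m / 2 := by simpa [hA] using hx
      have : 0 ≤ lam / 2 * x ^ 2 := by positivity
      rcases le_or_gt 0 x with h | h
      · rw [abs_of_nonneg h]; linarith
      · rw [abs_of_neg h]; linarith
  have iA : Integrable (A.indicator (1 : ℝ → ℝ)) μ :=
    (integrable_const (1:ℝ)).indicator measurableSet_Ici
  have i1 : Integrable (fun x : ℝ => (|x| + x) / 2) μ := (H.absint.add H.int1).div_const 2
  have i2 : Integrable (fun x : ℝ => m / 2 + lam / 2 * x ^ 2) μ :=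
    (integrable_const _).add (H.int2.const_mul _)
  have i3 : Integrable (fun x : ℝ => 1 / (2 * lam) * A.indicator 1 x) μ := iA.const_mul _
  have i23 : Integrable (fun x : ℝ => m / 2 + lam / 2 * x ^ 2 + 1 / (2 * lam) * A.indicator 1 x) μ :=
    i2.add i3
  have hI := integral_mono i1 i23 hpt
  have e1 : ∫ x, (|x| + x) / 2 ∂μ = m := by
    rw [integral_div, integral_add H.absint H.int1, H.mean, add_zero]
  have e2 : ∫ x, (m / 2 + lam / 2 * x ^ 2 + 1 / (2 * lam) * A.indicator 1 x) ∂μ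
      = m / 2 + lam / 2 * σ ^ 2 + 1 / (2 * lam) * μ.real A := by
    rw [integral_add i2 i3, integral_add (integrable_const _) (H.int2.const_mul _),
      integral_const_mul, integral_const_mul, H.var, integral_indicator_one measurableSet_Ici]
    simp [hA]
  rw [e1, e2] at hI
  have e3 : lam / 2 * σ ^ 2 = m / 4 := by rw [hlam]; field_simp; ring
  have e4 : 1 / (2 * lam) = σ ^ 2 / m := by rw [hlam]; field_simp
  rw [e3, e4] at hI
  have h6 : m ^ 2 / (4 * σ ^ 2) ≤ μ.real A := by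
    rw [div_le_iff₀ (by positivity)]
    have : m / 4 * m ≤ σ ^ 2 / m * μ.real A * m := by
      apply mul_le_mul_of_nonneg_right _ hm0.le
      linarith
    have e5 : σ ^ 2 / m * μ.real A * m = σ ^ 2 * μ.real A := by field_simp
    rw [e5] at this
    linarith
  have h7 : c1 ^ 2 / 16 ≤ m ^ 2 / (4 * σ ^ 2) := by
    rw [le_div_iff₀ (by positivity)]
    have : (c1 * σ / 2) ^ 2 ≤ m ^ 2 := by
      apply pow_le_pow_left₀ (by positivity) hmlow
    nlinarith
  refine (h7.trans h6).trans (measureReal_mono ?_)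
  intro x hx
  have hx' : m / 2 ≤ x := hx
  simp only [mem_Ici]
  linarith

end Sk1d

theorem SurvLC.toSk1d {ρ : Measure ℝ} [hp : IsProbabilityMeasure ρ] {σ : ℝ} (h : SurvLC ρ) (hσ : 0 < σ)
    (h2 : MemLp id 2 ρ) (hm : ∫ x, x ∂ρ = 0) (hv : ∫ x, x ^ 2 ∂ρ = σ ^ 2) : Sk1d ρ σ := by
  refine ⟨hp, hσ, ?_, hm, hv, ?_, ?_⟩
  · simpa using h2.integrable_sq
  · intro a b θ h0 h1
    simpa using h.up a b θ h0 h1
  · intro a b θ h0 h1
    simpa using h.dn a b θ h0 h1

/-- the universal constant of `SurvLC.one_dim` -/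
noncomputable def sk1dC : ℝ := (sk1dH ^ 2 / 20) ^ 2 / 16

theorem sk1dC_pos : 0 < sk1dC := by
  unfold sk1dC
  have := sk1dH_pos
  positivity

theorem Sk1d.mass {μ : Measure ℝ} {σ : ℝ} (H : Sk1d μ σ) : sk1dC ≤ μ.real (Ici (sk1dC * σ)) := by
  have := H.prob
  have hσ := H.sig
  have hh := sk1dH_pos
  have h1 := sk1dH_lt_one
  refine H.pz.trans (measureReal_mono ?_)
  intro x hx
  simp only [mem_Ici] at hx ⊢
  refine le_trans ?_ hx
  apply mul_le_mul_of_nonneg_right _ hσ.le
  unfold sk1dC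
  have h2 : sk1dH ^ 2 / 20 ≤ 1 := by nlinarith
  have h3 : 0 < sk1dH ^ 2 / 20 := by positivity
  nlinarith

theorem Sk1d.mgf_lower {μ : Measure ℝ} {σ : ℝ} (H : Sk1d μ σ) {t : ℝ} (ht : 0 ≤ t) :
    ENNReal.ofReal (sk1dC * Real.exp (sk1dC * t * σ)) ≤ ∫⁻ x, ENNReal.ofReal (Real.exp (t * x)) ∂μ := by
  have := H.prob
  have hm := H.mass
  have hc := sk1dC_pos
  calc ENNReal.ofReal (sk1dC * Real.exp (sk1dC * t * σ))
      ≤ ENNReal.ofReal (Real.exp (sk1dC * t * σ)) * μ (Ici (sk1dC * σ)) := by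
        rw [mul_comm, ENNReal.ofReal_mul (Real.exp_pos _).le]
        gcongr
        rw [measureReal_def] at hm
        exact (ENNReal.ofReal_le_iff_le_toReal (measure_ne_top μ _)).2 hm
    _ = ∫⁻ _ in Ici (sk1dC * σ), ENNReal.ofReal (Real.exp (sk1dC * t * σ)) ∂μ := by
        rw [setLIntegral_const]
    _ ≤ ∫⁻ x in Ici (sk1dC * σ), ENNReal.ofReal (Real.exp (t * x)) ∂μ := by
        refine setLIntegral_mono_ae' measurableSet_Ici (Eventually.of_forall fun x hx => ?_)
        apply ENNReal.ofReal_le_ofReal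
        apply Real.exp_le_exp.2
        have hx' : sk1dC * σ ≤ x := hx
        nlinarith
    _ ≤ _ := setLIntegral_le_lintegral _ _

/-- **P7 = PE Lemma 7.7 without the density line**; `h = log 3 / 4`. -/
theorem SurvLC.one_dim : ∃ c : ℝ, 0 < c ∧ ∀ (ρ : Measure ℝ) [IsProbabilityMeasure ρ] (σ : ℝ),
    SurvLC ρ → 0 < σ → MemLp id 2 ρ → ∫ x, x ∂ρ = 0 → ∫ x, x ^ 2 ∂ρ = σ ^ 2 →
    (∀ t : ℝ, 0 ≤ t → ρ.real {x | t * σ ≤ |x|} ≤ 2 * Real.exp (-(Real.log 3 / 4) * t)) ∧
    (∀ k : ℕ, 1 ≤ k → ∫ x, |x| ^ k ∂ρ ≤ 2 * k.factorial * (σ / (Real.log 3 / 4)) ^ k) ∧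
    (∀ t : ℝ, 0 ≤ t → t * σ ≤ Real.log 3 / 8 →
      Integrable (fun x => Real.exp (t * x)) ρ ∧
      Real.log (∫ x, Real.exp (t * x) ∂ρ) ≤ 4 * (t * σ / (Real.log 3 / 4)) ^ 2) ∧
    c ≤ ρ.real (Ici (c * σ)) ∧
    (∀ t : ℝ, 0 ≤ t → ENNReal.ofReal (c * Real.exp (c * t * σ)) ≤
      ∫⁻ x, ENNReal.ofReal (Real.exp (t * x)) ∂ρ) := by
  refine ⟨sk1dC, sk1dC_pos, ?_⟩
  intro ρ _ σ h hσ h2 hm hv
  have H : Sk1d ρ σ := h.toSk1d hσ h2 hm hv
  have eH : Real.log 3 / 4 = sk1dH := rfl
  rw [eH]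
  refine ⟨?_, ?_, ?_, H.mass, fun t ht => H.mgf_lower ht⟩
  · intro t ht
    have := H.tail (s := t * σ) (by positivity)
    have e : sk1dH / σ * (t * σ) = sk1dH * t := by field_simp
    rw [e] at this
    rwa [neg_mul]
  · intro k hk
    obtain ⟨n, rfl⟩ : ∃ n, k = n + 1 := ⟨k - 1, by omega⟩
    exact (H.mom n).2
  · intro t ht ht2
    exact H.log_mgf ht (by unfold sk1dH; linarith)

end Claimed.Agent.PL
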