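import Claimed.Agent.Lib.PLReal

/-!
# Prékopa–Leindler, part 2: products, push-forwards, finite dimensional spaces

`PLProp E μ` says that the measure `μ` on the real vector space `E` satisfies the
Prékopa–Leindler inequality for all measurable `ℝ≥0∞`-valued functions.

* `plProp_real`, `PLProp.prod`, `PLProp.map`, `PLProp.smul_measure`
* `plProp_pi_fin`, `plProp_addHaar` (any additive Haar measure on a finite dimensional space)
* `PLProp.marginal` : Prékopa's theorem on marginals.
-/

open MeasureTheory Set Filter Topology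
open scoped ENNReal NNReal Pointwise

namespace Claimed.Agent.PL

/-- The Prékopa–Leindler property of a measure on a real vector space. -/
def PLProp (E : Type*) [AddCommGroup E] [Module ℝ E] [MeasurableSpace E] (μ : Measure E) : Prop :=
  ∀ (t : ℝ), 0 < t → t < 1 → ∀ f g h : E → ℝ≥0∞, Measurable f → Measurable g → Measurable h →
    (∀ x y, f x ^ (1 - t) * g y ^ t ≤ h ((1 - t) • x + t • y)) →
    (∫⁻ x, f x ∂μ) ^ (1 - t) * (∫⁻ x, g x ∂μ) ^ t ≤ ∫⁻ x, h x ∂μ

theorem plProp_real : PLProp ℝ volume := by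
  intro t ht0 ht1 f g h hf hg hh H
  exact pl_real hf hg hh ht0 ht1 (by simpa using H)

section general

variable {E F : Type*} [AddCommGroup E] [Module ℝ E] [MeasurableSpace E]
  [AddCommGroup F] [Module ℝ F] [MeasurableSpace F]

theorem PLProp.prod {μ : Measure E} {ν : Measure F} [SFinite μ] [SFinite ν]
    (hμ : PLProp E μ) (hν : PLProp F ν) : PLProp (E × F) (μ.prod ν) := by
  intro t ht0 ht1 f g h hf hg hh H
  rw [lintegral_prod _ hf.aemeasurable, lintegral_prod _ hg.aemeasurable,
    lintegral_prod _ hh.aemeasurable]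
  refine hμ t ht0 ht1 _ _ _ hf.lintegral_prod_right' hg.lintegral_prod_right'
    hh.lintegral_prod_right' ?_
  intro x₀ x₁
  refine hν t ht0 ht1 _ _ _ (hf.comp measurable_prodMk_left) (hg.comp measurable_prodMk_left)
    (hh.comp measurable_prodMk_left) ?_
  intro y₀ y₁
  exact H (x₀, y₀) (x₁, y₁)

/-- Push-forward under a measurable map respecting linear combinations. -/
theorem PLProp.map {μ : Measure E} (hμ : PLProp E μ) {L : E → F} (hL : Measurable L)
    (hlin : ∀ (a b : ℝ) (x y : E), L (a • x + b • y) = a • L x + b • L y) :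
    PLProp F (μ.map L) := by
  intro t ht0 ht1 f g h hf hg hh H
  rw [lintegral_map hf hL, lintegral_map hg hL, lintegral_map hh hL]
  refine hμ t ht0 ht1 _ _ _ (hf.comp hL) (hg.comp hL) (hh.comp hL) ?_
  intro x y
  rw [hlin]
  exact H _ _

theorem pl_rpow_mul_rpow_self (c : ℝ≥0∞) {t : ℝ} (ht0 : 0 < t) (ht1 : t < 1) :
    c ^ (1 - t) * c ^ t = c := by
  have h1t : 0 < 1 - t := by linarith
  by_cases h0 : c = 0
  · subst h0; simp [ENNReal.zero_rpow_of_pos ht0]
  by_cases hT : c = ∞
  · subst hT; simp [ENNReal.top_rpow_of_pos ht0, ENNReal.top_rpow_of_pos h1t]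
  rw [← ENNReal.rpow_add _ _ h0 hT]; simp

theorem PLProp.smul_measure {μ : Measure E} (hμ : PLProp E μ) (c : ℝ≥0∞) :
    PLProp E (c • μ) := by
  intro t ht0 ht1 f g h hf hg hh H
  have h1t : 0 < 1 - t := by linarith
  simp only [lintegral_smul_measure, smul_eq_mul]
  rw [ENNReal.mul_rpow_of_nonneg _ _ h1t.le, ENNReal.mul_rpow_of_nonneg _ _ ht0.le]
  calc c ^ (1 - t) * (∫⁻ x, f x ∂μ) ^ (1 - t) * (c ^ t * (∫⁻ x, g x ∂μ) ^ t)
      = (c ^ (1 - t) * c ^ t) * ((∫⁻ x, f x ∂μ) ^ (1 - t) * (∫⁻ x, g x ∂μ) ^ t) := by ring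
    _ = c * ((∫⁻ x, f x ∂μ) ^ (1 - t) * (∫⁻ x, g x ∂μ) ^ t) := by
        rw [pl_rpow_mul_rpow_self c ht0 ht1]
    _ ≤ c * ∫⁻ x, h x ∂μ := by
        gcongr
        exact hμ t ht0 ht1 f g h hf hg hh H

omit [MeasurableSpace E] in
/-- **Prékopa's theorem**: marginals of log-concave functions are log-concave
(`ℝ≥0∞`-valued form; no measurability in the first variable is needed). -/
theorem PLProp.marginal {ν : Measure F} (hν : PLProp F ν) {f : E → F → ℝ≥0∞}
    (hf : ∀ x, Measurable (f x)) {t : ℝ} (ht0 : 0 < t) (ht1 : t < 1) {x₀ x₁ : E}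
    (H : ∀ y₀ y₁, f x₀ y₀ ^ (1 - t) * f x₁ y₁ ^ t
      ≤ f ((1 - t) • x₀ + t • x₁) ((1 - t) • y₀ + t • y₁)) :
    (∫⁻ y, f x₀ y ∂ν) ^ (1 - t) * (∫⁻ y, f x₁ y ∂ν) ^ t
      ≤ ∫⁻ y, f ((1 - t) • x₀ + t • x₁) y ∂ν :=
  hν t ht0 ht1 _ _ _ (hf _) (hf _) (hf _) H

end general

/-- Prékopa–Leindler on `Fin n → ℝ`. -/
theorem plProp_pi_fin (n : ℕ) : PLProp (Fin n → ℝ) volume := by
  induction n with
  | zero =>
    intro t ht0 ht1 f g h hf hg hh H
    have hv : (volume : Measure (Fin 0 → ℝ)) = Measure.dirac 0 := by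
      rw [volume_pi, Measure.pi_of_empty]
      congr 1
      exact Subsingleton.elim _ _
    rw [hv, lintegral_dirac' _ hf, lintegral_dirac' _ hg, lintegral_dirac' _ hh]
    simpa using H 0 0
  | succ n ih =>
    have hmp := volume_preserving_piFinSuccAbove (fun _ : Fin (n + 1) => ℝ) 0
    have hmp' := hmp.symm
    have := (plProp_real.prod ih).map (L := (MeasurableEquiv.piFinSuccAbove
      (fun _ : Fin (n + 1) => ℝ) 0).symm) (MeasurableEquiv.measurable _) ?_
    · rw [← hmp'.map_eq]
      exact this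
    · intro a b x y
      ext i
      refine Fin.cases ?_ (fun j => ?_) i
      · simp [MeasurableEquiv.piFinSuccAbove]
      · simp [MeasurableEquiv.piFinSuccAbove]

/-- Prékopa–Leindler for any additive Haar measure on a finite dimensional real normed space. -/
theorem plProp_addHaar {E : Type*} [NormedAddCommGroup E] [NormedSpace ℝ E]
    [FiniteDimensional ℝ E] [MeasurableSpace E] [BorelSpace E] (μ : Measure E)
    [μ.IsAddHaarMeasure] : PLProp E μ := by
  set e : (Fin (Module.finrank ℝ E) → ℝ) ≃L[ℝ] E :=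
    (ContinuousLinearEquiv.ofFinrankEq (by simp)) with he
  have h1 : PLProp E ((volume : Measure (Fin (Module.finrank ℝ E) → ℝ)).map e) :=
    (plProp_pi_fin _).map e.continuous.measurable (by intro a b x y; simp)
  have : ((volume : Measure (Fin (Module.finrank ℝ E) → ℝ)).map e).IsAddHaarMeasure :=
    e.isAddHaarMeasure_map _
  have : SecondCountableTopology E := e.symm.toHomeomorph.secondCountableTopology
  rw [Measure.isAddLeftInvariant_eq_smul μ
    ((volume : Measure (Fin (Module.finrank ℝ E) → ℝ)).map e)]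
  exact h1.smul_measure _

end Claimed.Agent.PL
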