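import Mathlib

/-!
# Prékopa–Leindler, part 1: the real line

* `pl_bm_real` : one dimensional Brunn–Minkowski inequality for measurable sets.
* `pl_layercake` : layer cake formula for `ℝ≥0∞`-valued functions.
* `pl_real` : the Prékopa–Leindler inequality on `ℝ` for measurable `ℝ≥0∞`-valued functions.
-/

open MeasureTheory Set Filter Topology
open scoped ENNReal NNReal Pointwise

namespace Claimed.Agent.PL

/-- Brunn–Minkowski on the line, compact sets. -/
theorem pl_bm_real_compact {K L : Set ℝ} (hK : IsCompact K) (hL : IsCompact L)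
    (hKne : K.Nonempty) (hLne : L.Nonempty) :
    volume K + volume L ≤ volume (K + L) := by
  set a := sSup K with ha
  set b := sInf L with hb
  have haK : a ∈ K := hK.sSup_mem hKne
  have hbL : b ∈ L := hL.sInf_mem hLne
  have hKle : ∀ x ∈ K, x ≤ a := fun x hx => le_csSup hK.bddAbove hx
  have hLge : ∀ y ∈ L, b ≤ y := fun y hy => csInf_le hL.bddBelow hy
  -- split `K + L` at `a + b`
  have h1 : (fun x => x + b) '' K ⊆ (K + L) ∩ Iic (a + b) := by
    rintro _ ⟨x, hx, rfl⟩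
    exact ⟨Set.add_mem_add hx hbL, by simpa using hKle x hx⟩
  have h2 : (fun y => a + y) '' L \ {a + b} ⊆ (K + L) \ Iic (a + b) := by
    rintro _ ⟨⟨y, hy, rfl⟩, hne⟩
    refine ⟨Set.add_mem_add haK hy, ?_⟩
    simp only [mem_Iic, not_le]
    have : b ≤ y := hLge y hy
    rcases this.lt_or_eq with h | h
    · linarith
    · exact absurd (by simp [h]) hne
  have hv1 : volume ((fun x => x + b) '' K) = volume K := by
    simp
  have hv2 : volume ((fun y => a + y) '' L \ {a + b}) = volume L := by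
    rw [measure_sdiff_null (by simp)]
    simp
  calc volume K + volume L
      = volume ((fun x => x + b) '' K) + volume ((fun y => a + y) '' L \ {a + b}) := by
        rw [hv1, hv2]
    _ ≤ volume ((K + L) ∩ Iic (a + b)) + volume ((K + L) \ Iic (a + b)) :=
        add_le_add (measure_mono h1) (measure_mono h2)
    _ = volume (K + L) := measure_inter_add_sdiff _ measurableSet_Iic

theorem pl_meas_le_iSup {A : Set ℝ} (hA : MeasurableSet A) (hAne : A.Nonempty) :
    volume A ≤ ⨆ K : {K : Set ℝ // K ⊆ A ∧ IsCompact K ∧ K.Nonempty}, volume K.1 := by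
  obtain ⟨a, ha⟩ := hAne
  rw [hA.measure_eq_iSup_isCompact]
  refine iSup_le fun K => iSup_le fun hKA => iSup_le fun hK => ?_
  refine le_trans (measure_mono (subset_insert a K)) ?_
  exact le_iSup (fun K : {K : Set ℝ // K ⊆ A ∧ IsCompact K ∧ K.Nonempty} => volume K.1)
    ⟨insert a K, insert_subset ha hKA, hK.insert a, insert_nonempty a K⟩

theorem pl_bm_real {A B C : Set ℝ} (hA : MeasurableSet A) (hB : MeasurableSet B)
    (hAne : A.Nonempty) (hBne : B.Nonempty) (hC : A + B ⊆ C) :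
    volume A + volume B ≤ volume C := by
  refine le_trans (add_le_add (pl_meas_le_iSup hA hAne) (pl_meas_le_iSup hB hBne)) ?_
  have : Nonempty {K : Set ℝ // K ⊆ A ∧ IsCompact K ∧ K.Nonempty} := by
    obtain ⟨a, ha⟩ := hAne
    exact ⟨⟨{a}, by simpa using ha, isCompact_singleton, singleton_nonempty a⟩⟩
  have : Nonempty {K : Set ℝ // K ⊆ B ∧ IsCompact K ∧ K.Nonempty} := by
    obtain ⟨a, ha⟩ := hBne
    exact ⟨⟨{a}, by simpa using ha, isCompact_singleton, singleton_nonempty a⟩⟩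
  refine ENNReal.iSup_add_iSup_le fun K L => ?_
  refine le_trans (pl_bm_real_compact K.2.2.1 L.2.2.1 K.2.2.2 L.2.2.2) ?_
  exact measure_mono (le_trans (Set.add_subset_add K.2.1 L.2.1) hC)

/-- layer cake for ENNReal valued functions -/
theorem pl_layercake {α : Type*} [MeasurableSpace α] (μ : Measure α) [SFinite μ]
    {f : α → ℝ≥0∞} (hf : Measurable f) :
    ∫⁻ a, f a ∂μ = ∫⁻ s in Ioi (0:ℝ), μ {a | ENNReal.ofReal s < f a} := by
  have h1 : ∀ a, f a = ∫⁻ s in Ioi (0:ℝ), ({p : α × ℝ | ENNReal.ofReal p.2 < f p.1}).indicator 1 (a, s) := by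
    intro a
    have : ∀ s, ({p : α × ℝ | ENNReal.ofReal p.2 < f p.1}).indicator (1 : α × ℝ → ℝ≥0∞) (a, s)
        = ({s : ℝ | ENNReal.ofReal s < f a}).indicator 1 s := by
      intro s; rfl
    simp_rw [this]
    rw [lintegral_indicator_one₀ (by
      apply MeasurableSet.nullMeasurableSet
      exact measurableSet_lt ENNReal.measurable_ofReal measurable_const)]
    rw [Measure.restrict_apply (measurableSet_lt ENNReal.measurable_ofReal measurable_const)]
    by_cases hfa : f a = ∞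
    · have : {s : ℝ | ENNReal.ofReal s < f a} ∩ Ioi 0 = Ioi 0 := by
        ext s; simp [hfa]
      rw [this, hfa]; simp
    · have : {s : ℝ | ENNReal.ofReal s < f a} ∩ Ioi 0 = Ioo 0 (f a).toReal := by
        ext s
        simp only [mem_inter_iff, mem_ofPred_eq, mem_Ioi, mem_Ioo]
        constructor
        · rintro ⟨h1, h2⟩
          exact ⟨h2, (ENNReal.ofReal_lt_iff_lt_toReal h2.le hfa).1 h1⟩
        · rintro ⟨h1, h2⟩
          exact ⟨(ENNReal.ofReal_lt_iff_lt_toReal h1.le hfa).2 h2, h1⟩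
      rw [this]; simp [hfa]
  have hmeas : MeasurableSet {p : α × ℝ | ENNReal.ofReal p.2 < f p.1} :=
    measurableSet_lt (ENNReal.measurable_ofReal.comp measurable_snd) (hf.comp measurable_fst)
  calc ∫⁻ a, f a ∂μ
      = ∫⁻ a, (∫⁻ s in Ioi (0:ℝ), ({p : α × ℝ | ENNReal.ofReal p.2 < f p.1}).indicator 1 (a, s)) ∂μ := by
        exact lintegral_congr h1
    _ = ∫⁻ s in Ioi (0:ℝ), ∫⁻ a, ({p : α × ℝ | ENNReal.ofReal p.2 < f p.1}).indicator 1 (a, s) ∂μ := by
        rw [lintegral_lintegral_swap]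
        exact (measurable_one.indicator hmeas).aemeasurable
    _ = ∫⁻ s in Ioi (0:ℝ), μ {a | ENNReal.ofReal s < f a} := by
        refine lintegral_congr fun s => ?_
        have : ∀ a, ({p : α × ℝ | ENNReal.ofReal p.2 < f p.1}).indicator (1 : α × ℝ → ℝ≥0∞) (a, s)
            = ({a : α | ENNReal.ofReal s < f a}).indicator 1 a := by
          intro a; rfl
        simp_rw [this]
        rw [lintegral_indicator_one (measurableSet_lt measurable_const hf)]

/-- weighted AM-GM in `ℝ≥0∞`. -/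
theorem pl_amgm (X Y : ℝ≥0∞) {t : ℝ} (ht0 : 0 < t) (ht1 : t < 1) :
    X ^ (1 - t) * Y ^ t ≤ ENNReal.ofReal (1 - t) * X + ENNReal.ofReal t * Y := by
  have h1t : 0 < 1 - t := by linarith
  by_cases hX : X = ∞
  · subst hX
    rw [ENNReal.mul_top (by simpa using h1t)]
    simp
  by_cases hY : Y = ∞
  · subst hY
    rw [ENNReal.mul_top (by simpa using ht0)]
    simp
  lift X to ℝ≥0 using hX
  lift Y to ℝ≥0 using hY
  have key := NNReal.geom_mean_le_arith_mean2_weighted (1 - t).toNNReal t.toNNReal X Y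
    (by rw [← Real.toNNReal_add h1t.le ht0.le]; simp)
  rw [Real.coe_toNNReal _ h1t.le, Real.coe_toNNReal _ ht0.le] at key
  rw [ENNReal.ofReal, ENNReal.ofReal, ← ENNReal.coe_rpow_of_nonneg _ h1t.le,
    ← ENNReal.coe_rpow_of_nonneg _ ht0.le]
  exact_mod_cast key

theorem pl_real_level {f g h : ℝ → ℝ≥0∞} (hf : Measurable f) (hg : Measurable g)
    {t : ℝ} (ht0 : 0 < t) (ht1 : t < 1)
    (H : ∀ x y, f x ^ (1 - t) * g y ^ t ≤ h ((1 - t) * x + t * y))
    {s : ℝ≥0∞} (hs0 : s ≠ 0) (hs : s ≠ ∞) (hfs : ∃ x, s < f x) (hgs : ∃ y, s < g y) :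
    ENNReal.ofReal (1 - t) * volume {x | s < f x} + ENNReal.ofReal t * volume {x | s < g x}
      ≤ volume {x | s < h x} := by
  have h1t : 0 < 1 - t := by linarith
  have hA : MeasurableSet {x | s < f x} := measurableSet_lt measurable_const hf
  have hB : MeasurableSet {x | s < g x} := measurableSet_lt measurable_const hg
  have e1 : volume ((1 - t) • {x | s < f x}) = ENNReal.ofReal (1 - t) * volume {x | s < f x} := by
    rw [Measure.addHaar_smul]; simp [abs_of_pos h1t]
  have e2 : volume (t • {x | s < g x}) = ENNReal.ofReal t * volume {x | s < g x} := by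
    rw [Measure.addHaar_smul]; simp [abs_of_pos ht0]
  rw [← e1, ← e2]
  refine pl_bm_real (hA.const_smul₀ _) (hB.const_smul₀ _) ?_ ?_ ?_
  · obtain ⟨x, hx⟩ := hfs
    exact ⟨(1 - t) • x, Set.smul_mem_smul_set hx⟩
  · obtain ⟨x, hx⟩ := hgs
    exact ⟨t • x, Set.smul_mem_smul_set hx⟩
  · rintro _ ⟨_, ⟨x, hx, rfl⟩, _, ⟨y, hy, rfl⟩, rfl⟩
    have hx' : s < f x := hx
    have hy' : s < g y := hy
    show s < h _
    refine lt_of_lt_of_le ?_ (H x y)
    calc s = s ^ (1 - t) * s ^ t := by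
          rw [← ENNReal.rpow_add _ _ hs0 hs]; simp
      _ < f x ^ (1 - t) * g y ^ t :=
          ENNReal.mul_lt_mul (ENNReal.rpow_lt_rpow hx' h1t) (ENNReal.rpow_lt_rpow hy' ht0)

theorem pl_real_normalized {f g h : ℝ → ℝ≥0∞} (hf : Measurable f) (hg : Measurable g)
    (hh : Measurable h) {t : ℝ} (ht0 : 0 < t) (ht1 : t < 1)
    (H : ∀ x y, f x ^ (1 - t) * g y ^ t ≤ h ((1 - t) * x + t * y))
    (hfs : ∀ s < (1:ℝ≥0∞), ∃ x, s < f x) (hgs : ∀ s < (1:ℝ≥0∞), ∃ y, s < g y) :
    ENNReal.ofReal (1 - t) * (∫⁻ x, min (f x) 1) + ENNReal.ofReal t * (∫⁻ x, min (g x) 1)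
      ≤ ∫⁻ x, h x := by
  rw [pl_layercake volume (f := fun x => min (f x) 1) (hf.min measurable_const),
    pl_layercake volume (f := fun x => min (g x) 1) (hg.min measurable_const),
    pl_layercake volume hh, ← lintegral_const_mul' _ _ ENNReal.ofReal_ne_top,
    ← lintegral_const_mul' _ _ ENNReal.ofReal_ne_top]
  refine le_trans (le_lintegral_add _ _) ?_
  refine setLIntegral_mono' measurableSet_Ioi fun s hs => ?_
  have hs0 : (0:ℝ) < s := hs
  by_cases hs1 : s < 1
  · have hs1' : ENNReal.ofReal s < 1 := by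
      rw [← ENNReal.ofReal_one]; exact (ENNReal.ofReal_lt_ofReal_iff one_pos).2 hs1
    have e1 : {x | ENNReal.ofReal s < min (f x) 1} = {x | ENNReal.ofReal s < f x} := by
      ext x; simp [hs1']
    have e2 : {x | ENNReal.ofReal s < min (g x) 1} = {x | ENNReal.ofReal s < g x} := by
      ext x; simp [hs1']
    rw [e1, e2]
    exact pl_real_level hf hg ht0 ht1 H (by simpa using hs0) ENNReal.ofReal_ne_top
      (hfs _ hs1') (hgs _ hs1')
  · have hs1' : 1 ≤ ENNReal.ofReal s := by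
      rw [← ENNReal.ofReal_one]; exact ENNReal.ofReal_le_ofReal (not_lt.1 hs1)
    have e1 : {x | ENNReal.ofReal s < min (f x) 1} = ∅ := by
      ext x; simp [not_lt.1 hs1]
    have e2 : {x | ENNReal.ofReal s < min (g x) 1} = ∅ := by
      ext x; simp [not_lt.1 hs1]
    rw [e1, e2]; simp

/-- scaled version -/
theorem pl_real_scaled {f g h : ℝ → ℝ≥0∞} (hf : Measurable f) (hg : Measurable g)
    (hh : Measurable h) {t : ℝ} (ht0 : 0 < t) (ht1 : t < 1)
    (H : ∀ x y, f x ^ (1 - t) * g y ^ t ≤ h ((1 - t) * x + t * y))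
    {a b : ℝ≥0∞} (ha0 : a ≠ 0) (ha : a ≠ ∞) (hb0 : b ≠ 0) (hb : b ≠ ∞)
    (hfs : ∀ s < a, ∃ x, s < f x) (hgs : ∀ s < b, ∃ y, s < g y) :
    (∫⁻ x, min (f x) a) ^ (1 - t) * (∫⁻ x, min (g x) b) ^ t ≤ ∫⁻ x, h x := by
  have h1t : 0 < 1 - t := by linarith
  set c : ℝ≥0∞ := a ^ (1 - t) * b ^ t with hc
  have hc0 : c ≠ 0 := by
    simp [hc, ha0, hb0, ha, hb, ENNReal.rpow_eq_zero_iff]
  have hct : c ≠ ∞ := by
    refine ENNReal.mul_ne_top (ENNReal.rpow_ne_top_of_nonneg h1t.le ha)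
      (ENNReal.rpow_ne_top_of_nonneg ht0.le hb)
  have key := pl_real_normalized (f := fun x => f x / a) (g := fun x => g x / b)
    (h := fun x => h x / c) (hf.div_const _) (hg.div_const _) (hh.div_const _) ht0 ht1 ?_ ?_ ?_
  · have m1 : ∀ x, min (f x / a) 1 = min (f x) a / a := by
      intro x
      rcases le_total (f x) a with hle | hle
      · rw [min_eq_left hle, min_eq_left (ENNReal.div_le_of_le_mul (by simpa using hle))]
      · rw [min_eq_right hle, ENNReal.div_self ha0 ha, min_eq_right]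
        rw [ENNReal.le_div_iff_mul_le (Or.inl ha0) (Or.inl ha)]; simpa using hle
    have m2 : ∀ x, min (g x / b) 1 = min (g x) b / b := by
      intro x
      rcases le_total (g x) b with hle | hle
      · rw [min_eq_left hle, min_eq_left (ENNReal.div_le_of_le_mul (by simpa using hle))]
      · rw [min_eq_right hle, ENNReal.div_self hb0 hb, min_eq_right]
        rw [ENNReal.le_div_iff_mul_le (Or.inl hb0) (Or.inl hb)]; simpa using hle
    simp only [m1, m2] at key
    simp only [div_eq_mul_inv] at key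
    rw [lintegral_mul_const' _ _ (by simpa using ha0), lintegral_mul_const' _ _ (by simpa using hb0),
      lintegral_mul_const' _ _ (by simpa using hc0)] at key
    have key2 := le_trans (pl_amgm _ _ ht0 ht1) key
    rw [ENNReal.mul_rpow_of_nonneg _ _ h1t.le, ENNReal.mul_rpow_of_nonneg _ _ ht0.le,
      ENNReal.inv_rpow, ENNReal.inv_rpow] at key2
    have : (∫⁻ x, min (f x) a) ^ (1 - t) * (a ^ (1 - t))⁻¹ * ((∫⁻ x, min (g x) b) ^ t * (b ^ t)⁻¹)
        = (∫⁻ x, min (f x) a) ^ (1 - t) * (∫⁻ x, min (g x) b) ^ t * c⁻¹ := by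
      rw [hc, ENNReal.mul_inv (Or.inr (ENNReal.rpow_ne_top_of_nonneg ht0.le hb))
        (Or.inl (ENNReal.rpow_ne_top_of_nonneg h1t.le ha))]
      ring
    rw [this] at key2
    exact (ENNReal.mul_le_mul_iff_left (by simpa using hct) (by simpa using hc0)).1 key2
  · intro x y
    show (f x / a) ^ (1 - t) * (g y / b) ^ t ≤ h _ / c
    rw [ENNReal.div_rpow_of_nonneg _ _ h1t.le, ENNReal.div_rpow_of_nonneg _ _ ht0.le]
    have : f x ^ (1 - t) / a ^ (1 - t) * (g y ^ t / b ^ t) = f x ^ (1 - t) * g y ^ t / c := by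
      rw [hc, div_eq_mul_inv, div_eq_mul_inv, div_eq_mul_inv,
        ENNReal.mul_inv (Or.inr (ENNReal.rpow_ne_top_of_nonneg ht0.le hb))
        (Or.inl (ENNReal.rpow_ne_top_of_nonneg h1t.le ha))]
      ring
    rw [this]
    exact ENNReal.div_le_div_right (H x y) c
  · intro s hs
    obtain ⟨x, hx⟩ := hfs (s * a) (by
      calc s * a < 1 * a := ENNReal.mul_lt_mul_left ha0 ha hs
        _ = a := one_mul a)
    exact ⟨x, (ENNReal.lt_div_iff_mul_lt (Or.inl ha0) (Or.inl ha)).2 hx⟩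
  · intro s hs
    obtain ⟨x, hx⟩ := hgs (s * b) (by
      calc s * b < 1 * b := ENNReal.mul_lt_mul_left hb0 hb hs
        _ = b := one_mul b)
    exact ⟨x, (ENNReal.lt_div_iff_mul_lt (Or.inl hb0) (Or.inl hb)).2 hx⟩

theorem pl_tendsto_lintegral_min {α : Type*} [MeasurableSpace α] (μ : Measure α)
    {f : α → ℝ≥0∞} (hf : Measurable f) :
    Tendsto (fun n : ℕ => ∫⁻ x, min (f x) ((n : ℝ≥0∞) + 1) ∂μ) atTop (𝓝 (∫⁻ x, f x ∂μ)) := by
  refine lintegral_tendsto_of_tendsto_of_monotone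
    (fun n => (hf.min measurable_const).aemeasurable) ?_ ?_
  · refine Eventually.of_forall fun x => ?_
    intro n m hnm
    have : (n : ℝ≥0∞) ≤ m := by exact_mod_cast hnm
    exact min_le_min le_rfl (by gcongr)
  · refine Eventually.of_forall fun x => ?_
    have h1 : Tendsto (fun n : ℕ => (n : ℝ≥0∞) + 1) atTop (𝓝 ∞) := by
      have := ENNReal.tendsto_nat_nhds_top.add (tendsto_const_nhds (x := (1 : ℝ≥0∞)))
      simpa using this
    have := (tendsto_const_nhds (x := f x)).min h1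
    simpa using this

theorem pl_real {f g h : ℝ → ℝ≥0∞} (hf : Measurable f) (hg : Measurable g)
    (hh : Measurable h) {t : ℝ} (ht0 : 0 < t) (ht1 : t < 1)
    (H : ∀ x y, f x ^ (1 - t) * g y ^ t ≤ h ((1 - t) * x + t * y)) :
    (∫⁻ x, f x) ^ (1 - t) * (∫⁻ x, g x) ^ t ≤ ∫⁻ x, h x := by
  have h1t : 0 < 1 - t := by linarith
  by_cases hf0 : ∫⁻ x, f x = 0
  · rw [hf0, ENNReal.zero_rpow_of_pos h1t]; simp
  by_cases hg0 : ∫⁻ x, g x = 0
  · rw [hg0, ENNReal.zero_rpow_of_pos ht0]; simp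
  have hMf : (⨆ x, f x) ≠ 0 := by
    intro h0
    apply hf0
    have : ∀ x, f x = 0 := fun x => le_antisymm (h0 ▸ le_iSup f x) bot_le
    simp [this]
  have hMg : (⨆ x, g x) ≠ 0 := by
    intro h0
    apply hg0
    have : ∀ x, g x = 0 := fun x => le_antisymm (h0 ▸ le_iSup g x) bot_le
    simp [this]
  have step : ∀ n : ℕ, (∫⁻ x, min (f x) ((n : ℝ≥0∞) + 1)) ^ (1 - t)
      * (∫⁻ x, min (g x) ((n : ℝ≥0∞) + 1)) ^ t ≤ ∫⁻ x, h x := by
    intro n
    have hn : ((n : ℝ≥0∞) + 1) ≠ ∞ := by simp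
    have hn0 : ((n : ℝ≥0∞) + 1) ≠ 0 := by simp
    have := pl_real_scaled hf hg hh ht0 ht1 H (a := min (⨆ x, f x) ((n : ℝ≥0∞) + 1))
      (b := min (⨆ x, g x) ((n : ℝ≥0∞) + 1))
      (by simp [hMf]) (by simp) (by simp [hMg]) (by simp)
      (fun s hs => lt_iSup_iff.1 (lt_of_lt_of_le hs (min_le_left _ _)))
      (fun s hs => lt_iSup_iff.1 (lt_of_lt_of_le hs (min_le_left _ _)))
    have e1 : ∀ x, min (f x) (min (⨆ x, f x) ((n : ℝ≥0∞) + 1)) = min (f x) ((n : ℝ≥0∞) + 1) := by
      intro x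
      rw [← min_assoc, min_eq_left (le_iSup f x)]
    have e2 : ∀ x, min (g x) (min (⨆ x, g x) ((n : ℝ≥0∞) + 1)) = min (g x) ((n : ℝ≥0∞) + 1) := by
      intro x
      rw [← min_assoc, min_eq_left (le_iSup g x)]
    simpa only [e1, e2] using this
  have lim : Tendsto (fun n : ℕ => (∫⁻ x, min (f x) ((n : ℝ≥0∞) + 1)) ^ (1 - t)
      * (∫⁻ x, min (g x) ((n : ℝ≥0∞) + 1)) ^ t) atTop
      (𝓝 ((∫⁻ x, f x) ^ (1 - t) * (∫⁻ x, g x) ^ t)) := by
    refine ENNReal.Tendsto.mul ?_ ?_ ?_ ?_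
    · exact (ENNReal.continuous_rpow_const.tendsto _).comp (pl_tendsto_lintegral_min volume hf)
    · left
      simp [ENNReal.rpow_eq_zero_iff, hf0, not_lt.2 h1t.le]
    · exact (ENNReal.continuous_rpow_const.tendsto _).comp (pl_tendsto_lintegral_min volume hg)
    · left
      simp [ENNReal.rpow_eq_zero_iff, hg0, not_lt.2 ht0.le]
  exact le_of_tendsto' lim step

end Claimed.Agent.PL
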