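import Mathlib

/-!
# Counting eigenvalues of real symmetric matrices through subspaces

Shared library (owner helper217).  Prefix `spc`.  Wanted by row 293 (item L1).

`A : Matrix n n ℝ`, `hA : A.IsHermitian`, eigenvalues `hA.eigenvalues : n → ℝ`; vectors are plain
functions `n → ℝ`, subspaces are `Submodule ℝ (n → ℝ)`.

* `spcPhi hA` : the orthogonal change of coordinates diagonalising `A`;
* `spc_finrank_le`, `spc_finrank_le_strict`, `spc_exists` : the general min-max counting principle;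
* `spc_finrank_le_card_abs`, `spc_exists_subspace_abs` : `‖A v‖ ≤ c ‖v‖` on `V` versus `|λ| ≤ c`;
* `spc_finrank_le_card_le`, `spc_exists_subspace_le` (and `_lt`, `_ge`, `_gt`): quadratic form versions.
-/

set_option autoImplicit false

namespace Claimed.Agent.Lib

open Matrix Finset Module

variable {n : Type*} [Fintype n] [DecidableEq n]

/-- The orthogonal change of coordinates `v ↦ Uᵀ v` diagonalising the symmetric matrix `A`. -/
noncomputable def spcPhi {A : Matrix n n ℝ} (hA : A.IsHermitian) : (n → ℝ) ≃ₗ[ℝ] (n → ℝ) :=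
  Matrix.toLin'OfInv (M := (hA.eigenvectorUnitary : Matrix n n ℝ))
    (M' := star (hA.eigenvectorUnitary : Matrix n n ℝ))
    (Unitary.coe_mul_star_self _) (Unitary.coe_star_mul_self _)

variable {A : Matrix n n ℝ} (hA : A.IsHermitian)

theorem spcPhi_apply (v : n → ℝ) :
    spcPhi hA v = star (hA.eigenvectorUnitary : Matrix n n ℝ) *ᵥ v := rfl

theorem spcPhi_dot (v w : n → ℝ) : spcPhi hA v ⬝ᵥ spcPhi hA w = v ⬝ᵥ w := by
  rw [spcPhi_apply, spcPhi_apply, Matrix.dotProduct_mulVec, ← Matrix.mulVec_transpose,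
    Matrix.mulVec_mulVec]
  have h : (star (hA.eigenvectorUnitary : Matrix n n ℝ))ᵀ
      * star (hA.eigenvectorUnitary : Matrix n n ℝ) = 1 := by
    have h1 : (star (hA.eigenvectorUnitary : Matrix n n ℝ))ᵀ
        = (hA.eigenvectorUnitary : Matrix n n ℝ) := by
      rw [Matrix.star_eq_conjTranspose, Matrix.conjTranspose_eq_transpose_of_trivial,
        Matrix.transpose_transpose]
    rw [h1]
    exact Unitary.coe_mul_star_self _
  rw [h, Matrix.one_mulVec]

theorem spcPhi_sq (v : n → ℝ) : ∑ i, (spcPhi hA v i) ^ 2 = ∑ i, (v i) ^ 2 := by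
  have := spcPhi_dot hA v v
  simpa [dotProduct, sq] using this

theorem spcPhi_mulVec (v : n → ℝ) (i : n) :
    spcPhi hA (A *ᵥ v) i = hA.eigenvalues i * spcPhi hA v i := by
  have h1 : star (hA.eigenvectorUnitary : Matrix n n ℝ) * A
      = diagonal hA.eigenvalues * star (hA.eigenvectorUnitary : Matrix n n ℝ) := by
    have h2 := hA.spectral_theorem
    rw [Unitary.conjStarAlgAut_apply] at h2
    have h3 : (RCLike.ofReal ∘ hA.eigenvalues : n → ℝ) = hA.eigenvalues := by
      funext j; simp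
    rw [h3] at h2
    calc star (hA.eigenvectorUnitary : Matrix n n ℝ) * A
        = star (hA.eigenvectorUnitary : Matrix n n ℝ) * ((hA.eigenvectorUnitary : Matrix n n ℝ)
            * diagonal hA.eigenvalues * star (hA.eigenvectorUnitary : Matrix n n ℝ)) :=
          congrArg _ h2
      _ = _ := by
          rw [← Matrix.mul_assoc, ← Matrix.mul_assoc, Unitary.coe_star_mul_self, Matrix.one_mul]
  rw [spcPhi_apply, spcPhi_apply, Matrix.mulVec_mulVec, h1, ← Matrix.mulVec_mulVec,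
    Matrix.mulVec_diagonal]

theorem spc_normsq (v : n → ℝ) :
    ∑ i, ((A *ᵥ v) i) ^ 2 = ∑ i, (hA.eigenvalues i) ^ 2 * (spcPhi hA v i) ^ 2 := by
  rw [← spcPhi_sq hA (A *ᵥ v)]
  refine Finset.sum_congr rfl (fun i _ => ?_)
  rw [spcPhi_mulVec, mul_pow]

theorem spc_quad (v : n → ℝ) :
    v ⬝ᵥ (A *ᵥ v) = ∑ i, hA.eigenvalues i * (spcPhi hA v i) ^ 2 := by
  rw [← spcPhi_dot hA v (A *ᵥ v)]
  simp only [dotProduct]
  refine Finset.sum_congr rfl (fun i _ => ?_)
  rw [spcPhi_mulVec]; ring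

theorem spc_dot_self (v : n → ℝ) : v ⬝ᵥ v = ∑ i, (spcPhi hA v i) ^ 2 := by
  rw [spcPhi_sq]; simp [dotProduct, sq]

omit [DecidableEq n] in
/-- A subspace on which "vanishing on `S`" forces "zero" has dimension at most `#S`. -/
theorem spc_finrank_le_of_restrict_inj (S : Finset n) (V : Submodule ℝ (n → ℝ))
    (h : ∀ w ∈ V, (∀ i ∈ S, w i = 0) → w = 0) : finrank ℝ V ≤ S.card := by
  classical
  let π : V →ₗ[ℝ] (S → ℝ) :=
    { toFun := fun w i => (w : n → ℝ) i
      map_add' := fun _ _ => rfl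
      map_smul' := fun _ _ => rfl }
  have hinj : Function.Injective π := by
    rw [← LinearMap.ker_eq_bot, LinearMap.ker_eq_bot']
    intro w hw
    have : (w : n → ℝ) = 0 := h w w.2 (fun i hi => congrFun hw ⟨i, hi⟩)
    exact Subtype.ext this
  have := LinearMap.finrank_le_finrank_of_injective hinj
  simpa using this

omit [DecidableEq n] [Fintype n] in
/-- The coordinate subspace of the vectors supported on `S` has dimension `#S`. -/
theorem spc_finrank_coord (S : Finset n) :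
    ∃ V : Submodule ℝ (n → ℝ), finrank ℝ V = S.card ∧ ∀ w, w ∈ V ↔ ∀ i, i ∉ S → w i = 0 := by
  classical
  let ext : (S → ℝ) →ₗ[ℝ] (n → ℝ) :=
    { toFun := fun f i => if h : i ∈ S then f ⟨i, h⟩ else 0
      map_add' := fun f g => by
        funext i; by_cases h : i ∈ S <;> simp [h]
      map_smul' := fun c f => by
        funext i; by_cases h : i ∈ S <;> simp [h] }
  have hinj : Function.Injective ext := by
    intro f g hfg
    funext ⟨i, hi⟩
    have := congrFun hfg i
    simpa [ext, hi] using this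
  refine ⟨LinearMap.range ext, ?_, ?_⟩
  · rw [LinearMap.finrank_range_of_inj hinj]; simp
  · intro w
    constructor
    · rintro ⟨f, rfl⟩ i hi
      simp [ext, hi]
    · intro hw
      refine ⟨fun i => w i, ?_⟩
      funext i
      by_cases h : i ∈ S
      · simp [ext, h]
      · simp [ext, h, hw i h]

/-- **Counting principle, non-strict form.** -/
theorem spc_finrank_le (f : ℝ → ℝ) (V : Submodule ℝ (n → ℝ))
    (hV : ∀ v ∈ V, ∑ i, f (hA.eigenvalues i) * (spcPhi hA v i) ^ 2 ≤ 0) :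
    finrank ℝ V ≤ (univ.filter fun i => f (hA.eigenvalues i) ≤ 0).card := by
  set S := univ.filter fun i => f (hA.eigenvalues i) ≤ 0 with hS
  rw [← LinearEquiv.finrank_map_eq (spcPhi hA) V]
  refine spc_finrank_le_of_restrict_inj S _ ?_
  rintro _ ⟨v, hv, rfl⟩ hzero
  have h1 := hV v hv
  have hnn : ∀ i ∈ univ, 0 ≤ f (hA.eigenvalues i) * (spcPhi hA v i) ^ 2 := by
    intro i _
    by_cases hi : i ∈ S
    · have : spcPhi hA v i = 0 := hzero i hi
      rw [this]; simp
    · have : 0 < f (hA.eigenvalues i) := by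
        by_contra hle
        exact hi (by rw [hS, mem_filter]; exact ⟨mem_univ _, not_lt.1 hle⟩)
      positivity
  have h2 : ∑ i, f (hA.eigenvalues i) * (spcPhi hA v i) ^ 2 = 0 :=
    le_antisymm h1 (Finset.sum_nonneg hnn)
  have h3 := (Finset.sum_eq_zero_iff_of_nonneg hnn).1 h2
  funext i
  by_cases hi : i ∈ S
  · exact hzero i hi
  · have hpos : 0 < f (hA.eigenvalues i) := by
      by_contra hle
      exact hi (by rw [hS, mem_filter]; exact ⟨mem_univ _, not_lt.1 hle⟩)
    have := h3 i (mem_univ i)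
    rcases mul_eq_zero.1 this with h | h
    · exact absurd h hpos.ne'
    · simpa using h

/-- **Counting principle, strict form.** -/
theorem spc_finrank_le_strict (f : ℝ → ℝ) (V : Submodule ℝ (n → ℝ))
    (hV : ∀ v ∈ V, v ≠ 0 → ∑ i, f (hA.eigenvalues i) * (spcPhi hA v i) ^ 2 < 0) :
    finrank ℝ V ≤ (univ.filter fun i => f (hA.eigenvalues i) < 0).card := by
  set S := univ.filter fun i => f (hA.eigenvalues i) < 0 with hS
  rw [← LinearEquiv.finrank_map_eq (spcPhi hA) V]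
  refine spc_finrank_le_of_restrict_inj S _ ?_
  rintro _ ⟨v, hv, rfl⟩ hzero
  by_contra hne
  have hv0 : v ≠ 0 := by
    intro h0; apply hne; rw [h0]; simp
  have h1 := hV v hv hv0
  have hnn : ∀ i ∈ univ, 0 ≤ f (hA.eigenvalues i) * (spcPhi hA v i) ^ 2 := by
    intro i _
    by_cases hi : i ∈ S
    · have : spcPhi hA v i = 0 := hzero i hi
      rw [this]; simp
    · have : 0 ≤ f (hA.eigenvalues i) := by
        by_contra hle
        exact hi (by rw [hS, mem_filter]; exact ⟨mem_univ _, not_le.1 hle⟩)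
      positivity
  have := Finset.sum_nonneg hnn
  linarith

/-- **Counting principle, existence of the spectral subspace.** -/
theorem spc_exists (P : ℝ → Prop) [DecidablePred P] :
    ∃ V : Submodule ℝ (n → ℝ), finrank ℝ V = (univ.filter fun i => P (hA.eigenvalues i)).card ∧
      ∀ v, v ∈ V ↔ ∀ i, ¬ P (hA.eigenvalues i) → spcPhi hA v i = 0 := by
  obtain ⟨V₀, hdim, hmem⟩ := spc_finrank_coord (univ.filter fun i => P (hA.eigenvalues i))
  refine ⟨V₀.map (spcPhi hA).symm.toLinearMap, ?_, ?_⟩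
  · rw [← hdim]
    exact LinearEquiv.finrank_map_eq (spcPhi hA).symm V₀
  · intro v
    constructor
    · rintro ⟨w, hw, rfl⟩ i hi
      have := (hmem w).1 hw i (by simp [hi])
      simpa using this
    · intro hv
      refine ⟨spcPhi hA v, (hmem _).2 ?_, by simp⟩
      intro i hi
      exact hv i (by simpa using hi)

/-! ### `‖A v‖ ≤ c ‖v‖` versus `|λ| ≤ c` -/

/-- If `‖A v‖ ≤ c ‖v‖` on `V` then at least `dim V` eigenvalues have modulus `≤ c`. -/
theorem spc_finrank_le_card_abs {c : ℝ} (hc : 0 ≤ c) (V : Submodule ℝ (n → ℝ))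
    (hV : ∀ v ∈ V, ∑ i, ((A *ᵥ v) i) ^ 2 ≤ c ^ 2 * ∑ i, (v i) ^ 2) :
    finrank ℝ V ≤ (univ.filter fun i => |hA.eigenvalues i| ≤ c).card := by
  have h := spc_finrank_le hA (fun x => x ^ 2 - c ^ 2) V (by
    intro v hv
    have h1 := hV v hv
    rw [spc_normsq hA, ← spcPhi_sq hA v, Finset.mul_sum] at h1
    have : ∑ i, ((hA.eigenvalues i) ^ 2 - c ^ 2) * (spcPhi hA v i) ^ 2
        = ∑ i, (hA.eigenvalues i) ^ 2 * (spcPhi hA v i) ^ 2 - ∑ i, c ^ 2 * (spcPhi hA v i) ^ 2 := by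
      rw [← Finset.sum_sub_distrib]
      exact Finset.sum_congr rfl (fun i _ => by ring)
    rw [this]; linarith)
  have e : (univ.filter fun i => (hA.eigenvalues i) ^ 2 - c ^ 2 ≤ 0)
      = univ.filter fun i => |hA.eigenvalues i| ≤ c := by
    refine Finset.filter_congr (fun i _ => ?_)
    rw [sub_nonpos, ← sq_abs (hA.eigenvalues i), sq_le_sq₀ (abs_nonneg _) hc]
  rwa [e] at h

/-- The spectral subspace of the eigenvalues of modulus `≤ c`. -/
theorem spc_exists_subspace_abs (c : ℝ) :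
    ∃ V : Submodule ℝ (n → ℝ),
      finrank ℝ V = (univ.filter fun i => |hA.eigenvalues i| ≤ c).card ∧
      ∀ v ∈ V, ∑ i, ((A *ᵥ v) i) ^ 2 ≤ c ^ 2 * ∑ i, (v i) ^ 2 := by
  obtain ⟨V, hdim, hmem⟩ := spc_exists hA (fun x => |x| ≤ c)
  refine ⟨V, hdim, ?_⟩
  intro v hv
  rw [spc_normsq hA, ← spcPhi_sq hA v, Finset.mul_sum]
  refine Finset.sum_le_sum (fun i _ => ?_)
  by_cases hi : |hA.eigenvalues i| ≤ c
  · have : (hA.eigenvalues i) ^ 2 ≤ c ^ 2 := by
      rw [← sq_abs (hA.eigenvalues i)]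
      exact pow_le_pow_left₀ (abs_nonneg _) hi 2
    exact mul_le_mul_of_nonneg_right this (sq_nonneg _)
  · rw [(hmem v).1 hv i hi]; simp

/-! ### quadratic form versions -/

theorem spc_form_sub (f : ℝ → ℝ) (c s : ℝ) (hf : ∀ x, f x = s * (x - c)) (v : n → ℝ) :
    ∑ i, f (hA.eigenvalues i) * (spcPhi hA v i) ^ 2 = s * (v ⬝ᵥ (A *ᵥ v) - c * (v ⬝ᵥ v)) := by
  rw [spc_quad hA, spc_dot_self hA, Finset.mul_sum, ← Finset.sum_sub_distrib, Finset.mul_sum]
  exact Finset.sum_congr rfl (fun i _ => by rw [hf]; ring)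

/-- `⟨v, A v⟩ ≤ c ⟨v, v⟩` on `V` gives at least `dim V` eigenvalues `≤ c`. -/
theorem spc_finrank_le_card_le (c : ℝ) (V : Submodule ℝ (n → ℝ))
    (hV : ∀ v ∈ V, v ⬝ᵥ (A *ᵥ v) ≤ c * (v ⬝ᵥ v)) :
    finrank ℝ V ≤ (univ.filter fun i => hA.eigenvalues i ≤ c).card := by
  have h := spc_finrank_le hA (fun x => x - c) V (by
    intro v hv
    rw [spc_form_sub hA (fun x => x - c) c 1 (fun x => by ring)]
    linarith [hV v hv])
  simpa [sub_nonpos] using h

/-- `⟨v, A v⟩ < c ⟨v, v⟩` on `V \ 0` gives at least `dim V` eigenvalues `< c`. -/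
theorem spc_finrank_le_card_lt (c : ℝ) (V : Submodule ℝ (n → ℝ))
    (hV : ∀ v ∈ V, v ≠ 0 → v ⬝ᵥ (A *ᵥ v) < c * (v ⬝ᵥ v)) :
    finrank ℝ V ≤ (univ.filter fun i => hA.eigenvalues i < c).card := by
  have h := spc_finrank_le_strict hA (fun x => x - c) V (by
    intro v hv hv0
    rw [spc_form_sub hA (fun x => x - c) c 1 (fun x => by ring)]
    linarith [hV v hv hv0])
  simpa [sub_neg] using h

/-- `c ⟨v, v⟩ ≤ ⟨v, A v⟩` on `V` gives at least `dim V` eigenvalues `≥ c`. -/
theorem spc_finrank_le_card_ge (c : ℝ) (V : Submodule ℝ (n → ℝ))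
    (hV : ∀ v ∈ V, c * (v ⬝ᵥ v) ≤ v ⬝ᵥ (A *ᵥ v)) :
    finrank ℝ V ≤ (univ.filter fun i => c ≤ hA.eigenvalues i).card := by
  have h := spc_finrank_le hA (fun x => c - x) V (by
    intro v hv
    rw [spc_form_sub hA (fun x => c - x) c (-1) (fun x => by ring)]
    linarith [hV v hv])
  simpa [sub_nonpos] using h

/-- `c ⟨v, v⟩ < ⟨v, A v⟩` on `V \ 0` gives at least `dim V` eigenvalues `> c`. -/
theorem spc_finrank_le_card_gt (c : ℝ) (V : Submodule ℝ (n → ℝ))
    (hV : ∀ v ∈ V, v ≠ 0 → c * (v ⬝ᵥ v) < v ⬝ᵥ (A *ᵥ v)) :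
    finrank ℝ V ≤ (univ.filter fun i => c < hA.eigenvalues i).card := by
  have h := spc_finrank_le_strict hA (fun x => c - x) V (by
    intro v hv hv0
    rw [spc_form_sub hA (fun x => c - x) c (-1) (fun x => by ring)]
    linarith [hV v hv hv0])
  simpa [sub_neg] using h

theorem spc_exists_subspace_le (c : ℝ) :
    ∃ V : Submodule ℝ (n → ℝ), finrank ℝ V = (univ.filter fun i => hA.eigenvalues i ≤ c).card ∧
      ∀ v ∈ V, v ⬝ᵥ (A *ᵥ v) ≤ c * (v ⬝ᵥ v) := by
  obtain ⟨V, hdim, hmem⟩ := spc_exists hA (fun x => x ≤ c)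
  refine ⟨V, hdim, ?_⟩
  intro v hv
  rw [spc_quad hA, spc_dot_self hA, Finset.mul_sum]
  refine Finset.sum_le_sum (fun i _ => ?_)
  by_cases hi : hA.eigenvalues i ≤ c
  · exact mul_le_mul_of_nonneg_right hi (sq_nonneg _)
  · rw [(hmem v).1 hv i hi]; simp

theorem spc_exists_subspace_ge (c : ℝ) :
    ∃ V : Submodule ℝ (n → ℝ), finrank ℝ V = (univ.filter fun i => c ≤ hA.eigenvalues i).card ∧
      ∀ v ∈ V, c * (v ⬝ᵥ v) ≤ v ⬝ᵥ (A *ᵥ v) := by
  obtain ⟨V, hdim, hmem⟩ := spc_exists hA (fun x => c ≤ x)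
  refine ⟨V, hdim, ?_⟩
  intro v hv
  rw [spc_quad hA, spc_dot_self hA, Finset.mul_sum]
  refine Finset.sum_le_sum (fun i _ => ?_)
  by_cases hi : c ≤ hA.eigenvalues i
  · exact mul_le_mul_of_nonneg_right hi (sq_nonneg _)
  · rw [(hmem v).1 hv i hi]; simp

theorem spc_exists_subspace_lt (c : ℝ) :
    ∃ V : Submodule ℝ (n → ℝ), finrank ℝ V = (univ.filter fun i => hA.eigenvalues i < c).card ∧
      ∀ v ∈ V, v ≠ 0 → v ⬝ᵥ (A *ᵥ v) < c * (v ⬝ᵥ v) := by
  obtain ⟨V, hdim, hmem⟩ := spc_exists hA (fun x => x < c)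
  refine ⟨V, hdim, ?_⟩
  intro v hv hv0
  rw [spc_quad hA, spc_dot_self hA, Finset.mul_sum]
  have hw0 : spcPhi hA v ≠ 0 := fun h => hv0 (by simpa using h)
  obtain ⟨k, hk⟩ := Function.ne_iff.1 hw0
  have hk' : spcPhi hA v k ≠ 0 := hk
  refine Finset.sum_lt_sum (fun i _ => ?_) ⟨k, mem_univ k, ?_⟩
  · by_cases hi : hA.eigenvalues i < c
    · exact mul_le_mul_of_nonneg_right hi.le (sq_nonneg _)
    · rw [(hmem v).1 hv i hi]; simp
  · have hi : hA.eigenvalues k < c := by
      by_contra hi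
      exact hk' ((hmem v).1 hv k hi)
    exact mul_lt_mul_of_pos_right hi (by positivity)

theorem spc_exists_subspace_gt (c : ℝ) :
    ∃ V : Submodule ℝ (n → ℝ), finrank ℝ V = (univ.filter fun i => c < hA.eigenvalues i).card ∧
      ∀ v ∈ V, v ≠ 0 → c * (v ⬝ᵥ v) < v ⬝ᵥ (A *ᵥ v) := by
  obtain ⟨V, hdim, hmem⟩ := spc_exists hA (fun x => c < x)
  refine ⟨V, hdim, ?_⟩
  intro v hv hv0
  rw [spc_quad hA, spc_dot_self hA, Finset.mul_sum]
  have hw0 : spcPhi hA v ≠ 0 := fun h => hv0 (by simpa using h)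
  obtain ⟨k, hk⟩ := Function.ne_iff.1 hw0
  have hk' : spcPhi hA v k ≠ 0 := hk
  refine Finset.sum_lt_sum (fun i _ => ?_) ⟨k, mem_univ k, ?_⟩
  · by_cases hi : c < hA.eigenvalues i
    · exact mul_le_mul_of_nonneg_right hi.le (sq_nonneg _)
    · rw [(hmem v).1 hv i hi]; simp
  · have hi : c < hA.eigenvalues k := by
      by_contra hi
      exact hk' ((hmem v).1 hv k hi)
    exact mul_lt_mul_of_pos_right hi (by positivity)

/-! ### perturbations of small rank -/

omit [DecidableEq n] in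
/-- Cutting a subspace by the kernel of a linear map loses at most the rank of the map. -/
theorem spc_finrank_le_inf_ker {W : Type*} [AddCommGroup W] [Module ℝ W]
    (V : Submodule ℝ (n → ℝ)) (L : (n → ℝ) →ₗ[ℝ] W) :
    finrank ℝ V ≤ finrank ℝ (V ⊓ LinearMap.ker L : Submodule ℝ (n → ℝ))
      + finrank ℝ (LinearMap.range L) := by
  have h1 := LinearMap.finrank_range_add_finrank_ker (L.domRestrict V)
  have h2 : finrank ℝ (LinearMap.range (L.domRestrict V)) ≤ finrank ℝ (LinearMap.range L) := by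
    have hfin : Module.Finite ℝ (LinearMap.range L) := inferInstance
    refine Submodule.finrank_mono ?_
    rintro _ ⟨v, rfl⟩
    exact ⟨v, rfl⟩
  have h3 : finrank ℝ (LinearMap.ker (L.domRestrict V))
      = finrank ℝ (V ⊓ LinearMap.ker L : Submodule ℝ (n → ℝ)) := by
    have e : (LinearMap.ker (L.domRestrict V)).map V.subtype = V ⊓ LinearMap.ker L := by
      ext v
      constructor
      · rintro ⟨w, hw, rfl⟩
        exact ⟨w.2, hw⟩
      · rintro ⟨hv, hk⟩
        exact ⟨⟨v, hv⟩, hk, rfl⟩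
    rw [← e]
    exact (Submodule.finrank_map_subtype_eq V _).symm
  omega

end Claimed.Agent.Lib
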