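import Mathlib
import Claimed.Agent.Lib.SpecCount

/-!
# Counting eigenvalues: perturbations of small rank, principal submatrices (Cauchy interlacing)

Shared library (owner helper217).  Prefix `spc`.  Wanted by row 293 (item L1 (b), (c)).

All statements are in "counting form": e.g. Cauchy interlacing for a principal submatrix
`B = A.submatrix e e` (`e` injective, `k = card n - card m`) reads
`#{λ(B) ≤ c} ≤ #{λ(A) ≤ c} ≤ #{λ(B) ≤ c} + k` for every `c` (and the same with `<`, `≥`, `>`).
-/

set_option autoImplicit false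
set_option linter.unusedSectionVars false

namespace Claimed.Agent.Lib

open Matrix Finset Module

variable {n : Type*} [Fintype n] [DecidableEq n]

/-! ### perturbations of small rank -/

section rank

variable {X Y : Matrix n n ℝ} (hX : X.IsHermitian) (hY : Y.IsHermitian)

omit [DecidableEq n] in
theorem spc_mulVec_eq_of_ker {v : n → ℝ} (hv : v ∈ LinearMap.ker (Y - X).mulVecLin) :
    Y *ᵥ v = X *ᵥ v := by
  have h : (Y - X) *ᵥ v = 0 := hv
  rw [Matrix.sub_mulVec] at h
  exact sub_eq_zero.1 h

/-- The number of eigenvalues of modulus `≤ c` changes by at most the rank of the perturbation. -/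
theorem spc_card_abs_le_add_rank {c : ℝ} (hc : 0 ≤ c) :
    (univ.filter fun i => |hX.eigenvalues i| ≤ c).card
      ≤ (univ.filter fun i => |hY.eigenvalues i| ≤ c).card + (Y - X).rank := by
  obtain ⟨V, hdim, hV⟩ := spc_exists_subspace_abs hX c
  have h1 := spc_finrank_le_inf_ker V (Y - X).mulVecLin
  have h2 := spc_finrank_le_card_abs hY hc (V ⊓ LinearMap.ker (Y - X).mulVecLin) (by
    rintro v ⟨hv, hk⟩
    rw [spc_mulVec_eq_of_ker hk]
    exact hV v hv)
  rw [hdim] at h1
  have h3 : finrank ℝ (LinearMap.range (Y - X).mulVecLin) = (Y - X).rank := rfl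
  omega

theorem spc_card_le_le_add_rank (c : ℝ) :
    (univ.filter fun i => hX.eigenvalues i ≤ c).card
      ≤ (univ.filter fun i => hY.eigenvalues i ≤ c).card + (Y - X).rank := by
  obtain ⟨V, hdim, hV⟩ := spc_exists_subspace_le hX c
  have h1 := spc_finrank_le_inf_ker V (Y - X).mulVecLin
  have h2 := spc_finrank_le_card_le hY c (V ⊓ LinearMap.ker (Y - X).mulVecLin) (by
    rintro v ⟨hv, hk⟩
    rw [spc_mulVec_eq_of_ker hk]
    exact hV v hv)
  rw [hdim] at h1
  have h3 : finrank ℝ (LinearMap.range (Y - X).mulVecLin) = (Y - X).rank := rfl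
  omega

theorem spc_card_ge_le_add_rank (c : ℝ) :
    (univ.filter fun i => c ≤ hX.eigenvalues i).card
      ≤ (univ.filter fun i => c ≤ hY.eigenvalues i).card + (Y - X).rank := by
  obtain ⟨V, hdim, hV⟩ := spc_exists_subspace_ge hX c
  have h1 := spc_finrank_le_inf_ker V (Y - X).mulVecLin
  have h2 := spc_finrank_le_card_ge hY c (V ⊓ LinearMap.ker (Y - X).mulVecLin) (by
    rintro v ⟨hv, hk⟩
    rw [spc_mulVec_eq_of_ker hk]
    exact hV v hv)
  rw [hdim] at h1
  have h3 : finrank ℝ (LinearMap.range (Y - X).mulVecLin) = (Y - X).rank := rfl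
  omega

end rank

/-! ### principal submatrices -/

section sub

variable {m : Type*} [Fintype m] [DecidableEq m] {e : m → n}

/-- extension by zero along `e` -/
noncomputable abbrev spcExt (e : m → n) : (m → ℝ) →ₗ[ℝ] (n → ℝ) :=
  Function.ExtendByZero.linearMap ℝ e

theorem spcExt_apply (he : Function.Injective e) (w : m → ℝ) (a : m) : spcExt e w (e a) = w a := by
  show Function.extend e w 0 (e a) = w a
  exact he.extend_apply _ _ _

theorem spcExt_apply' (w : m → ℝ) {j : n} (hj : ¬ ∃ a, e a = j) : spcExt e w j = 0 := by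
  show Function.extend e w 0 j = 0
  exact Function.extend_apply' _ _ _ hj

theorem spcExt_injective (he : Function.Injective e) : Function.Injective (spcExt e) := by
  intro w w' h
  funext a
  rw [← spcExt_apply he w a, ← spcExt_apply he w' a, h]

theorem spc_sum_ext (he : Function.Injective e) (G : n → ℝ) (w : m → ℝ) :
    ∑ j, G j * spcExt e w j = ∑ a, G (e a) * w a := by
  have h1 : ∑ a, G (e a) * w a = ∑ j ∈ univ.image e, G j * spcExt e w j := by
    rw [Finset.sum_image (fun a _ b _ h => he h)]
    exact Finset.sum_congr rfl (fun a _ => by rw [spcExt_apply he])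
  rw [h1]
  symm
  refine Finset.sum_subset (Finset.subset_univ _) ?_
  intro j _ hj
  have : ¬ ∃ a, e a = j := by
    rintro ⟨a, rfl⟩
    exact hj (Finset.mem_image_of_mem e (mem_univ a))
  rw [spcExt_apply' w this, mul_zero]

variable (A : Matrix n n ℝ)

theorem spc_mulVec_ext (he : Function.Injective e) (w : m → ℝ) (a : m) :
    (A *ᵥ spcExt e w) (e a) = ((A.submatrix e e) *ᵥ w) a := by
  simp only [Matrix.mulVec, dotProduct]
  rw [spc_sum_ext he (fun j => A (e a) j) w]
  rfl

theorem spc_dot_ext (he : Function.Injective e) (w : m → ℝ) :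
    spcExt e w ⬝ᵥ spcExt e w = w ⬝ᵥ w := by
  simp only [dotProduct]
  rw [spc_sum_ext he (fun j => spcExt e w j) w]
  exact Finset.sum_congr rfl (fun a _ => by rw [spcExt_apply he])

theorem spc_quad_ext (he : Function.Injective e) (w : m → ℝ) :
    spcExt e w ⬝ᵥ (A *ᵥ spcExt e w) = w ⬝ᵥ ((A.submatrix e e) *ᵥ w) := by
  rw [dotProduct_comm, dotProduct_comm w]
  simp only [dotProduct]
  rw [spc_sum_ext he (fun j => (A *ᵥ spcExt e w) j) w]
  exact Finset.sum_congr rfl (fun a _ => by rw [spc_mulVec_ext A he])

theorem spc_normsq_ext (he : Function.Injective e) (w : m → ℝ) :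
    ∑ a, (((A.submatrix e e) *ᵥ w) a) ^ 2 ≤ ∑ j, ((A *ᵥ spcExt e w) j) ^ 2 := by
  have h1 : ∑ a, (((A.submatrix e e) *ᵥ w) a) ^ 2
      = ∑ j ∈ univ.image e, ((A *ᵥ spcExt e w) j) ^ 2 := by
    rw [Finset.sum_image (fun a _ b _ h => he h)]
    exact Finset.sum_congr rfl (fun a _ => by rw [spc_mulVec_ext A he])
  rw [h1]
  exact Finset.sum_le_sum_of_subset_of_nonneg (Finset.subset_univ _) (fun j _ _ => sq_nonneg _)

theorem spc_sq_ext (he : Function.Injective e) (w : m → ℝ) :
    ∑ j, (spcExt e w j) ^ 2 = ∑ a, (w a) ^ 2 := by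
  have := spc_dot_ext he w
  simpa [dotProduct, sq] using this

theorem spc_finrank_map_ext (he : Function.Injective e) (V : Submodule ℝ (m → ℝ)) :
    finrank ℝ (V.map (spcExt e)) = finrank ℝ V :=
  (Submodule.equivMapOfInjective (spcExt e) (spcExt_injective he) V).finrank_eq.symm

/-- Cutting a subspace of `n → ℝ` down to the vectors supported on the image of `e`. -/
theorem spc_finrank_le_comap_ext (he : Function.Injective e) (V : Submodule ℝ (n → ℝ)) :
    finrank ℝ V ≤ finrank ℝ (V.comap (spcExt e)) + (Fintype.card n - Fintype.card m) := by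
  classical
  let L : (n → ℝ) →ₗ[ℝ] ({j : n // j ∉ Set.range e} → ℝ) :=
    { toFun := fun v j => v j
      map_add' := fun _ _ => rfl
      map_smul' := fun _ _ => rfl }
  have h1 := spc_finrank_le_inf_ker V L
  have h2 : finrank ℝ (LinearMap.range L) ≤ Fintype.card n - Fintype.card m := by
    have h3 : finrank ℝ (LinearMap.range L) ≤ finrank ℝ ({j : n // j ∉ Set.range e} → ℝ) :=
      Submodule.finrank_le _
    have h4 : finrank ℝ ({j : n // j ∉ Set.range e} → ℝ)
        = Fintype.card {j : n // j ∉ Set.range e} := by simp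
    have h5 : Fintype.card {j : n // j ∉ Set.range e} = Fintype.card n - Fintype.card m := by
      rw [Fintype.card_subtype_compl (fun j => j ∈ Set.range e)]
      congr 1
      exact Set.card_range_of_injective he
    omega
  have h3 : (V.comap (spcExt e)).map (spcExt e) = V ⊓ LinearMap.ker L := by
    ext v
    constructor
    · rintro ⟨w, hw, rfl⟩
      refine ⟨hw, ?_⟩
      show L (spcExt e w) = 0
      funext j
      exact spcExt_apply' w (fun ⟨a, ha⟩ => j.2 ⟨a, ha⟩)
    · rintro ⟨hv, hk⟩
      have hk' : ∀ j, j ∉ Set.range e → v j = 0 := fun j hj => congrFun hk ⟨j, hj⟩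
      have hext : spcExt e (fun a => v (e a)) = v := by
        funext j
        by_cases hj : j ∈ Set.range e
        · obtain ⟨a, rfl⟩ := hj
          rw [spcExt_apply he]
        · rw [hk' j hj]
          exact spcExt_apply' _ (fun ⟨a, ha⟩ => hj ⟨a, ha⟩)
      exact ⟨fun a => v (e a), by show spcExt e _ ∈ V; rw [hext]; exact hv, hext⟩
  rw [← h3, spc_finrank_map_ext he] at h1
  omega

variable {A} (hA : A.IsHermitian) (hB : (A.submatrix e e).IsHermitian)

/-- Cauchy interlacing, counting form: `#{λ(B) ≤ c} ≤ #{λ(A) ≤ c}`. -/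
theorem spc_sub_card_le (he : Function.Injective e) (c : ℝ) :
    (univ.filter fun a => hB.eigenvalues a ≤ c).card
      ≤ (univ.filter fun i => hA.eigenvalues i ≤ c).card := by
  obtain ⟨V, hdim, hV⟩ := spc_exists_subspace_le hB c
  rw [← hdim, ← spc_finrank_map_ext he V]
  refine spc_finrank_le_card_le hA c _ ?_
  rintro _ ⟨w, hw, rfl⟩
  rw [spc_quad_ext A he, spc_dot_ext he]
  exact hV w hw

theorem spc_sub_card_ge (he : Function.Injective e) (c : ℝ) :
    (univ.filter fun a => c ≤ hB.eigenvalues a).card
      ≤ (univ.filter fun i => c ≤ hA.eigenvalues i).card := by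
  obtain ⟨V, hdim, hV⟩ := spc_exists_subspace_ge hB c
  rw [← hdim, ← spc_finrank_map_ext he V]
  refine spc_finrank_le_card_ge hA c _ ?_
  rintro _ ⟨w, hw, rfl⟩
  rw [spc_quad_ext A he, spc_dot_ext he]
  exact hV w hw

theorem spc_sub_card_lt (he : Function.Injective e) (c : ℝ) :
    (univ.filter fun a => hB.eigenvalues a < c).card
      ≤ (univ.filter fun i => hA.eigenvalues i < c).card := by
  obtain ⟨V, hdim, hV⟩ := spc_exists_subspace_lt hB c
  rw [← hdim, ← spc_finrank_map_ext he V]
  refine spc_finrank_le_card_lt hA c _ ?_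
  rintro _ ⟨w, hw, rfl⟩ hne
  rw [spc_quad_ext A he, spc_dot_ext he]
  exact hV w hw (fun h0 => hne (by rw [h0]; simp))

theorem spc_sub_card_gt (he : Function.Injective e) (c : ℝ) :
    (univ.filter fun a => c < hB.eigenvalues a).card
      ≤ (univ.filter fun i => c < hA.eigenvalues i).card := by
  obtain ⟨V, hdim, hV⟩ := spc_exists_subspace_gt hB c
  rw [← hdim, ← spc_finrank_map_ext he V]
  refine spc_finrank_le_card_gt hA c _ ?_
  rintro _ ⟨w, hw, rfl⟩ hne
  rw [spc_quad_ext A he, spc_dot_ext he]
  exact hV w hw (fun h0 => hne (by rw [h0]; simp))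

/-- Cauchy interlacing, counting form: `#{λ(A) ≤ c} ≤ #{λ(B) ≤ c} + (card n - card m)`. -/
theorem spc_card_le_sub_add (he : Function.Injective e) (c : ℝ) :
    (univ.filter fun i => hA.eigenvalues i ≤ c).card
      ≤ (univ.filter fun a => hB.eigenvalues a ≤ c).card + (Fintype.card n - Fintype.card m) := by
  obtain ⟨V, hdim, hV⟩ := spc_exists_subspace_le hA c
  have h1 := spc_finrank_le_comap_ext he V
  have h2 := spc_finrank_le_card_le hB c (V.comap (spcExt e)) (by
    intro w hw
    rw [← spc_quad_ext A he, ← spc_dot_ext he]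
    exact hV _ hw)
  omega

theorem spc_card_ge_sub_add (he : Function.Injective e) (c : ℝ) :
    (univ.filter fun i => c ≤ hA.eigenvalues i).card
      ≤ (univ.filter fun a => c ≤ hB.eigenvalues a).card + (Fintype.card n - Fintype.card m) := by
  obtain ⟨V, hdim, hV⟩ := spc_exists_subspace_ge hA c
  have h1 := spc_finrank_le_comap_ext he V
  have h2 := spc_finrank_le_card_ge hB c (V.comap (spcExt e)) (by
    intro w hw
    rw [← spc_quad_ext A he, ← spc_dot_ext he]
    exact hV _ hw)
  omega

theorem spc_card_lt_sub_add (he : Function.Injective e) (c : ℝ) :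
    (univ.filter fun i => hA.eigenvalues i < c).card
      ≤ (univ.filter fun a => hB.eigenvalues a < c).card + (Fintype.card n - Fintype.card m) := by
  obtain ⟨V, hdim, hV⟩ := spc_exists_subspace_lt hA c
  have h1 := spc_finrank_le_comap_ext he V
  have h2 := spc_finrank_le_card_lt hB c (V.comap (spcExt e)) (by
    intro w hw hne
    rw [← spc_quad_ext A he, ← spc_dot_ext he]
    exact hV _ hw (fun h0 => hne (spcExt_injective he (by rw [h0]; simp))))
  omega

theorem spc_card_gt_sub_add (he : Function.Injective e) (c : ℝ) :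
    (univ.filter fun i => c < hA.eigenvalues i).card
      ≤ (univ.filter fun a => c < hB.eigenvalues a).card + (Fintype.card n - Fintype.card m) := by
  obtain ⟨V, hdim, hV⟩ := spc_exists_subspace_gt hA c
  have h1 := spc_finrank_le_comap_ext he V
  have h2 := spc_finrank_le_card_gt hB c (V.comap (spcExt e)) (by
    intro w hw hne
    rw [← spc_quad_ext A he, ← spc_dot_ext he]
    exact hV _ hw (fun h0 => hne (spcExt_injective he (by rw [h0]; simp))))
  omega

/-- small eigenvalues of `A` survive in a principal submatrix, up to the codimension. -/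
theorem spc_card_abs_sub_add (he : Function.Injective e) {c : ℝ} (hc : 0 ≤ c) :
    (univ.filter fun i => |hA.eigenvalues i| ≤ c).card
      ≤ (univ.filter fun a => |hB.eigenvalues a| ≤ c).card
        + (Fintype.card n - Fintype.card m) := by
  obtain ⟨V, hdim, hV⟩ := spc_exists_subspace_abs hA c
  have h1 := spc_finrank_le_comap_ext he V
  have h2 := spc_finrank_le_card_abs hB hc (V.comap (spcExt e)) (by
    intro w hw
    calc ∑ a, (((A.submatrix e e) *ᵥ w) a) ^ 2 ≤ ∑ j, ((A *ᵥ spcExt e w) j) ^ 2 :=
          spc_normsq_ext A he w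
      _ ≤ c ^ 2 * ∑ j, (spcExt e w j) ^ 2 := hV _ hw
      _ = c ^ 2 * ∑ a, (w a) ^ 2 := by rw [spc_sq_ext he])
  omega

omit [Fintype n] [DecidableEq n] [DecidableEq m] in
/-- `#{|x| ≤ c} + #{x < -c} = #{x ≤ c}` for a finite family of reals, `c ≥ 0`. -/
theorem spc_card_abs_split (x : m → ℝ) {c : ℝ} (hc : 0 ≤ c) :
    (univ.filter fun a => |x a| ≤ c).card + (univ.filter fun a => x a < -c).card
      = (univ.filter fun a => x a ≤ c).card := by
  classical
  rw [← Finset.card_union_of_disjoint]
  · congr 1
    ext a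
    simp only [mem_union, mem_filter, mem_univ, true_and, abs_le]
    constructor
    · rintro (h | h)
      · exact h.2
      · linarith
    · intro h
      by_cases h2 : x a < -c
      · exact Or.inr h2
      · exact Or.inl ⟨not_lt.1 h2, h⟩
  · rw [Finset.disjoint_left]
    intro a ha hb
    simp only [mem_filter, mem_univ, true_and, abs_le] at ha hb
    linarith [ha.1]

/-- small eigenvalues of a principal submatrix come from small eigenvalues of `A`, up to the
codimension. -/
theorem spc_sub_card_abs_le_add (he : Function.Injective e) {c : ℝ} (hc : 0 ≤ c) :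
    (univ.filter fun a => |hB.eigenvalues a| ≤ c).card
      ≤ (univ.filter fun i => |hA.eigenvalues i| ≤ c).card
        + (Fintype.card n - Fintype.card m) := by
  have h1 := spc_card_abs_split hB.eigenvalues hc
  have h2 := spc_card_abs_split hA.eigenvalues hc
  have h3 := spc_sub_card_le hA hB he c
  have h4 := spc_card_lt_sub_add hA hB he (-c)
  omega

end sub

end Claimed.Agent.Lib
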